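import Vale.Agent.P147.Flux.Defs

/-!
P147: elementary facts on the quenched law, the joint law of two walkers and the flux.
-/

open MeasureTheory Filter
open scoped ENNReal Topology

noncomputable section

namespace Vale.Agent.P147.Flux

variable {d : ℕ}

lemma sh_sh (a b : Pos d) (ω : Env d) : sh a (sh b ω) = sh (a + b) ω := by
  funext x; simp [sh, add_assoc]

lemma sh_zero (ω : Env d) : sh (0 : Pos d) ω = ω := by funext x; simp [sh]

lemma measurable_sh (z : Pos d) : Measurable (sh (d := d) z) :=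
  measurable_pi_lambda _ fun x => measurable_pi_apply (x + z)

lemma measurableSet_climb [NeZero d] (δ : Step d) (n p : ℕ) : MeasurableSet (Climb δ n p) :=
  ((detBy_hit δ _ le_rfl).inter (detBy_stayH _ p)).measurableSet

lemma measurableSet_meet (Δ : Pos d) (s u : ℕ) :
    MeasurableSet {x : (ℕ → Step d) × (ℕ → Step d) | pos x.1 s = Δ + pos x.2 u} :=
  measurableSet_eq_fun ((measurable_pos s).comp measurable_fst)
    ((measurable_of_countable fun z : Pos d => Δ + z).comp ((measurable_pos u).comp measurable_snd))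

lemma measurableSet_avoidTill (Δ : Pos d) (t : ℕ) : MeasurableSet (AvoidTill Δ t) := by
  simp only [AvoidTill, Set.ofPred_forall]
  exact MeasurableSet.iInter fun s => MeasurableSet.iInter fun u => MeasurableSet.iInter fun _ =>
    (measurableSet_meet Δ s u).compl

lemma measurableSet_noShare (Δ : Pos d) : MeasurableSet (NoShare Δ) := by
  simp only [NoShare, Set.ofPred_forall]
  exact MeasurableSet.iInter fun s => MeasurableSet.iInter fun u => (measurableSet_meet Δ s u).compl

variable [NeZero d] {μ : Measure (Step d → ℝ)}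

lemma measurableSet_coin (δ : Step d) (Δ : Pos d) (L n : ℕ) :
    MeasurableSet (Coin δ Δ L n) := by
  have hF := Dir.measurableSet_fwd (l := Planar.ax δ)
  have : Coin δ Δ L n = ⋃ p, ⋃ (_ : p ≤ L), ⋃ p', ⋃ (_ : p' ≤ L),
      (Climb δ n p ∩ shift p ⁻¹' Dir.Fwd (Planar.ax δ)) ×ˢ
        (Climb δ n p' ∩ shift p' ⁻¹' Dir.Fwd (Planar.ax δ)) ∩ {x | pos x.1 p = Δ + pos x.2 p'} := by
    ext x
    simp only [Coin, Set.mem_ofPred_eq, Set.mem_iUnion, Set.mem_inter_iff, Set.mem_prod,
      Set.mem_preimage, exists_prop]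
    constructor
    · rintro ⟨p, hp, p', hp', h1, h2, h3, h4, h5⟩
      exact ⟨p, hp, p', hp', ⟨⟨h1, h4⟩, ⟨h2, h5⟩⟩, h3⟩
    · rintro ⟨p, hp, p', hp', ⟨⟨h1, h4⟩, ⟨h2, h5⟩⟩, h3⟩
      exact ⟨p, hp, p', hp', h1, h2, h3, h4, h5⟩
  rw [this]
  exact MeasurableSet.iUnion fun p => MeasurableSet.iUnion fun _ => MeasurableSet.iUnion fun p' =>
    MeasurableSet.iUnion fun _ => (((measurableSet_climb δ n p).inter (measurable_shift p hF)).prod
      ((measurableSet_climb δ n p').inter (measurable_shift p' hF))).inter (measurableSet_meet Δ p p')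

lemma isProbability_envLaw (hμ : Elliptic μ) : IsProbabilityMeasure (envLaw μ) := by
  have := hμ.1
  exact inferInstanceAs (IsProbabilityMeasure (Measure.infinitePi fun _ : Pos d => μ))

lemma mp_sh (hμ : Elliptic μ) (z : Pos d) : MeasurePreserving (sh z) (envLaw μ) (envLaw μ) :=
  translate_invariant hμ z

lemma measurable_stepsOf_left (ω : Env d) :
    Measurable fun u : ℕ → ℝ => stepsOf (ω, u) :=
  measurable_stepsOf.comp (measurable_const.prodMk measurable_id)

lemma qlaw_apply (ω : Env d) {S : Set (ℕ → Step d)} (hS : MeasurableSet S) :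
    qlaw ω S = (Measure.infinitePi fun _ : ℕ => unif) ((fun u => stepsOf (ω, u)) ⁻¹' S) :=
  Measure.map_apply (measurable_stepsOf_left ω) hS

instance (ω : Env d) : IsProbabilityMeasure (qlaw ω) :=
  Measure.isProbabilityMeasure_map (measurable_stepsOf_left ω).aemeasurable

lemma measurable_qlaw {S : Set (ℕ → Step d)} (hS : MeasurableSet S) :
    Measurable fun ω : Env d => qlaw ω S := by
  rw [funext fun ω => qlaw_apply ω hS]
  exact measurable_measure_prodMk_left (measurable_stepsOf hS)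

lemma nu_eq_lintegral {S : Set (ℕ → Step d)} (hS : MeasurableSet S) :
    nu μ S = ∫⁻ ω, qlaw ω S ∂envLaw μ := by
  rw [nu, Measure.map_apply measurable_stepsOf hS, annealed,
    Measure.prod_apply (measurable_stepsOf hS)]
  exact lintegral_congr fun ω => (qlaw_apply ω hS).symm

lemma measurable_pair (Δ : Pos d) : Measurable fun q : Env d × ((ℕ → ℝ) × (ℕ → ℝ)) =>
    (stepsOf (q.1, q.2.1), stepsOf (sh Δ q.1, q.2.2)) :=
  (measurable_stepsOf.comp (measurable_fst.prodMk (measurable_fst.comp measurable_snd))).prodMk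
    (measurable_stepsOf.comp
      (((measurable_sh Δ).comp measurable_fst).prodMk (measurable_snd.comp measurable_snd)))

lemma isProbability_joint (hμ : Elliptic μ) (Δ : Pos d) :
    IsProbabilityMeasure (joint μ Δ) := by
  have := isProbability_envLaw hμ
  exact Measure.isProbabilityMeasure_map (measurable_pair Δ).aemeasurable

/-- The joint law of a rectangle. -/
lemma joint_rect (Δ : Pos d) {A B : Set (ℕ → Step d)} (hA : MeasurableSet A)
    (hB : MeasurableSet B) :
    joint μ Δ (A ×ˢ B) = ∫⁻ ω, qlaw ω A * qlaw (sh Δ ω) B ∂envLaw μ := by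
  rw [joint, Measure.map_apply (measurable_pair Δ) (hA.prod hB),
    Measure.prod_apply (measurable_pair Δ (hA.prod hB))]
  refine lintegral_congr fun ω => ?_
  rw [qlaw_apply ω hA, qlaw_apply _ hB, ← Measure.prod_prod]
  rfl

/-- Markov property at the start of both walkers. -/
lemma ae_markov_sh (hμ : Elliptic μ) (hM : MarkovStmt μ) (Δ : Pos d) :
    ∀ᵐ ω ∂envLaw μ, ∀ (n : ℕ) (ξ : ℕ → Step d) (F : Set (ℕ → Step d)), MeasurableSet F →
      qlaw (sh Δ ω) (cyl n ξ ∩ shift n ⁻¹' F) = W n ξ (sh Δ ω) * qlaw (sh (pos ξ n + Δ) ω) F := by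
  filter_upwards [(mp_sh hμ Δ).quasiMeasurePreserving.ae hM] with ω hω n ξ F hF
  rw [hω n ξ F hF, sh_sh]

/-- The two first stretches and two futures, quenched. -/
lemma joint_markov (hμ : Elliptic μ) (hM : MarkovStmt μ) (Δ : Pos d) (p p' : ℕ)
    (ξ ξ' : ℕ → Step d) {A B : Set (ℕ → Step d)} (hA : MeasurableSet A) (hB : MeasurableSet B) :
    joint μ Δ ((cyl p ξ ∩ shift p ⁻¹' A) ×ˢ (cyl p' ξ' ∩ shift p' ⁻¹' B)) =
      ∫⁻ ω, W p ξ ω * qlaw (sh (pos ξ p) ω) A *
        (W p' ξ' (sh Δ ω) * qlaw (sh (pos ξ' p' + Δ) ω) B) ∂envLaw μ := by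
  rw [joint_rect Δ ((measurableSet_cyl p ξ).inter (measurable_shift p hA))
    ((measurableSet_cyl p' ξ').inter (measurable_shift p' hB))]
  refine lintegral_congr_ae ?_
  filter_upwards [hM, ae_markov_sh hμ hM Δ] with ω h1 h2
  rw [h1 p ξ A hA, h2 p' ξ' B hB]

lemma joint_cyl (hμ : Elliptic μ) (hM : MarkovStmt μ) (Δ : Pos d) (p p' : ℕ)
    (ξ ξ' : ℕ → Step d) :
    joint μ Δ (cyl p ξ ×ˢ cyl p' ξ') = ∫⁻ ω, W p ξ ω * W p' ξ' (sh Δ ω) ∂envLaw μ := by
  have h := joint_markov hμ hM Δ p p' ξ ξ' MeasurableSet.univ MeasurableSet.univ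
  simpa using h

lemma measurable_flux (δ : Step d) (L n : ℕ) : Measurable (flux δ L n) := by
  classical
  refine (Finset.measurable_sum _ fun p _ => Finset.measurable_sum _ fun σ _ => ?_).mul
    (measurable_qlaw Dir.measurableSet_fwd)
  exact (measurable_W _ _).comp (measurable_sh _)

end Vale.Agent.P147.Flux
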