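import Vale.Agent.P147.Planar.Ballistic
import Vale.Agent.P147.Esc

/-!
P147: the quenched flux into a site, pairs of walkers in one environment, and the interfaces for
the theorem that one fast side forces the zero-one law in dimension at least four.
-/

open MeasureTheory Filter
open scoped ENNReal Topology

noncomputable section

namespace Vale.Agent.P147.Flux

variable {d : ℕ}

/-- The environment seen from `z`. -/
def sh (z : Pos d) (ω : Env d) : Env d := fun x => ω (x + z)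

/-- The walks whose steps before `t` leave no site that the other walk ever visits. -/
def AvoidTill (Δ : Pos d) (t : ℕ) : Set ((ℕ → Step d) × (ℕ → Step d)) :=
  {x | ∀ s, ∀ u < t, pos x.1 s ≠ Δ + pos x.2 u}

/-- The two walks visit no common site. -/
def NoShare (Δ : Pos d) : Set ((ℕ → Step d) × (ℕ → Step d)) :=
  {x | ∀ s u, pos x.1 s ≠ Δ + pos x.2 u}

/-- A prefix of `p` steps climbing to level `n` without going back. -/
def Climb (δ : Step d) (n p : ℕ) : Set (ℕ → Step d) := Hit δ (n : ℤ) p ∩ StayH (Up δ) p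

variable [NeZero d]

/-- The environment law. -/
def envLaw (μ : Measure (Step d → ℝ)) : Measure (Env d) := Measure.infinitePi fun _ : Pos d => μ

/-- The quenched law of the steps from the origin. -/
def qlaw (ω : Env d) : Measure (ℕ → Step d) :=
  (Measure.infinitePi fun _ : ℕ => unif).map fun u => stepsOf (ω, u)

/-- The joint law of a walker from the origin and one from `Δ` in one environment. -/
def joint (μ : Measure (Step d → ℝ)) (Δ : Pos d) :
    Measure ((ℕ → Step d) × (ℕ → Step d)) :=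
  ((envLaw μ).prod ((Measure.infinitePi fun _ : ℕ => unif).prod
    (Measure.infinitePi fun _ : ℕ => unif))).map
      fun q => (stepsOf (q.1, q.2.1), stepsOf (sh Δ q.1, q.2.2))

/-- The flux into the origin from level `-n`, in at most `L` steps, of walkers regenerating here. -/
def flux (δ : Step d) (L n : ℕ) (ω : Env d) : ℝ≥0∞ := by
  classical
  exact (∑ p ∈ Finset.range (L + 1),
    ∑ σ ∈ Finset.univ.filter (fun σ : Fin p → Step d => ext' σ ∈ Climb δ n p),
      W p (ext' σ) (sh (-pos (ext' σ) p) ω)) * qlaw ω (Dir.Fwd (Planar.ax δ))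

/-- The walkers regenerate at level `n` at one site, within `L` steps. -/
def Coin (δ : Step d) (Δ : Pos d) (L n : ℕ) : Set ((ℕ → Step d) × (ℕ → Step d)) :=
  {x | ∃ p ≤ L, ∃ p' ≤ L, x.1 ∈ Climb δ n p ∧ x.2 ∈ Climb δ n p' ∧
    pos x.1 p = Δ + pos x.2 p' ∧ shift p x.1 ∈ Dir.Fwd (Planar.ax δ) ∧
    shift p' x.2 ∈ Dir.Fwd (Planar.ax δ)}

/-- Module Quenched: the Markov property. -/
def MarkovStmt (μ : Measure (Step d → ℝ)) : Prop :=
  ∀ᵐ ω ∂envLaw μ, ∀ (n : ℕ) (ξ : ℕ → Step d) (F : Set (ℕ → Step d)), MeasurableSet F →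
    qlaw ω (cyl n ξ ∩ shift n ⁻¹' F) = W n ξ ω * qlaw (sh (pos ξ n) ω) F

/-- Module Quenched: futures above a common level are independent of the two pasts. -/
def FactorStmt (μ : Measure (Step d → ℝ)) (δ : Step d) : Prop :=
  ∀ (Δ : Pos d) (p p' : ℕ) (ξ ξ' : ℕ → Step d) (S : Set ((ℕ → Step d) × (ℕ → Step d))),
    MeasurableSet S → S ⊆ NoBack δ ×ˢ NoBack δ →
    ht δ (Δ + pos ξ' p') = ht δ (pos ξ p) →
    (∀ s < p, ht δ (pos ξ s) < ht δ (pos ξ p)) →
    (∀ s < p', ht δ (Δ + pos ξ' s) < ht δ (pos ξ p)) →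
    joint μ Δ (cyl p ξ ×ˢ cyl p' ξ' ∩ (fun x => (shift p x.1, shift p' x.2)) ⁻¹' S) =
      joint μ Δ (cyl p ξ ×ˢ cyl p' ξ') * joint μ (Δ + pos ξ' p' - pos ξ p) S

/-- Module Quenched: until the first contact the walkers are independent. -/
def ContactStmt (μ : Measure (Step d → ℝ)) : Prop :=
  ∀ (Δ : Pos d) (F : Set (ℕ → Step d)), MeasurableSet F →
    (∀ (t : ℕ) (ζ : ℕ → Step d), joint μ Δ (F ×ˢ cyl t ζ ∩ AvoidTill Δ t) =
      ((nu μ).prod (nu μ)) (F ×ˢ cyl t ζ ∩ AvoidTill Δ t)) ∧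
    ∀ G : Set (ℕ → Step d), MeasurableSet G → joint μ Δ (F ×ˢ G ∩ NoShare Δ) =
      ((nu μ).prod (nu μ)) (F ×ˢ G ∩ NoShare Δ)

/-- Module Renewal: a forward walk spends bounded mean time at every level. -/
def VisitStmt (μ : Measure (Step d → ℝ)) (δ : Step d) : Prop :=
  ∃ C : ℝ≥0∞, C ≠ ∞ ∧ ∀ j : ℤ, ∫⁻ η, (Dir.Fwd (Planar.ax δ)).indicator
    (fun η => ∑' t, if hgt δ η t = j then (1 : ℝ≥0∞) else 0) η ∂nu μ ≤ C

/-- Module Renewal: the averaged flux keeps a positive mass. -/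
def MassStmt (μ : Measure (Step d → ℝ)) (δ : Step d) : Prop :=
  ∃ K : ℕ, ∃ c : ℝ≥0∞, c ≠ 0 ∧ ∀ᶠ N : ℕ in atTop,
    c * N ≤ ∫⁻ ω, ∑ n ∈ Finset.range N, flux δ (K * N) n ω ∂envLaw μ

/-- Module Avoid: two independent forward walks from different sites can miss each other. -/
def MissStmt (μ : Measure (Step d → ℝ)) (δ : Step d) : Prop :=
  ∃ Δ : Pos d, ht δ Δ = 0 ∧ 0 < ((nu μ).prod (nu μ))
    (Dir.Fwd (Planar.ax δ) ×ˢ Dir.Fwd (Planar.ax δ) ∩ NoShare Δ)

/-- Module Moment: the flux has bounded second moment in mean. -/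
def MomentStmt (μ : Measure (Step d → ℝ)) (δ : Step d) : Prop :=
  ∃ C : ℝ≥0∞, C ≠ ∞ ∧ ∀ L N : ℕ,
    ∫⁻ ω, ∑ n ∈ Finset.range N, flux δ L n ω ^ 2 ∂envLaw μ ≤ C * (L + 1)

/-- Module Ergodic: events invariant under all translations are trivial. -/
def ErgodicStmt (μ : Measure (Step d → ℝ)) : Prop :=
  ∀ A : Set (Env d), MeasurableSet A → (∀ e : Step d, envLaw μ (A \ sh (vec e) ⁻¹' A) = 0) →
    envLaw μ A = 0 ∨ envLaw μ A = 1

/-- Module Escape: unbounded walks escape when going on without return is possible. -/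
def EscapeStmt (μ : Measure (Step d → ℝ)) (δ : Step d) : Prop :=
  nu μ (Unbdd δ) = 1 → 0 < nu μ (Dir.Fwd (Planar.ax δ)) → nu μ (Dir.Escape (Planar.ax δ)) = 1

end Vale.Agent.P147.Flux
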