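import Vale.Agent.P147.Flux.Api

/-!
P147: the Markov property of the quenched law, independence of disjoint parts of the environment,
and the two consequences for a pair of walkers in one environment.
-/

open MeasureTheory Filter
open scoped ENNReal Topology

noncomputable section

namespace Vale.Agent.P147.Flux

variable {d : ℕ}

/-- All rows are positive probability vectors. -/
def GoodEnv (ω : Env d) : Prop := ∀ x, (∀ e, 0 < ω x e) ∧ ∑ e, ω x e = 1

lemma goodEnv_sh {ω : Env d} (h : GoodEnv ω) (z : Pos d) : GoodEnv (sh z ω) := fun x => h (x + z)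

lemma W_local {n : ℕ} {ξ : ℕ → Step d} {ω ω' : Env d}
    (h : ∀ s < n, ω (pos ξ s) = ω' (pos ξ s)) : W n ξ ω = W n ξ ω' :=
  Finset.prod_congr rfl fun s hs => by rw [h s (Finset.mem_range.mp hs)]

variable {μ : Measure (Step d → ℝ)}

/-- Functions of disjoint parts of the environment are independent. -/
theorem lintegral_mul_local (hμ : Elliptic μ) (H : Set (Pos d)) {A B : Env d → ℝ≥0∞}
    (hA : Measurable A) (hB : Measurable B)
    (hA' : ∀ ω ω', (∀ x ∈ H, ω x = ω' x) → A ω = A ω')
    (hB' : ∀ ω ω', (∀ x ∉ H, ω x = ω' x) → B ω = B ω') :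
    ∫⁻ ω, A ω * B ω ∂Measure.infinitePi (fun _ : Pos d => μ) =
      (∫⁻ ω, A ω ∂Measure.infinitePi fun _ : Pos d => μ) *
        ∫⁻ ω, B ω ∂Measure.infinitePi fun _ : Pos d => μ := by
  classical
  have := hμ.1
  let P := Measure.infinitePi fun _ : Pos d => μ
  let M : Env d × Env d → Env d := fun q x => if x ∈ H then q.1 x else q.2 x
  have hM : Measurable M := measurable_pi_lambda _ fun x => by
    by_cases hx : x ∈ H <;> simp only [M, hx, if_true, if_false] <;> fun_prop
  have hmap : (P.prod P).map M = P := by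
    refine Measure.eq_infinitePi _ fun s t mt => ?_
    rw [Measure.map_apply hM (MeasurableSet.pi s.countable_toSet fun i _ => mt i)]
    have hpre : M ⁻¹' Set.pi ↑s t
        = Set.pi ↑(s.filter (· ∈ H)) t ×ˢ Set.pi ↑(s.filter (· ∉ H)) t := by
      ext q
      simp only [M, Set.mem_preimage, Set.mem_pi, Set.mem_prod, Finset.coe_filter,
        Set.mem_ofPred_eq]
      constructor
      · intro h
        exact ⟨fun i hi => by simpa [hi.2] using h i hi.1,
          fun i hi => by simpa [hi.2] using h i hi.1⟩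
      · intro h i hi
        by_cases hx : i ∈ H
        · simpa [hx] using h.1 i ⟨hi, hx⟩
        · simpa [hx] using h.2 i ⟨hi, hx⟩
    rw [hpre, Measure.prod_prod]
    simp only [P]
    rw [Measure.infinitePi_pi _ fun i _ => mt i, Measure.infinitePi_pi _ fun i _ => mt i]
    exact Finset.prod_filter_mul_prod_filter_not s _ _
  calc ∫⁻ ω, A ω * B ω ∂P
      = ∫⁻ q, A (M q) * B (M q) ∂P.prod P := by
        conv_lhs => rw [← hmap]
        exact lintegral_map (hA.mul hB) hM
    _ = ∫⁻ q, A q.1 * B q.2 ∂P.prod P := lintegral_congr fun q => by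
        rw [hA' (M q) q.1 fun x hx => if_pos hx, hB' (M q) q.2 fun x hx => if_neg hx]
    _ = _ := lintegral_prod_mul hA.aemeasurable hB.aemeasurable

variable [NeZero d]

lemma qlaw_cyl {ω : Env d} (hω : GoodEnv ω) (n : ℕ) (ξ : ℕ → Step d) :
    qlaw ω (cyl n ξ) = W n ξ ω := by
  rw [qlaw_apply _ (measurableSet_cyl n ξ)]
  have hpre : (fun u => stepsOf (ω, u)) ⁻¹' cyl n ξ
      = Set.pi ↑(Finset.range n) (fun t => {v | choose (ω (pos ξ t)) v = ξ t}) := by
    ext u; simp [stepsOf_mem_cyl]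
  rw [hpre, Measure.infinitePi_pi _ fun t _ => ?_]
  · exact Finset.prod_congr rfl fun t _ =>
      unif_choose (fun e => ((hω _).1 e).le) (hω _).2 _
  · exact measurable_choose.comp (measurable_const.prodMk measurable_id)
      (MeasurableSet.singleton (ξ t))

/-- A walk that stays in `H` only reads the rows in `H`. -/
lemma steps_local {ω ω' : Env d} (H : Set (Pos d)) (h : ∀ x ∈ H, ω x = ω' x) (u : ℕ → ℝ)
    (hs : stepsOf (ω, u) ∈ Stay H) : stepsOf (ω', u) = stepsOf (ω, u) := by
  have key : ∀ t, walkPos (ω', u) t = walkPos (ω, u) t := by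
    intro t
    induction t with
    | zero => rfl
    | succ t ih =>
      have := hs t
      rw [pos_stepsOf] at this
      simp only [walkPos, ih, h _ this]
  funext t
  have := hs t
  rw [pos_stepsOf] at this
  simp only [stepsOf, key t, h _ this]

lemma qlaw_local {ω ω' : Env d} (H : Set (Pos d)) (h : ∀ x ∈ H, ω x = ω' x)
    {S : Set (ℕ → Step d)} (hS : MeasurableSet S) (hSH : S ⊆ Stay H) :
    qlaw ω S = qlaw ω' S := by
  rw [qlaw_apply _ hS, qlaw_apply _ hS]
  congr 1
  ext u
  exact ⟨fun hu => by rw [Set.mem_preimage, steps_local H h u (hSH hu)]; exact hu,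
    fun hu => by
      rw [Set.mem_preimage, steps_local H (fun x hx => (h x hx).symm) u (hSH hu)]; exact hu⟩

lemma pair_apply (Δ : Pos d) (ω : Env d) {S : Set ((ℕ → Step d) × (ℕ → Step d))}
    (hS : MeasurableSet S) :
    ((qlaw ω).prod (qlaw (sh Δ ω))) S =
      ((Measure.infinitePi fun _ : ℕ => unif).prod (Measure.infinitePi fun _ : ℕ => unif))
        {v | (stepsOf (ω, v.1), stepsOf (sh Δ ω, v.2)) ∈ S} := by
  rw [qlaw, qlaw, Measure.map_prod_map _ _ (measurable_stepsOf_left ω)
    (measurable_stepsOf_left (sh Δ ω)), Measure.map_apply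
      ((measurable_stepsOf_left ω).prodMap (measurable_stepsOf_left (sh Δ ω))) hS]
  rfl

lemma measurable_pair_apply (Δ : Pos d) {S : Set ((ℕ → Step d) × (ℕ → Step d))}
    (hS : MeasurableSet S) :
    Measurable fun ω : Env d => ((qlaw ω).prod (qlaw (sh Δ ω))) S := by
  simp only [pair_apply Δ _ hS]
  exact measurable_measure_prodMk_left (measurable_pair Δ hS)

lemma joint_apply (Δ : Pos d) {S : Set ((ℕ → Step d) × (ℕ → Step d))} (hS : MeasurableSet S) :
    joint μ Δ S = ∫⁻ ω, ((qlaw ω).prod (qlaw (sh Δ ω))) S ∂envLaw μ := by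
  rw [joint, Measure.map_apply (measurable_pair Δ) hS,
    Measure.prod_apply (measurable_pair Δ hS)]
  exact lintegral_congr fun ω => (pair_apply Δ ω hS).symm

lemma ae_good (hμ : Elliptic μ) : ∀ᵐ ω ∂envLaw μ, GoodEnv ω := ae_rows hμ

lemma map_shift_qlaw {ω : Env d} (hω : GoodEnv ω) (n : ℕ) (ξ : ℕ → Step d) :
    ((qlaw ω).restrict (cyl n ξ)).map (shift n) = W n ξ ω • qlaw (sh (pos ξ n) ω) := by
  have : IsFiniteMeasure (W n ξ ω • qlaw (sh (pos ξ n) ω)) :=
    Measure.smul_finite _ (by rw [← qlaw_cyl hω]; exact measure_ne_top _ _)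
  refine ext_cyl fun m ζ => ?_
  rw [Measure.map_apply (measurable_shift n) (measurableSet_cyl m ζ),
    Measure.restrict_apply (measurable_shift n (measurableSet_cyl m ζ)), Set.inter_comm,
    cyl_inter_shift, qlaw_cyl hω, W_glue, Measure.smul_apply, smul_eq_mul,
    qlaw_cyl (goodEnv_sh hω _)]
  rfl

/-- Module Quenched: the Markov property. -/
theorem markov (hμ : Elliptic μ) : MarkovStmt μ := by
  filter_upwards [ae_good hμ] with ω hω n ξ F hF
  rw [Set.inter_comm, ← Measure.restrict_apply (measurable_shift n hF),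
    ← Measure.map_apply (measurable_shift n) hF, map_shift_qlaw hω, Measure.smul_apply,
    smul_eq_mul]

lemma pair_markov {ω : Env d} (hω : GoodEnv ω) (Δ : Pos d) (p p' : ℕ) (ξ ξ' : ℕ → Step d)
    {S : Set ((ℕ → Step d) × (ℕ → Step d))} (hS : MeasurableSet S) :
    ((qlaw ω).prod (qlaw (sh Δ ω)))
        (cyl p ξ ×ˢ cyl p' ξ' ∩ (fun x => (shift p x.1, shift p' x.2)) ⁻¹' S) =
      W p ξ ω * W p' ξ' (sh Δ ω) *
        ((qlaw (sh (pos ξ p) ω)).prod (qlaw (sh (pos ξ' p' + Δ) ω))) S := by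
  have hT : Measurable (fun x : (ℕ → Step d) × (ℕ → Step d) => (shift p x.1, shift p' x.2)) :=
    (measurable_shift p).prodMap (measurable_shift p')
  rw [Set.inter_comm, ← Measure.restrict_apply (hT hS), ← Measure.prod_restrict,
    ← Measure.map_apply hT hS,
    show (fun x : (ℕ → Step d) × (ℕ → Step d) => (shift p x.1, shift p' x.2))
      = Prod.map (shift p) (shift p') from rfl,
    ← Measure.map_prod_map _ _ (measurable_shift p) (measurable_shift p'), map_shift_qlaw hω,
    map_shift_qlaw (goodEnv_sh hω Δ), sh_sh, Measure.prod_smul_left, Measure.prod_smul_right,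
    smul_smul, Measure.smul_apply, smul_eq_mul]

/-- Module Quenched: futures above a common level are independent of the two pasts. -/
theorem factor (hμ : Elliptic μ) (δ : Step d) : FactorStmt μ δ := by
  intro Δ p p' ξ ξ' S hS hSsub hlev hpast hpast'
  have hT : Measurable (fun x : (ℕ → Step d) × (ℕ → Step d) => (shift p x.1, shift p' x.2)) :=
    (measurable_shift p).prodMap (measurable_shift p')
  set Δ' : Pos d := Δ + pos ξ' p' - pos ξ p with hΔ'
  have hflat : ht δ Δ' = 0 := by rw [hΔ', ht_sub]; omega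
  set T : Env d → ℝ≥0∞ := fun ω => ((qlaw ω).prod (qlaw (sh Δ' ω))) S with hTdef
  have hTm : Measurable T := measurable_pair_apply Δ' hS
  have hTloc : ∀ ω ω' : Env d, (∀ y ∈ Up δ, ω y = ω' y) → T ω = T ω' := by
    intro ω ω' h
    have hsh : ∀ y ∈ Up δ, sh Δ' ω y = sh Δ' ω' y := fun y hy => h _ (by
      show 0 ≤ ht δ (y + Δ')
      rw [ht_add, hflat, add_zero]
      exact hy)
    simp only [hTdef, pair_apply Δ' _ hS]
    congr 1
    ext v
    constructor
    · intro hv
      show (_, _) ∈ S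
      rw [steps_local (Up δ) h v.1 (hSsub hv).1, steps_local (Up δ) hsh v.2 (hSsub hv).2]
      exact hv
    · intro hv
      show (_, _) ∈ S
      rw [steps_local (Up δ) (fun y hy => (h y hy).symm) v.1 (hSsub hv).1,
        steps_local (Up δ) (fun y hy => (hsh y hy).symm) v.2 (hSsub hv).2]
      exact hv
  rw [joint_apply Δ (((measurableSet_cyl p ξ).prod (measurableSet_cyl p' ξ')).inter (hT hS)),
    joint_cyl hμ (markov hμ), joint_apply Δ' hS]
  have key : ∀ᵐ ω ∂envLaw μ, ((qlaw ω).prod (qlaw (sh Δ ω)))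
      (cyl p ξ ×ˢ cyl p' ξ' ∩ (fun x => (shift p x.1, shift p' x.2)) ⁻¹' S) =
      W p ξ ω * W p' ξ' (sh Δ ω) * T (sh (pos ξ p) ω) := by
    filter_upwards [ae_good hμ] with ω hω
    rw [pair_markov hω Δ p p' ξ ξ' hS]
    simp only [hTdef, sh_sh, hΔ', sub_add_cancel, add_comm Δ]
  rw [lintegral_congr_ae key]
  refine (lintegral_mul_local hμ {y | ht δ y < ht δ (pos ξ p)}
    ((measurable_W p ξ).mul ((measurable_W p' ξ').comp (measurable_sh Δ)))
    (hTm.comp (measurable_sh _)) (fun ω ω' h => ?_) fun ω ω' h => ?_).trans ?_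
  · simp only [Pi.mul_apply, Function.comp_apply]
    rw [W_local fun s hs => h _ (hpast s hs), W_local (ω := sh Δ ω) (ω' := sh Δ ω') fun s hs =>
      h _ (by rw [Set.mem_ofPred_eq, add_comm]; exact hpast' s hs)]
  · refine hTloc _ _ fun y hy => h _ ?_
    have hy0 : 0 ≤ ht δ y := hy
    rw [Set.mem_ofPred_eq, ht_add]
    omega
  · congr 1
    exact (mp_sh hμ (pos ξ p)).lintegral_comp hTm

/-- Module Quenched: until the first contact the walkers are independent. -/
theorem contact (hμ : Elliptic μ) : ContactStmt μ := by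
  intro Δ F hF
  have := isProbabilityMeasure_nu hμ
  have := isProbability_joint hμ Δ
  have hfin : ∀ (t : ℕ) (ζ : ℕ → Step d), joint μ Δ (F ×ˢ cyl t ζ ∩ AvoidTill Δ t) =
      ((nu μ).prod (nu μ)) (F ×ˢ cyl t ζ ∩ AvoidTill Δ t) := by
    intro t ζ
    set A : Set (Pos d) := {y | ∀ u < t, y ≠ Δ + pos ζ u} with hA
    have hset : F ×ˢ cyl t ζ ∩ AvoidTill Δ t = (F ∩ Stay A) ×ˢ cyl t ζ := by
      ext ⟨a, b⟩
      simp only [Set.mem_inter_iff, Set.mem_prod, AvoidTill, Stay, hA, Set.mem_ofPred_eq]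
      constructor
      · rintro ⟨⟨ha, hb⟩, h⟩
        exact ⟨⟨ha, fun s u hu => by
          rw [← pos_congr fun r hr => hb r (by omega)]; exact h s u hu⟩, hb⟩
      · rintro ⟨⟨ha, h⟩, hb⟩
        exact ⟨⟨ha, hb⟩, fun s u hu => by
          rw [pos_congr fun r hr => hb r (by omega)]; exact h s u hu⟩
    have hFA : MeasurableSet (F ∩ Stay A) := hF.inter (measurableSet_stay A)
    rw [hset, Measure.prod_prod, joint_rect Δ hFA (measurableSet_cyl t ζ)]
    have key : ∀ᵐ ω ∂envLaw μ, qlaw ω (F ∩ Stay A) * qlaw (sh Δ ω) (cyl t ζ) =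
        qlaw ω (F ∩ Stay A) * W t ζ (sh Δ ω) := by
      filter_upwards [ae_good hμ] with ω hω
      rw [qlaw_cyl (goodEnv_sh hω Δ)]
    rw [lintegral_congr_ae key]
    refine (lintegral_mul_local hμ A (measurable_qlaw hFA)
      ((measurable_W t ζ).comp (measurable_sh Δ))
      (fun ω ω' h => qlaw_local A h hFA Set.inter_subset_right) fun ω ω' h => ?_).trans ?_
    · exact W_local (ω := sh Δ ω) (ω' := sh Δ ω') fun u hu => h _ fun hmem => hmem u hu (add_comm _ _)
    · rw [nu_eq_lintegral hFA]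
      congr 1
      exact ((mp_sh hμ Δ).lintegral_comp (measurable_W t ζ)).trans (w_eq_lintegral hμ t ζ).symm
  refine ⟨hfin, fun G hG => ?_⟩
  -- measures of the second coordinate
  have hmK : ∀ (M : Measure ((ℕ → Step d) × (ℕ → Step d))) (K : Set _) (G : Set (ℕ → Step d)),
      MeasurableSet G → (M.restrict (F ×ˢ Set.univ ∩ K)).map Prod.snd G = M (F ×ˢ G ∩ K) := by
    intro M K G hG
    rw [Measure.map_apply measurable_snd hG, Measure.restrict_apply (measurable_snd hG)]
    congr 1
    ext x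
    simp only [Set.mem_inter_iff, Set.mem_preimage, Set.mem_prod, Set.mem_univ, and_true]
    tauto
  suffices h : ((joint μ Δ).restrict (F ×ˢ Set.univ ∩ NoShare Δ)).map Prod.snd =
      (((nu μ).prod (nu μ)).restrict (F ×ˢ Set.univ ∩ NoShare Δ)).map Prod.snd by
    rw [← hmK _ _ G hG, h, hmK _ _ G hG]
  refine ext_cyl fun n ζ => ?_
  rw [hmK _ _ _ (measurableSet_cyl n ζ), hmK _ _ _ (measurableSet_cyl n ζ)]
  have hI : F ×ˢ cyl n ζ ∩ NoShare Δ = ⋂ T : ℕ, F ×ˢ cyl n ζ ∩ AvoidTill Δ (n + T) := by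
    rw [← Set.inter_iInter]
    congr 1
    ext x
    simp only [NoShare, AvoidTill, Set.mem_iInter, Set.mem_ofPred_eq]
    exact ⟨fun h T s u _ => h s u, fun h s u => h (u + 1) s u (by omega)⟩
  have hanti : Antitone fun T : ℕ => F ×ˢ cyl n ζ ∩ AvoidTill Δ (n + T) := fun T T' hT x hx =>
    ⟨hx.1, fun s u hu => hx.2 s u (by omega)⟩
  have hmeas : ∀ T : ℕ, MeasurableSet (F ×ˢ cyl n ζ ∩ AvoidTill Δ (n + T)) := fun T =>
    (hF.prod (measurableSet_cyl n ζ)).inter (measurableSet_avoidTill Δ _)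
  rw [hI, hanti.measure_iInter (fun T => (hmeas T).nullMeasurableSet) ⟨0, measure_ne_top _ _⟩,
    hanti.measure_iInter (fun T => (hmeas T).nullMeasurableSet) ⟨0, measure_ne_top _ _⟩]
  refine iInf_congr fun T => ?_
  rw [← hmK _ _ _ (measurableSet_cyl n ζ), ← hmK _ _ _ (measurableSet_cyl n ζ)]
  refine measure_eq_of_detBy (detBy_cyl (Nat.le_add_right n T) ζ) fun θ _ => ?_
  rw [hmK _ _ _ (measurableSet_cyl _ θ), hmK _ _ _ (measurableSet_cyl _ θ)]
  exact hfin _ θ

end Vale.Agent.P147.Flux
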