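import Vale.Agent.P147.Flux.Api
import Vale.Agent.P147.Flux.Quenched
import Vale.Agent.P147.Dir.Regen

/-!
P147: translation invariant events of the environment are trivial, and a walk reaching every level
escapes when it can go on without return.
-/

open MeasureTheory Filter
open scoped ENNReal Topology symmDiff

noncomputable section

namespace Vale.Agent.P147.Flux

/-- A measurable event on a product space is close to one depending on finitely many coordinates. -/
lemma approx_cylinder {ι : Type*} {α : Type*} [MeasurableSpace α] (P : Measure (ι → α))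
    [IsFiniteMeasure P] {A : Set (ι → α)} (hA : MeasurableSet A) {ε : ℝ≥0∞} (hε : 0 < ε) :
    ∃ (I : Finset ι) (G : Set (ι → α)), MeasurableSet G ∧
      (∀ x y, (∀ i ∈ I, x i = y i) → x ∈ G → y ∈ G) ∧ P (G ∆ A) < ε := by
  obtain ⟨G, hG, hlt⟩ := exists_measure_symmDiff_lt_of_generateFrom_isSetRing (μ := P)
    (C := measurableCylinders fun _ : ι => α) isSetRing_measurableCylinders
    ⟨{Set.univ}, Set.countable_singleton _,
      by simpa using univ_mem_measurableCylinders (fun _ : ι => α), by simp⟩
    generateFrom_measurableCylinders.symm hA hε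
  obtain ⟨I, S, hS, rfl⟩ := (mem_measurableCylinders G).mp hG
  refine ⟨I, _, hS.cylinder, fun x y hxy hx => ?_, hlt⟩
  have he : I.restrict x = I.restrict y := by funext i; exact hxy i i.2
  simp only [mem_cylinder] at hx ⊢
  rwa [← he]

lemma real_le_of_symmDiff {Ω : Type*} [MeasurableSpace Ω] (P : Measure Ω) [IsFiniteMeasure P]
    (s t : Set Ω) : P.real s ≤ P.real t + P.real (t ∆ s) :=
  (measureReal_mono fun x hx => by
    by_cases h : x ∈ t
    · exact Or.inl h
    · exact Or.inr (Or.inr ⟨hx, h⟩)).trans (measureReal_union_le _ _)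

variable {d : ℕ} [NeZero d] {μ : Measure (Step d → ℝ)}

/-- Module Ergodic: events invariant under all translations are trivial. -/
theorem ergodic (hμ : Elliptic μ) : ErgodicStmt μ := by
  classical
  intro A hA hinv
  have := isProbability_envLaw hμ
  set P := envLaw μ
  let e : Step d := (0, true)
  have hmp : ∀ z : Pos d, MeasurePreserving (sh z) P P := fun z => mp_sh hμ z
  have hshA : ∀ z : Pos d, MeasurableSet (sh z ⁻¹' A) := fun z => measurable_sh z hA
  have hone : (sh (vec e) ⁻¹' A : Set (Env d)) =ᵐ[P] A :=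
    (ae_eq_of_ae_subset_of_measure_ge (ae_le_set.mpr (hinv e))
      ((hmp (vec e)).measure_preimage hA.nullMeasurableSet).le hA.nullMeasurableSet
      (measure_ne_top _ _)).symm
  have hall : ∀ m : ℕ, (sh (m • vec e) ⁻¹' A : Set (Env d)) =ᵐ[P] A := by
    intro m
    induction m with
    | zero =>
      rw [zero_smul, show sh (d := d) (0 : Pos d) = id from funext sh_zero, Set.preimage_id]
      exact ae_eq_refl A
    | succ m ih =>
      have h : sh (d := d) ((m + 1) • vec e) = sh (vec e) ∘ sh (m • vec e) := funext fun ω => by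
        rw [Function.comp_apply, sh_sh, succ_nsmul, add_comm]
      rw [h, Set.preimage_comp]
      exact ((hmp (m • vec e)).quasiMeasurePreserving.preimage_ae_eq hone).trans ih
  have key : ∀ ε : ℝ, 0 < ε → |P.real A - P.real A ^ 2| ≤ 4 * ε := by
    intro ε hε
    obtain ⟨I, G, hG, hdep, hlt⟩ := approx_cylinder P hA (ENNReal.ofReal_pos.mpr hε)
    have hd : P.real (G ∆ A) ≤ ε := by
      rw [measureReal_def]
      exact ENNReal.toReal_le_of_le_ofReal hε.le hlt.le
    set B := I.sup fun x => (x 0).natAbs
    set z : Pos d := (2 * B + 1) • vec e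
    have hfar : ∀ x ∈ I, x + z ∉ I := by
      intro x hx hxz
      have h1 : (x 0).natAbs ≤ B := Finset.le_sup (f := fun x : Pos d => (x 0).natAbs) hx
      have h2 : ((x + z) 0).natAbs ≤ B := Finset.le_sup (f := fun x : Pos d => (x 0).natAbs) hxz
      simp [z, e, vec] at h2
      omega
    have hindep : P (G ∩ sh z ⁻¹' G) = P G * P G := by
      have hG' : MeasurableSet (sh z ⁻¹' G) := measurable_sh z hG
      have h := lintegral_mul_local hμ (↑I : Set (Pos d)) (A := G.indicator 1)
        (B := (sh z ⁻¹' G).indicator 1) (measurable_one.indicator hG)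
        (measurable_one.indicator hG') (fun ω ω' he => ?_) (fun ω ω' he => ?_)
      · rw [show (fun ω : Env d => G.indicator (1 : Env d → ℝ≥0∞) ω *
            (sh z ⁻¹' G).indicator 1 ω) = (G ∩ sh z ⁻¹' G).indicator 1 from
          (Set.inter_indicator_one (M₀ := ℝ≥0∞)).symm] at h
        rw [lintegral_indicator_one (hG.inter hG'), lintegral_indicator_one hG,
          lintegral_indicator_one hG'] at h
        exact h.trans (congrArg (P G * ·) ((hmp z).measure_preimage hG.nullMeasurableSet))
      · have hiff : ω ∈ G ↔ ω' ∈ G :=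
          ⟨hdep ω ω' fun i hi => he i hi, hdep ω' ω fun i hi => (he i hi).symm⟩
        by_cases hh : ω ∈ G <;> simp [hh, hiff.symm]
      · have hiff : sh z ω ∈ G ↔ sh z ω' ∈ G :=
          ⟨hdep _ _ fun i hi => he _ (hfar i hi), hdep _ _ fun i hi => (he _ (hfar i hi)).symm⟩
        by_cases hh : sh z ω ∈ G
        · rw [Set.indicator_of_mem (show ω ∈ sh z ⁻¹' G from hh),
            Set.indicator_of_mem (show ω' ∈ sh z ⁻¹' G from hiff.mp hh)]
          rfl
        · rw [Set.indicator_of_notMem (show ω ∉ sh z ⁻¹' G from hh),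
            Set.indicator_of_notMem (show ω' ∉ sh z ⁻¹' G from fun h => hh (hiff.mpr h))]
    have hGG : P.real (G ∩ sh z ⁻¹' G) = P.real G ^ 2 := by
      rw [measureReal_def, hindep, ENNReal.toReal_mul, measureReal_def, sq]
    have hAA : P.real (A ∩ sh z ⁻¹' A) = P.real A := by
      rw [measureReal_def, measureReal_def]
      congr 1
      refine measure_congr ?_
      have := (ae_eq_refl A).inter (hall (2 * B + 1))
      rwa [Set.inter_self] at this
    have hshd : P.real (sh z ⁻¹' (G ∆ A)) ≤ ε := by
      rw [measureReal_def, (hmp z).measure_preimage (hG.symmDiff hA).nullMeasurableSet]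
      exact hd
    have hsub : (G ∩ sh z ⁻¹' G) ∆ (A ∩ sh z ⁻¹' A) ⊆ (G ∆ A) ∪ sh z ⁻¹' (G ∆ A) := by
      intro ω hω
      simp only [Set.mem_symmDiff, Set.mem_inter_iff, Set.mem_union, Set.mem_preimage] at hω ⊢
      tauto
    have hdd : P.real ((G ∩ sh z ⁻¹' G) ∆ (A ∩ sh z ⁻¹' A)) ≤ 2 * ε :=
      ((measureReal_mono hsub).trans (measureReal_union_le _ _)).trans (by linarith)
    have e1 := real_le_of_symmDiff P A G
    have e2 := real_le_of_symmDiff P G A
    have e3 := real_le_of_symmDiff P (A ∩ sh z ⁻¹' A) (G ∩ sh z ⁻¹' G)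
    have e4 := real_le_of_symmDiff P (G ∩ sh z ⁻¹' G) (A ∩ sh z ⁻¹' A)
    rw [symmDiff_comm A G] at e2
    rw [symmDiff_comm (A ∩ sh z ⁻¹' A)] at e4
    rw [hGG, hAA] at e3 e4
    have hg : P.real G ≤ 1 := measureReal_le_one
    have ha : P.real A ≤ 1 := measureReal_le_one
    have hg0 : 0 ≤ P.real G := measureReal_nonneg
    have ha0 : 0 ≤ P.real A := measureReal_nonneg
    rw [abs_le]
    constructor <;> nlinarith
  have hz : P.real A - P.real A ^ 2 = 0 := by
    by_contra hne
    have hpos := abs_pos.mpr hne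
    have := key (|P.real A - P.real A ^ 2| / 8) (by linarith)
    linarith
  have hfac : P.real A * (1 - P.real A) = 0 := by linear_combination hz
  rcases mul_eq_zero.mp hfac with h | h
  · exact Or.inl ((measureReal_eq_zero_iff).mp h)
  · refine Or.inr ?_
    rw [← ofReal_measureReal (μ := P) (s := A), show P.real A = 1 by linarith, ENNReal.ofReal_one]

/-- Module Escape: unbounded walks escape when going on without return is possible. -/
theorem escape (hμ : Elliptic μ) (δ : Step d) : EscapeStmt μ δ := by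
  classical
  intro hU hF
  have := isProbabilityMeasure_nu hμ
  set P := nu μ
  have hEm := Dir.RegenPf.measurableSet_escape (l := Planar.ax δ)
  have hUm : MeasurableSet (Unbdd δ) := by
    have : Unbdd δ = ⋂ j : ℕ, ⋃ n, (fun η => hgt δ η n) ⁻¹' Set.Ici (j : ℤ) := by
      ext η; simp [Unbdd]
    rw [this]
    exact MeasurableSet.iInter fun j => MeasurableSet.iUnion fun n =>
      measurable_hgt δ n MeasurableSet.of_discrete
  set B := Unbdd δ \ Dir.Escape (Planar.ax δ)
  have hBm : MeasurableSet B := hUm.diff hEm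
  have hB0 : P B * P (Dir.Fwd (Planar.ax δ)) = 0 := by
    refine le_antisymm (le_of_forall_gt_imp_ge_of_dense fun η hη => ?_) zero_le
    have hη2 : (0 : ℝ≥0∞) < η / 2 := ENNReal.half_pos hη.ne'
    obtain ⟨I, G, hG, hdep, hlt⟩ := approx_cylinder P hBm hη2
    set H := I.sup id + 1
    have hdet : DetBy H G := fun a b hab ha => hdep a b (fun i hi => hab i (by
      have : id i ≤ I.sup id := Finset.le_sup hi
      simp only [id_eq] at this
      omega)) ha
    set E : ℕ → Set (ℕ → Step d) := fun p => G ∩ Hit δ ((H + 1 : ℕ) : ℤ) p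
    set E' : ℕ → Set (ℕ → Step d) := fun p =>
      E p ∩ shift p ⁻¹' (Set.univ ∩ Dir.Fwd (Planar.ax δ))
    have hlate : ∀ p, ∀ ξ ∈ E p, H < p := by
      intro p ξ hξ
      have := hgt_le δ ξ p
      rw [hξ.2.1] at this
      omega
    have hEdet : ∀ p, DetBy p (E p) := by
      intro p a b hab ha
      exact ⟨(hdet.mono (hlate p a ha).le) a b hab ha.1, detBy_hit δ _ le_rfl a b hab ha.2⟩
    have hsplit : ∀ p, P (E' p) = P (E p) * P (Dir.Fwd (Planar.ax δ)) := by
      intro p
      have := Dir.RegenPf.split_fwd hμ (hEdet p) (fun ξ hξ s hs hmem => ?_) MeasurableSet.univ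
        (l := Planar.ax δ)
      · rw [this, Set.univ_inter]
      · have h1 := hξ.2.2 s hs
        rw [← hξ.2.1] at h1
        simp only [Dir.RegenPf.Above, Set.mem_ofPred_eq, Planar.lht_ax, Int.cast_nonneg_iff, ht_sub] at hmem
        simp only [hgt] at h1
        omega
    have hdisj : Pairwise (Function.onFun Disjoint E) := fun p q hpq =>
      Set.disjoint_left.mpr fun ξ h1 h2 => hpq (hit_unique h1.2 h2.2)
    have hdisj' : Pairwise (Function.onFun Disjoint E') := fun p q hpq =>
      (hdisj hpq).mono Set.inter_subset_left Set.inter_subset_left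
    have hEm' : ∀ p, MeasurableSet (E' p) := fun p => (hEdet p).measurableSet.inter
      (measurable_shift p (MeasurableSet.univ.inter (Dir.RegenPf.measurableSet_fwd (Planar.ax δ))))
    have hsum : P (⋃ p, E' p) = P (⋃ p, E p) * P (Dir.Fwd (Planar.ax δ)) := by
      rw [measure_iUnion hdisj' hEm', measure_iUnion hdisj fun p => (hEdet p).measurableSet,
        ← ENNReal.tsum_mul_right]
      exact tsum_congr hsplit
    have hsmall : P (⋃ p, E' p) ≤ η / 2 := by
      refine le_trans (measure_mono fun ξ hξ => ?_) hlt.le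
      obtain ⟨p, hp⟩ := Set.mem_iUnion.mp hξ
      exact Or.inl ⟨hp.1.1, fun hb => hb.2 ((Dir.RegenPf.escape_shift p).mp hp.2.2.2)⟩
    have hbig : P B ≤ P (⋃ p, E p) + η / 2 := by
      refine le_trans (measure_mono fun ξ hξ => ?_) ((measure_union_le _ _).trans
        (add_le_add le_rfl hlt.le))
      by_cases hx : ξ ∈ G
      · obtain ⟨n, hn⟩ := hξ.1 (H + 1)
        obtain ⟨p, -, hp⟩ := exists_hit δ hn
        exact Or.inl (Set.mem_iUnion.mpr ⟨p, hx, hp⟩)
      · exact Or.inr (Or.inr ⟨hξ, hx⟩)
    calc P B * P (Dir.Fwd (Planar.ax δ))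
        ≤ (P (⋃ p, E p) + η / 2) * P (Dir.Fwd (Planar.ax δ)) := mul_le_mul' hbig le_rfl
      _ = P (⋃ p, E' p) + η / 2 * P (Dir.Fwd (Planar.ax δ)) := by rw [add_mul, hsum]
      _ ≤ η / 2 + η / 2 * 1 := add_le_add hsmall (mul_le_mul' le_rfl prob_le_one)
      _ = η := by rw [mul_one, ENNReal.add_halves]
  have hB : P B = 0 := (mul_eq_zero.mp hB0).resolve_right hF.ne'
  refine le_antisymm prob_le_one ?_
  calc (1 : ℝ≥0∞) = P (Unbdd δ) := hU.symm
    _ ≤ P (Dir.Escape (Planar.ax δ)) + P B :=
      le_trans (measure_mono fun ξ hξ => by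
        by_cases h : ξ ∈ Dir.Escape (Planar.ax δ)
        · exact Or.inl h
        · exact Or.inr ⟨hξ, h⟩) (measure_union_le _ _)
    _ = _ := by rw [hB, add_zero]

end Vale.Agent.P147.Flux
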