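import Vale.Agent.P147.Flux.Renewal

/-!
P147: in dimension at least four two independent forward walks with finite mean block time miss
each other from some pair of starting sites in one level.
-/

open MeasureTheory Filter
open scoped ENNReal Topology

noncomputable section

namespace Vale.Agent.P147.Flux

variable {d : ℕ} [NeZero d] {μ : Measure (Step d → ℝ)} {δ : Step d}

/-- Finite mean block time gives linear escape with positive probability. -/
lemma esc_one_pos (hX : Planar.Side μ δ) : 0 < nu μ (Esc δ 1) := by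
  have hR := hX.regen
  have := hR.prob
  set l := Planar.ax δ
  set T : (ℕ → Step d) → ℝ := fun η => (Dir.tau l η : ℝ) with hT
  have hTm : Measurable T := (measurable_of_countable fun n : ℕ => (n : ℝ)).comp hR.measurable_tau
  have hTb : Dir.BlockFun l T := fun η η' _ _ _ _ h _ => by simp only [hT, h]
  have hTi : Integrable T (Dir.fwdLaw μ l) := by
    refine ⟨hTm.aestronglyMeasurable, ?_⟩
    rw [hasFiniteIntegral_iff_ofReal (Eventually.of_forall fun η => Nat.cast_nonneg _)]
    refine lt_of_le_of_lt (le_of_eq (lintegral_congr fun η => ?_)) hX.time.lt_top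
    simp [l]
  set B : ℝ := |∫ η, T η ∂Dir.fwdLaw μ l| + 1 with hB
  have hae : ∀ᵐ η ∂Dir.fwdLaw μ l, η ∈ Esc δ 1 := by
    filter_upwards [hR.blocks, hR.slln hTm hTb hTi] with η hb hs
    have hbk : ∀ k, ∃ t, Dir.RegT l ((Dir.next l)^[k] η) t := fun k => (hb k).2
    choose κ hκ1 hκ2 using Dir.exists_block hbk
    have hev : ∀ᶠ k : ℕ in atTop, (Dir.ctime l k η : ℝ) / k < B := by
      refine (hs.congr fun k => ?_).eventually_lt_const
        ((le_abs_self _).trans_lt (lt_add_one _))
      simp [hT, Dir.ctime]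
    obtain ⟨K, hK⟩ := eventually_atTop.mp (hev.and (eventually_gt_atTop 0))
    have hB0 : 0 < B := by positivity
    refine ⟨1 / (2 * B), by positivity, eventually_atTop.mpr
      ⟨Dir.ctime l (K + 1) η, fun t ht => ?_⟩⟩
    have hk : K < κ t + 1 := by
      by_contra hc
      have := (Dir.ctime_strictMono hbk).monotone (show κ t + 1 ≤ K + 1 by omega)
      have := hκ2 t
      omega
    have hk1 : (1 : ℝ) ≤ κ t := by
      have h2 : K < κ t + 1 ∧ 0 < κ t := ⟨hk, (hK (κ t) (by omega)).2⟩
      exact_mod_cast h2.2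
    obtain ⟨h1, -⟩ := hK (κ t + 1) (by omega)
    rw [div_lt_iff₀ (by positivity)] at h1
    have h2 : (t : ℝ) ≤ Dir.ctime l (κ t + 1) η := by exact_mod_cast (hκ2 t).le
    have h3 : (κ t : ℝ) ≤ hgt δ η t := by
      obtain ⟨q, hq⟩ : ∃ q, κ t = q := ⟨_, rfl⟩
      obtain ⟨u, hu⟩ := Nat.exists_eq_add_of_le (hκ1 t)
      rw [hq] at hu ⊢
      subst hu
      have h4 := Dir.le_lh_ctime hbk q
      rw [Planar.lh_ax] at h4
      have h5 := Planar.fwd_ax δ (hb q).1 u
      rw [Dir.next_iterate] at h5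
      rw [hgt_add]
      have h6 : (0 : ℝ) ≤ hgt δ (shift (Dir.ctime l q η) η) u := by exact_mod_cast h5
      push_cast
      linarith
    rw [Real.rpow_one, div_mul_eq_mul_div, one_mul, div_le_iff₀ (by positivity)]
    push_cast at h1
    nlinarith
  refine pos_iff_ne_zero.mpr fun h0 => ?_
  have h1 : Dir.fwdLaw μ l (Esc δ 1) = 1 := (prob_compl_eq_zero_iff measurableSet_esc).mp hae
  rw [Dir.RegenPf.fwdLaw_apply,
    measure_mono_null Set.inter_subset_left h0, mul_zero] at h1
  exact one_ne_zero h1.symm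

omit [NeZero d] in
/-- Cut steps sit at distinct levels up to the present one. -/
lemma card_cuts_le {η : ℕ → Step d} (hη : η ∈ NoBack δ) (m : ℕ) (j : Fin d) :
    (cuts δ m j η).card ≤ (hgt δ η m).toNat + 1 := by
  have hf : ∀ p ∈ cuts δ m j η, (hgt δ η p).toNat ∈ Finset.range ((hgt δ η m).toNat + 1) := by
    intro p hp
    obtain ⟨⟨hpm, hlat, -, hafter⟩, -⟩ := mem_cuts.mp hp
    have h0 := mem_noBack.mp hη p
    have h1 : hgt δ η p ≤ hgt δ η m := by
      rcases (show p + 1 < m ∨ p + 1 = m by omega) with h | h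
      · exact (hafter m le_rfl h).le
      · rw [← h, hgt_succ, ht_vec_lat hlat, add_zero]
    rw [Finset.mem_range]
    omega
  refine (Finset.card_le_card_of_injOn (fun p => (hgt δ η p).toNat) hf fun p hp q hq he => ?_).trans
    (le_of_eq (Finset.card_range _))
  have hp' := (mem_cuts.mp (Finset.mem_coe.mp hp)).1
  have hq' := (mem_cuts.mp (Finset.mem_coe.mp hq)).1
  have := mem_noBack.mp hη p
  have := mem_noBack.mp hη q
  simp only at he
  rcases lt_trichotomy p q with h | h | h
  · have := hq'.2.2.1 p h; omega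
  · exact h
  · have := hp'.2.2.1 q h; omega

omit [NeZero d] in
/-- A summable concentration factor forces escape. -/
lemma fwd_of_summable {C : ℝ} (hC : 0 < C) {η : ℕ → Step d} (hη : η ∈ NoBack δ)
    (hs : ∑' m, psi C δ m η ≠ ∞) : η ∈ Dir.Fwd (Planar.ax δ) := by
  refine ⟨fun t => ?_, ?_⟩
  · rw [Planar.lh_ax]; exact_mod_cast mem_noBack.mp hη t
  · refine tendsto_atTop.mpr fun b => ?_
    obtain ⟨M, hM⟩ := exists_nat_ge b
    set c : ℝ≥0∞ := ∏ _j ∈ Finset.univ.erase δ.1, ENNReal.ofReal (C / √((M : ℝ) + 2)) with hc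
    have hc0 : 0 < c := pos_iff_ne_zero.mpr (Finset.prod_ne_zero_iff.mpr fun _ _ =>
      (ENNReal.ofReal_pos.mpr (by positivity)).ne')
    filter_upwards [(ENNReal.tendsto_atTop_zero_of_tsum_ne_top hs).eventually_lt_const hc0]
      with m hm
    rw [Planar.lh_ax]
    refine hM.trans ?_
    by_contra hlt
    refine hm.not_ge (Finset.prod_le_prod' fun j _ => ENNReal.ofReal_le_ofReal ?_)
    refine div_le_div_of_nonneg_left hC.le (by positivity) (Real.sqrt_le_sqrt ?_)
    have hle : hgt δ η m < M := by exact_mod_cast not_le.mp hlt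
    have h1 : (cuts δ m j η).card ≤ M + 1 := (card_cuts_le hη m j).trans (by omega)
    have h2 : ((cuts δ m j η).card : ℝ) ≤ M + 1 := by exact_mod_cast h1
    linarith

/-- A bounded sum of concentration factors gives a bound at each site, summable over levels. -/
lemma exists_site_bound (hμ : Elliptic μ) {C : ℝ}
    (hconc : ∀ (m : ℕ) (g : (ℕ → Step d) → ℝ≥0∞), (∀ η η', Like δ m η η' → g η = g η') →
      ∀ v : Pos d, ∫⁻ η, {η | pos η m = v}.indicator g η ∂nu μ ≤
        ∫⁻ η, {η | hgt δ η m = ht δ v}.indicator (fun η => g η * psi C δ m η) η ∂nu μ)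
    {G : Set (ℕ → Step d)} (hGm : MeasurableSet G) (c₀ : ℕ)
    (hG : ∀ η ∈ G, ∑' m, psi C δ m η ≤ c₀) :
    ∃ b : ℤ → ℝ≥0∞, ∑' j, b j ≤ c₀ ∧
      ∀ z : Pos d, ∑' m, nu μ (G ∩ {η | pos η m = z}) ≤ b (ht δ z) := by
  classical
  have := isProbabilityMeasure_nu hμ
  -- per site bound, of finite total over the levels
  set gate : ℕ → (ℕ → Step d) → ℝ≥0∞ := fun m η =>
    if ∑ r ∈ Finset.range (m + 1), psi C δ r η ≤ c₀ then 1 else 0 with hgate
  have hgl : ∀ m η η', Like δ m η η' → gate m η = gate m η' := fun m η η' h => by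
    simp only [hgate]
    rw [Finset.sum_congr rfl fun r hr =>
      (h.mono (show r ≤ m by simp at hr; omega)).psi_eq C]
  have hgm : ∀ m, Measurable fun η => gate m η * psi C δ m η := fun m =>
    measurable_of_det (H := m) fun η η' h => by
      rw [hgl m η η' (like_of_agree h), (like_of_agree h).psi_eq C]
  set b : ℤ → ℝ≥0∞ := fun j => ∑' m, ∫⁻ η,
    {η : ℕ → Step d | hgt δ η m = j}.indicator (fun η => gate m η * psi C δ m η) η ∂nu μ with hb
  have hbsum : ∑' j, b j ≤ c₀ := by
    simp only [hb]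
    rw [ENNReal.tsum_comm]
    have h1 : ∀ m, ∑' j : ℤ, ∫⁻ η, {η : ℕ → Step d | hgt δ η m = j}.indicator
        (fun η => gate m η * psi C δ m η) η ∂nu μ = ∫⁻ η, gate m η * psi C δ m η ∂nu μ := by
      intro m
      rw [← lintegral_tsum fun j : ℤ => ((hgm m).indicator (show MeasurableSet
        {η : ℕ → Step d | hgt δ η m = j} from
          measurable_hgt δ m (measurableSet_singleton j))).aemeasurable]
      refine lintegral_congr fun η => ?_
      rw [tsum_eq_single (hgt δ η m) fun j hj => Set.indicator_of_notMem (fun h => hj h.symm) _]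
      exact Set.indicator_of_mem (show η ∈ {ζ : ℕ → Step d | hgt δ ζ m = hgt δ η m} from rfl) _
    simp only [h1]
    rw [← lintegral_tsum fun m => (hgm m).aemeasurable]
    calc ∫⁻ η, ∑' m, gate m η * psi C δ m η ∂nu μ ≤ ∫⁻ _, (c₀ : ℝ≥0∞) ∂nu μ := by
          refine lintegral_mono fun η => ?_
          rw [ENNReal.tsum_eq_iSup_nat]
          refine iSup_le fun N => le_of_eq_of_le (Finset.sum_congr rfl fun m _ => ?_)
            (sum_indicator_gate (fun r => psi C δ r η) c₀ N)
          simp only [hgate, ite_mul, one_mul, zero_mul]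
      _ = c₀ := by simp
  have hsite : ∀ z : Pos d, ∑' m, nu μ (G ∩ {η | pos η m = z}) ≤ b (ht δ z) := by
    intro z
    refine ENNReal.tsum_le_tsum fun m => le_trans ?_ (hconc m (gate m) (hgl m) z)
    have hm : MeasurableSet (G ∩ {η : ℕ → Step d | pos η m = z}) :=
      hGm.inter (measurable_pos m (measurableSet_singleton z))
    rw [← lintegral_indicator_one hm]
    refine lintegral_mono fun η => ?_
    by_cases hη : η ∈ G ∩ {η : ℕ → Step d | pos η m = z}
    · rw [Set.indicator_of_mem hη, Set.indicator_of_mem hη.2]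
      simp only [hgate, Pi.one_apply]
      rw [if_pos ((ENNReal.sum_le_tsum _).trans (hG η hη.1))]
    · rw [Set.indicator_of_notMem hη]; exact zero_le
  exact ⟨b, hbsum, hsite⟩

/-- Meeting probabilities from many starting sites in one level, summed. -/
lemma sum_share_le (hμ : Elliptic μ) {G : Set (ℕ → Step d)} (hGm : MeasurableSet G)
    {b : ℤ → ℝ≥0∞} {V : ℝ≥0∞}
    (hsite : ∀ z : Pos d, ∑' m, nu μ (G ∩ {η | pos η m = z}) ≤ b (ht δ z))
    (hlev : ∀ j : ℤ, ∑' m, nu μ (G ∩ {η | hgt δ η m = j}) ≤ V)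
    {D : ℕ → Pos d} (hDi : Function.Injective D) (hDh : ∀ k, ht δ (D k) = 0) (K : ℕ) :
    ∑ k ∈ Finset.range K, ((nu μ).prod (nu μ)) (G ×ˢ G \ NoShare (D k)) ≤
      ∑' j, min ((K : ℝ≥0∞) * b j) V * ∑' u, nu μ (G ∩ {η | hgt δ η u = j}) := by
  have := isProbabilityMeasure_nu hμ
  have hstep : ∀ k, ((nu μ).prod (nu μ)) (G ×ˢ G \ NoShare (D k)) ≤ ∫⁻ η, G.indicator (fun η =>
      ∑' u, ∑' s, nu μ (G ∩ {ζ | pos ζ s = D k + pos η u})) η ∂nu μ := by
    intro k
    have hsm : MeasurableSet (G ×ˢ G \ NoShare (D k)) := (hGm.prod hGm).diff (measurableSet_noShare _)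
    rw [Measure.prod_apply_symm hsm]
    refine lintegral_mono fun η => ?_
    by_cases hη : η ∈ G
    · rw [Set.indicator_of_mem hη]
      refine (measure_mono (t := ⋃ u, ⋃ s, G ∩ {ζ | pos ζ s = D k + pos η u})
        fun ζ hζ => ?_).trans ((measure_iUnion_le _).trans
          (ENNReal.tsum_le_tsum fun u => measure_iUnion_le _))
      obtain ⟨⟨hζG, -⟩, hns⟩ := hζ
      simp only [NoShare, Set.mem_ofPred_eq, not_forall, not_not] at hns
      obtain ⟨s, u, hsu⟩ := hns
      exact Set.mem_iUnion₂.mpr ⟨u, s, hζG, hsu⟩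
    · rw [Set.indicator_of_notMem hη]
      refine le_of_eq (measure_mono_null (fun ζ hζ => absurd hζ.1.2 hη) measure_empty)
  refine (Finset.sum_le_sum fun k _ => hstep k).trans ?_
  have hfk : ∀ k, Measurable fun η => G.indicator (fun η =>
      ∑' u, ∑' s, nu μ (G ∩ {ζ | pos ζ s = D k + pos η u})) η := fun k =>
    (Measurable.ennreal_tsum fun u => (measurable_of_countable fun z : Pos d =>
      ∑' s, nu μ (G ∩ {ζ | pos ζ s = D k + z})).comp (measurable_pos u)).indicator hGm
  rw [← lintegral_finsetSum _ fun k _ => hfk k]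
  calc ∫⁻ η, ∑ k ∈ Finset.range K, G.indicator (fun η =>
        ∑' u, ∑' s, nu μ (G ∩ {ζ | pos ζ s = D k + pos η u})) η ∂nu μ
      ≤ ∫⁻ η, ∑' u, ∑' j, min ((K : ℝ≥0∞) * b j) V *
          (G ∩ {η | hgt δ η u = j}).indicator 1 η ∂nu μ := by
        refine lintegral_mono fun η => ?_
        by_cases hη : η ∈ G
        · simp only [Set.indicator_of_mem hη]
          rw [← Summable.tsum_finsetSum fun k _ => ENNReal.summable]
          refine ENNReal.tsum_le_tsum fun u => ?_
          refine le_trans ?_ (ENNReal.le_tsum (hgt δ η u))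
          rw [Set.indicator_of_mem (show η ∈ G ∩ {ζ | hgt δ ζ u = hgt δ η u} from ⟨hη, rfl⟩),
            Pi.one_apply, mul_one]
          refine le_min ((Finset.sum_le_card_nsmul _ _ (b (hgt δ η u)) fun k _ => ?_).trans
            (le_of_eq (by simp))) ?_
          · refine (hsite _).trans (le_of_eq ?_)
            rw [ht_add, hDh, zero_add, hgt]
          · rw [← Summable.tsum_finsetSum fun k _ => ENNReal.summable]
            refine le_trans (ENNReal.tsum_le_tsum fun s => ?_) (hlev (hgt δ η u))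
            rw [← measure_biUnion_finset (f := fun k => G ∩ {ζ | pos ζ s = D k + pos η u})
              (fun p _ q _ hpq => ?_) fun k _ =>
              hGm.inter (measurable_pos s (measurableSet_singleton _))]
            · refine measure_mono (Set.iUnion₂_subset fun k _ ζ hζ => ⟨hζ.1, ?_⟩)
              change ht δ (pos ζ s) = _
              rw [show pos ζ s = D k + pos η u from hζ.2, ht_add, hDh, zero_add, hgt]
            · refine Set.disjoint_left.mpr fun ζ h1 h2 => hpq (hDi ?_)
              exact add_right_cancel ((show pos ζ s = _ from h1.2).symm.trans h2.2)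
        · simp [hη]
    _ = ∑' j, min ((K : ℝ≥0∞) * b j) V * ∑' u, nu μ (G ∩ {η | hgt δ η u = j}) := by
        have hm : ∀ u (j : ℤ), MeasurableSet (G ∩ {η : ℕ → Step d | hgt δ η u = j}) :=
          fun u j => hGm.inter (measurable_hgt δ u (measurableSet_singleton j))
        rw [lintegral_tsum fun u => (Measurable.ennreal_tsum fun j =>
          (measurable_one.indicator (hm u j)).const_mul _).aemeasurable]
        rw [show (∑' u, ∫⁻ η, ∑' j, min ((K : ℝ≥0∞) * b j) V *
            (G ∩ {η | hgt δ η u = j}).indicator 1 η ∂nu μ) =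
          ∑' u, ∑' j, min ((K : ℝ≥0∞) * b j) V * nu μ (G ∩ {η | hgt δ η u = j}) from
          tsum_congr fun u => by
            rw [lintegral_tsum fun j => ((measurable_one.indicator (hm u j)).const_mul _).aemeasurable]
            exact tsum_congr fun j => by
              rw [lintegral_const_mul _ (measurable_one.indicator (hm u j)),
                lintegral_indicator_one (hm u j)]]
        rw [ENNReal.tsum_comm]
        exact tsum_congr fun j => ENNReal.tsum_mul_left

/-- Module Avoid: two independent forward walks from different sites can miss each other. -/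
theorem miss (hμ : Elliptic μ) (hd : 4 ≤ d) (hX : Planar.Side μ δ) : MissStmt μ δ := by
  classical
  have := isProbabilityMeasure_nu hμ
  set F := Dir.Fwd (Planar.ax δ) with hFdef
  obtain ⟨C, hC, hconc⟩ := concentration hμ
  have hα : 2 < (1 : ℝ) * ((d : ℝ) - 1) := by
    have : (4 : ℝ) ≤ d := by exact_mod_cast hd
    linarith
  have hpos := summable_psi hμ hα (esc_one_pos hX) hC
  -- walks with a bounded sum of concentration factors
  set S : ℕ → Set (ℕ → Step d) := fun c => {η | η ∈ F ∧ ∑' m, psi C δ m η ≤ c} with hSdef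
  obtain ⟨c₀, hc₀⟩ : ∃ c : ℕ, nu μ (S c) ≠ 0 := by
    by_contra hno
    push Not at hno
    refine hpos.ne' (measure_mono_null (fun η hη => ?_) (measure_iUnion_null hno))
    obtain ⟨n, hn⟩ := ENNReal.exists_nat_gt hη.2
    exact Set.mem_iUnion.mpr ⟨n, fwd_of_summable hC hη.1 hη.2, hn.le⟩
  set G := S c₀ with hGdef
  have hGm : MeasurableSet G := Dir.measurableSet_fwd.inter
    (measurableSet_le (Measurable.ennreal_tsum fun m => measurable_psi C δ m) measurable_const)
  obtain ⟨b, hbsum, hsite⟩ :=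
    exists_site_bound hμ (fun m g => hconc δ m g) hGm c₀ fun η hη => hη.2
  -- mean time at a level
  obtain ⟨V, hV, hvis⟩ := visit hμ hX
  have hlev : ∀ j : ℤ, ∑' m, nu μ (G ∩ {η | hgt δ η m = j}) ≤ V := by
    intro j
    refine le_trans ?_ (hvis j)
    have hm : ∀ m, MeasurableSet (G ∩ {η : ℕ → Step d | hgt δ η m = j}) := fun m =>
      hGm.inter (measurable_hgt δ m (measurableSet_singleton j))
    simp only [← lintegral_indicator_one (hm _)]
    rw [← lintegral_tsum fun m => (measurable_one.indicator (hm m)).aemeasurable]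
    refine lintegral_mono fun η => ?_
    by_cases hη : η ∈ G
    · rw [Set.indicator_of_mem (show η ∈ Dir.Fwd (Planar.ax δ) from hη.1)]
      refine ENNReal.tsum_le_tsum fun m => ?_
      by_cases h2 : hgt δ η m = j <;> simp [hη, h2]
    · simp [hη]
  -- starting sites in one level
  obtain ⟨i, hi⟩ : ∃ i : Fin d, i ≠ δ.1 :=
    Fintype.exists_ne_of_one_lt_card (by simp; omega) _
  set D : ℕ → Pos d := fun k => (k : ℤ) • vec (i, true) with hD
  have hDi : Function.Injective D := fun a b h => by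
    have := congrFun h i
    simpa [hD, vec] using this
  have hDh : ∀ k, ht δ (D k) = 0 := fun k => by
    simp only [hD, ht, vec, Pi.smul_apply, Pi.single_eq_of_ne hi.symm]
    simp
  set share : ℕ → Set ((ℕ → Step d) × (ℕ → Step d)) := fun k => G ×ˢ G \ NoShare (D k) with hshare
  set a : ℤ → ℝ≥0∞ := fun j => ∑' u, nu μ (G ∩ {η | hgt δ η u = j}) with ha
  have hshareK : ∀ K : ℕ, ∑ k ∈ Finset.range K, ((nu μ).prod (nu μ)) (share k) ≤
      ∑' j, min ((K : ℝ≥0∞) * b j) V * a j :=
    sum_share_le hμ hGm hsite hlev hDi hDh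
  -- some starting site is missed
  set g := ((nu μ).prod (nu μ)) (G ×ˢ G) with hg
  have hg0 : g ≠ 0 := by rw [hg, Measure.prod_prod]; exact mul_ne_zero hc₀ hc₀
  suffices h : ∃ k, ((nu μ).prod (nu μ)) (share k) < g by
    obtain ⟨k, hk⟩ := h
    refine ⟨D k, hDh k, pos_iff_ne_zero.mpr fun h0 => hk.ne ?_⟩
    refine le_antisymm hk.le ?_
    calc g ≤ ((nu μ).prod (nu μ)) (share k ∪ F ×ˢ F ∩ NoShare (D k)) := measure_mono fun x hx => by
          by_cases hn : x ∈ NoShare (D k)
          · exact Or.inr ⟨⟨hx.1.1, hx.2.1⟩, hn⟩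
          · exact Or.inl ⟨hx, hn⟩
      _ ≤ ((nu μ).prod (nu μ)) (share k) + ((nu μ).prod (nu μ)) (F ×ˢ F ∩ NoShare (D k)) :=
          measure_union_le _ _
      _ = _ := by rw [h0, add_zero]
  by_contra hno
  push Not at hno
  have hV1 : V + 1 ≠ ∞ := ENNReal.add_ne_top.mpr ⟨hV, ENNReal.one_ne_top⟩
  have he : 0 < g / (2 * (V + 1)) :=
    ENNReal.div_pos hg0 (ENNReal.mul_ne_top ENNReal.ofNat_ne_top hV1)
  have hbtop : ∑' j, b j ≠ ∞ := ne_top_of_le_ne_top (ENNReal.natCast_ne_top _) hbsum
  obtain ⟨J, hJ⟩ := ((ENNReal.tendsto_tsum_compl_atTop_zero hbtop).eventually_lt_const he).exists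
  have hgt' : g / 2 ≠ 0 := (ENNReal.div_pos hg0 ENNReal.ofNat_ne_top).ne'
  obtain ⟨K, hKpos, hK⟩ := ENNReal.exists_nat_pos_mul_gt hgt'
    (show (J.card : ℝ≥0∞) * (V * V) ≠ ∞ from
      ENNReal.mul_ne_top (ENNReal.natCast_ne_top _) (ENNReal.mul_ne_top hV hV))
  refine lt_irrefl ((K : ℝ≥0∞) * g) ?_
  calc (K : ℝ≥0∞) * g ≤ ∑ k ∈ Finset.range K, ((nu μ).prod (nu μ)) (share k) := by
        simpa using Finset.card_nsmul_le_sum (Finset.range K) _ g fun k _ => hno k
    _ ≤ ∑' j, min ((K : ℝ≥0∞) * b j) V * a j := hshareK K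
    _ = ∑ j ∈ J, min ((K : ℝ≥0∞) * b j) V * a j +
          ∑' j : {x // x ∉ J}, min ((K : ℝ≥0∞) * b j) V * a j :=
        (ENNReal.sum_add_tsum_compl J fun j => min ((K : ℝ≥0∞) * b j) V * a j).symm
    _ ≤ (J.card : ℝ≥0∞) * (V * V) + (K : ℝ≥0∞) * (g / 2) := by
        refine add_le_add ?_ ?_
        · simpa using Finset.sum_le_card_nsmul J _ (V * V) fun j _ =>
            mul_le_mul' (min_le_right _ _) (hlev j)
        · calc ∑' j : {x // x ∉ J}, min ((K : ℝ≥0∞) * b j) V * a j
              ≤ ∑' j : {x // x ∉ J}, (K : ℝ≥0∞) * (b j * (V + 1)) :=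
                ENNReal.tsum_le_tsum fun j => by
                  rw [← mul_assoc]
                  exact mul_le_mul' (min_le_left _ _) ((hlev j).trans le_self_add)
            _ = (K : ℝ≥0∞) * ((∑' j : {x // x ∉ J}, b j) * (V + 1)) := by
                rw [ENNReal.tsum_mul_left, ENNReal.tsum_mul_right]
            _ ≤ (K : ℝ≥0∞) * (g / (2 * (V + 1)) * (V + 1)) := by gcongr
            _ = (K : ℝ≥0∞) * (g / 2) := by
                rw [ENNReal.div_eq_inv_mul, ENNReal.div_eq_inv_mul,
                  ENNReal.mul_inv (Or.inl two_ne_zero) (Or.inl ENNReal.ofNat_ne_top)]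
                rw [mul_assoc, mul_comm g, ← mul_assoc _ (V + 1), mul_assoc (2⁻¹ : ℝ≥0∞),
                  ENNReal.inv_mul_cancel (by simp) hV1, mul_one]
    _ < (K : ℝ≥0∞) * (g / 2) + (K : ℝ≥0∞) * (g / 2) :=
        ENNReal.add_lt_add_right (ENNReal.mul_ne_top (ENNReal.natCast_ne_top _) (by
          rw [hg]
          exact ENNReal.div_ne_top (measure_ne_top _ _) two_ne_zero)) hK
    _ = (K : ℝ≥0∞) * g := by rw [← mul_add, ENNReal.add_halves]

end Vale.Agent.P147.Flux
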