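import Vale.Agent.P147.Flux.Quenched
import Vale.Agent.P147.Flux.Ergodic

/-!
P147: positive upper speed along an axis forces escape along it.
-/

open MeasureTheory Filter
open scoped ENNReal Topology symmDiff

noncomputable section

namespace Vale.Agent.P147.Flux

variable {d : ℕ}

/-- The event that level `L` is reached at time `p` without dropping below level `-M`. -/
def Away (δ : Step d) (M L p : ℕ) : Set (ℕ → Step d) :=
  Hit δ (L : ℤ) p ∩ StayH {x | -(M : ℤ) ≤ ht δ x} p

/-- The steps before time `p` leaving sites at level at least `m`. -/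
def upT (δ : Step d) (m : ℕ) (ξ : ℕ → Step d) (p : ℕ) : Finset ℕ :=
  (Finset.range p).filter fun s => (m : ℤ) ≤ hgt δ ξ s

/-- Between the first visits of levels `m + M` and `m + M + g` the walk stays above level `m`,
having used at most `R` steps above it before. -/
def Rare (δ : Step d) (m M g R : ℕ) : Set (ℕ → Step d) :=
  {η | ∃ p q, η ∈ Hit δ ((m + M : ℕ) : ℤ) p ∧ η ∈ Hit δ ((m + M + g : ℕ) : ℤ) q ∧
    (upT δ m η p).card ≤ R ∧ ∀ s, p ≤ s → s ≤ q → (m : ℤ) ≤ hgt δ η s}

lemma upT_congr {δ : Step d} {m p : ℕ} {η η' : ℕ → Step d} (h : ∀ t < p, η t = η' t) :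
    upT δ m η p = upT δ m η' p :=
  Finset.filter_congr fun s hs => by
    rw [hgt_congr δ fun t ht => h t (ht.trans (Finset.mem_range.1 hs))]

lemma rare_congr {δ : Step d} {m M g R j p₀ : ℕ} {η η' : ℕ → Step d} (hj : m + M + g ≤ j)
    (hp : η ∈ Hit δ (j : ℤ) p₀) (h : ∀ t < p₀, η t = η' t) (hr : η ∈ Rare δ m M g R) :
    η' ∈ Rare δ m M g R := by
  obtain ⟨p, q, h1, h2, h3, h4⟩ := hr
  obtain ⟨q', hq', hit'⟩ := exists_hit δ (j := m + M + g) (n := p₀) (η := η) (by
    rw [hp.1]; exact_mod_cast hj)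
  obtain rfl := hit_unique h2 hit'
  obtain ⟨p', hp', hitp⟩ := exists_hit δ (j := m + M) (n := q) (η := η) (by
    rw [h2.1]; push_cast; omega)
  obtain rfl := hit_unique h1 hitp
  refine ⟨p, q, detBy_hit δ _ le_rfl η η' (fun t ht => h t (by omega)) h1,
    detBy_hit δ _ le_rfl η η' (fun t ht => h t (by omega)) h2,
    upT_congr (δ := δ) (m := m) (p := p) (η := η) (η' := η') (fun t ht => h t (by omega)) ▸ h3,
    fun s hs hs' => ?_⟩
  rw [← hgt_congr δ fun t ht => h t (by omega)]
  exact h4 s hs hs'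

variable [NeZero d] {μ : Measure (Step d → ℝ)} {δ : Step d}

lemma measure_det (P : Measure (ℕ → Step d)) {H : ℕ} {S : Set (ℕ → Step d)} (hS : DetBy H S)
    [DecidablePred (· ∈ S)] :
    P S = ∑ σ ∈ Finset.univ.filter (fun σ : Fin H → Step d => ext' σ ∈ S),
      P (cyl H (ext' σ)) := by
  rw [← measure_biUnion_finset ?_ fun σ _ => measurableSet_cyl _ _]
  · congr 1
    ext η
    simp only [Set.mem_iUnion, Finset.mem_filter, Finset.mem_univ, true_and, exists_prop]
    exact ⟨fun hη => ⟨fun t => η t, hS η _ (fun t ht => by rw [ext'_lt _ ht]) hη,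
      fun t ht => by rw [ext'_lt _ ht]⟩, fun ⟨σ, hσ, hη⟩ => hS _ η (fun t ht => (hη t ht).symm) hσ⟩
  · intro a _ b _ hne
    refine Set.disjoint_left.mpr fun η ha hb => hne (funext fun t => ?_)
    have h1 := ha t t.isLt
    have h2 := hb t t.isLt
    rw [ext'_lt _ t.isLt] at h1 h2
    exact h1.symm.trans h2

/-- A bound on how much a short history distorts the rows it has seen. -/
lemma density (hμ : Elliptic μ) (δ : Step d) (R : ℕ) :
    ∃ C : ℝ≥0∞, C ≠ ∞ ∧ ∀ (m p : ℕ) (ξ : ℕ → Step d) (f : Env d → ℝ≥0∞), Measurable f →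
      (∀ ω ω', (∀ x, (m : ℤ) ≤ ht δ x → ω x = ω' x) → f ω = f ω') →
      (upT δ m ξ p).card ≤ R →
      ∫⁻ ω, W p ξ ω * f ω ∂envLaw μ ≤ C * w μ p ξ * ∫⁻ ω, f ω ∂envLaw μ := by
  classical
  have := hμ.1
  have := isProbability_envLaw hμ
  obtain ⟨k, hk⟩ : ∃ k : ℕ, μ {p | ∀ e, 1 / ((k : ℝ) + 1) ≤ p e} ≠ 0 := by
    by_contra! h
    have h1 : ∀ᵐ p ∂μ, ∀ k : ℕ, ¬ ∀ e, 1 / ((k : ℝ) + 1) ≤ p e :=
      ae_all_iff.2 fun k => measure_eq_zero_iff_ae_notMem.1 (h k)
    obtain ⟨p, hp, hn⟩ := (hμ.2.and h1).exists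
    choose k hk using fun e => exists_nat_one_div_lt (hp.1 e)
    refine hn (Finset.univ.sup k) fun e => le_trans ?_ (hk e).le
    exact Nat.one_div_le_one_div (Finset.le_sup (Finset.mem_univ e))
  set G := {p : Step d → ℝ | ∀ e, 1 / ((k : ℝ) + 1) ≤ p e}
  have hG : MeasurableSet G := by
    simp only [G, Set.ofPred_forall]
    exact MeasurableSet.iInter fun e => measurableSet_le measurable_const (measurable_pi_apply e)
  set u := ENNReal.ofReal (1 / ((k : ℝ) + 1))
  have hu : u ≠ 0 := (ENNReal.ofReal_pos.2 (by positivity)).ne'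
  have hu1 : u ≤ 1 := ENNReal.ofReal_le_one.2 (by rw [div_le_one (by positivity)]; simp)
  set c := (u * μ G) ^ R
  have hc : c ≠ 0 := pow_ne_zero _ (mul_ne_zero hu hk)
  have hct : c ≠ ∞ := ENNReal.pow_ne_top (ENNReal.mul_ne_top ENNReal.ofReal_ne_top (measure_ne_top _ _))
  refine ⟨c⁻¹, ENNReal.inv_ne_top.2 hc, fun m p ξ f hf hloc hcard => ?_⟩
  set T := upT δ m ξ p
  set H := {x : Pos d | (m : ℤ) ≤ ht δ x}
  set Wu : Env d → ℝ≥0∞ := fun ω => ∏ s ∈ T, ENNReal.ofReal (ω (pos ξ s) (ξ s))
  set Wl : Env d → ℝ≥0∞ := fun ω =>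
    ∏ s ∈ Finset.range p \ T, ENNReal.ofReal (ω (pos ξ s) (ξ s))
  have hWu : Measurable Wu := by fun_prop
  have hWl : Measurable Wl := by fun_prop
  have hW : ∀ ω, Wl ω * Wu ω = W p ξ ω := fun ω => Finset.prod_sdiff (Finset.filter_subset _ _)
  have hlow : ∀ ω ω', (∀ x ∉ H, ω x = ω' x) → Wl ω = Wl ω' := fun ω ω' h =>
    Finset.prod_congr rfl fun s hs => by
      rw [h _ fun hx => (Finset.mem_sdiff.1 hs).2
        (Finset.mem_filter.2 ⟨(Finset.mem_sdiff.1 hs).1, hx⟩)]
  have hup : ∀ ω ω', (∀ x ∈ H, ω x = ω' x) → Wu ω = Wu ω' := fun ω ω' h =>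
    Finset.prod_congr rfl fun s hs => by
      have : pos ξ s ∈ H := (Finset.mem_filter.1 hs).2
      rw [h _ this]
  have h1 : ∫⁻ ω, W p ξ ω * f ω ∂envLaw μ ≤
      (∫⁻ ω, f ω ∂envLaw μ) * ∫⁻ ω, Wl ω ∂envLaw μ := by
    rw [envLaw, ← lintegral_mul_local hμ H hf hWl hloc hlow]
    refine lintegral_mono_ae ?_
    filter_upwards [ae_rows hμ] with ω hω
    rw [← hW, mul_comm (f ω)]
    refine mul_le_mul' (mul_le_of_le_one_right' (Finset.prod_le_one' fun s _ => ?_)) le_rfl
    refine ENNReal.ofReal_le_one.2 ?_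
    rw [← (hω (pos ξ s)).2]
    exact Finset.single_le_sum (fun e _ => ((hω (pos ξ s)).1 e).le) (Finset.mem_univ _)
  have h2 : w μ p ξ = (∫⁻ ω, Wu ω ∂envLaw μ) * ∫⁻ ω, Wl ω ∂envLaw μ := by
    rw [w_eq_lintegral hμ, envLaw, ← lintegral_mul_local hμ H hWu hWl hup hlow]
    exact lintegral_congr fun ω => by rw [← hW, mul_comm]
  have h3 : c ≤ ∫⁻ ω, Wu ω ∂envLaw μ := by
    set X := T.image (pos ξ)
    calc c = u ^ R * μ G ^ R := mul_pow _ _ _
      _ ≤ u ^ R * ∏ _x ∈ X, μ G := by
          rw [Finset.prod_const]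
          exact mul_le_mul' le_rfl
            (pow_le_pow_right_of_le_one' prob_le_one (Finset.card_image_le.trans hcard))
      _ = ∫⁻ ω, (Set.pi ↑X fun _ => G).indicator (fun _ => u ^ R) ω ∂envLaw μ := by
          rw [lintegral_indicator_const (MeasurableSet.pi X.countable_toSet fun _ _ => hG), envLaw,
            Measure.infinitePi_pi _ fun _ _ => hG]
      _ ≤ _ := lintegral_mono fun ω => by
          by_cases hω : ω ∈ Set.pi ↑X fun _ => G
          · rw [Set.indicator_of_mem hω]
            refine (pow_le_pow_right_of_le_one' hu1 hcard).trans ?_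
            refine Finset.pow_card_le_prod _ _ _ fun s hs => ENNReal.ofReal_le_ofReal ?_
            exact hω _ (Finset.mem_image_of_mem _ hs) _
          · simp [hω]
  refine h1.trans ?_
  rw [h2, mul_comm (∫⁻ ω, f ω ∂envLaw μ)]
  refine mul_le_mul' ?_ le_rfl
  calc ∫⁻ ω, Wl ω ∂envLaw μ = c⁻¹ * c * ∫⁻ ω, Wl ω ∂envLaw μ := by
        rw [ENNReal.inv_mul_cancel hc hct, one_mul]
    _ ≤ _ := by rw [← mul_assoc]; exact mul_le_mul' (mul_le_mul' le_rfl h3) le_rfl

/-- Given the past up to the first visit of level `m + M`, the event `Rare` is rare. -/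
lemma rare_le (hμ : Elliptic μ) (δ : Step d) (M g R : ℕ) {C : ℝ≥0∞}
    (hC : ∀ (m p : ℕ) (ξ : ℕ → Step d) (f : Env d → ℝ≥0∞), Measurable f →
      (∀ ω ω', (∀ x, (m : ℤ) ≤ ht δ x → ω x = ω' x) → f ω = f ω') →
      (upT δ m ξ p).card ≤ R →
      ∫⁻ ω, W p ξ ω * f ω ∂envLaw μ ≤ C * w μ p ξ * ∫⁻ ω, f ω ∂envLaw μ)
    (m : ℕ) (φ : (ℕ → Step d) → ℝ≥0∞)
    (hdet : ∀ p η η', η ∈ Hit δ ((m + M : ℕ) : ℤ) p → (∀ t < p, η t = η' t) → φ η = φ η') :
    ∫⁻ η, (Rare δ m M g R).indicator φ η ∂nu μ ≤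
      C * nu μ (⋃ q, Away δ M g q) * ∫⁻ η, φ η ∂nu μ := by
  classical
  set G := ⋃ q, Away δ M g q
  have hAdet : ∀ q, DetBy q (Away δ M g q) := fun q =>
    (detBy_hit δ _ le_rfl).inter (detBy_stayH _ q)
  have hGm : MeasurableSet G := MeasurableSet.iUnion fun q => (hAdet q).measurableSet
  set f : Env d → ℝ≥0∞ := fun ω => ∑' q : ℕ,
    ∑ σ ∈ Finset.univ.filter (fun σ : Fin q → Step d => ext' σ ∈ Away δ M g q), W q (ext' σ) ω
  have hfm : Measurable f :=
    Measurable.ennreal_tsum fun q => Finset.measurable_sum _ fun σ _ => measurable_W _ _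
  have hfnu : ∫⁻ ω, f ω ∂envLaw μ = nu μ G := by
    rw [lintegral_tsum fun q => (Finset.measurable_sum _ fun σ _ => measurable_W _ _).aemeasurable,
      measure_iUnion (fun a b hab => Set.disjoint_left.mpr fun η ha hb => hab (hit_unique ha.1 hb.1))
        fun q => (hAdet q).measurableSet]
    refine tsum_congr fun q => ?_
    rw [lintegral_finsetSum _ fun σ _ => measurable_W _ _, measure_det (nu μ) (hAdet q)]
    exact Finset.sum_congr rfl fun σ _ => (w_eq_lintegral hμ _ _).symm
  set S : ∀ p : ℕ, Finset (Fin p → Step d) := fun p => Finset.univ.filter fun σ =>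
    ext' σ ∈ Hit δ ((m + M : ℕ) : ℤ) p ∧ (upT δ m (ext' σ) p).card ≤ R
  have hterm : ∀ p, ∀ σ ∈ S p, nu μ (cyl p (ext' σ) ∩ shift p ⁻¹' G) ≤
      C * w μ p (ext' σ) * nu μ G := by
    intro p σ hσ
    have hσ' := (Finset.mem_filter.1 hσ).2
    set z := pos (ext' σ) p
    rw [nu_eq_lintegral ((measurableSet_cyl _ _).inter (measurable_shift p hGm)), ← hfnu,
      ← (mp_sh hμ z).lintegral_comp hfm]
    refine le_trans (lintegral_mono_ae ?_) (hC m p (ext' σ) (fun ω => f (sh z ω))
      (hfm.comp (measurable_sh z)) (fun ω ω' h => ?_) hσ'.2)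
    · filter_upwards [markov hμ, ae_good hμ] with ω hω hgood
      rw [hω _ _ _ hGm]
      refine mul_le_mul' le_rfl ((measure_iUnion_le _).trans (ENNReal.tsum_le_tsum fun q => ?_))
      rw [measure_det _ (hAdet q)]
      exact le_of_eq (Finset.sum_congr rfl fun τ _ => qlaw_cyl (goodEnv_sh hgood z) _ _)
    · refine tsum_congr fun q => Finset.sum_congr rfl fun τ hτ => W_local fun s hs => h _ ?_
      have h1 : -(M : ℤ) ≤ ht δ (pos (ext' τ) s) := (Finset.mem_filter.1 hτ).2.2 s hs.le
      have h2 : ht δ z = ((m + M : ℕ) : ℤ) := hσ'.1.1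
      rw [ht_add, h2]
      push_cast
      omega
  have hpt : ∀ η, (Rare δ m M g R).indicator φ η ≤ ∑' p, ∑ σ ∈ S p,
      φ (ext' σ) * (cyl p (ext' σ) ∩ shift p ⁻¹' G).indicator (fun _ => 1) η := by
    intro η
    by_cases hη : η ∈ Rare δ m M g R
    swap
    · simp [hη]
    obtain ⟨p, q, h1, h2, h3, h4⟩ := hη
    set σ : Fin p → Step d := fun t => η t
    have he : ∀ t < p, η t = ext' σ t := fun t ht => by rw [ext'_lt _ ht]
    have hσ : σ ∈ S p := Finset.mem_filter.2 ⟨Finset.mem_univ _,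
      detBy_hit δ _ le_rfl η _ he h1, upT_congr (δ := δ) (m := m) he ▸ h3⟩
    have hpq : p ≤ q := by
      obtain ⟨p', hp', hit⟩ := exists_hit δ (j := m + M) (n := q) (η := η) (by
        rw [h2.1]; push_cast; omega)
      exact hit_unique h1 hit ▸ hp'
    have hshift : shift p η ∈ G := by
      obtain ⟨u, rfl⟩ := Nat.exists_eq_add_of_le hpq
      refine Set.mem_iUnion.2 ⟨u, ⟨?_, fun t ht => ?_⟩, fun t ht => ?_⟩
      · have := h2.1
        rw [hgt_add, h1.1] at this
        push_cast at this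
        omega
      · have := h2.2 (p + t) (by omega)
        rw [hgt_add, h1.1] at this
        push_cast at this
        omega
      · have := h4 (p + t) (by omega) (by omega)
        rw [hgt_add, h1.1] at this
        push_cast at this
        simp only [Set.mem_ofPred_eq, hgt] at this ⊢
        omega
    rw [Set.indicator_of_mem (show η ∈ Rare δ m M g R from ⟨p, q, h1, h2, h3, h4⟩)]
    refine le_trans (le_trans ?_ (Finset.single_le_sum (fun _ _ => zero_le) hσ)) (ENNReal.le_tsum p)
    rw [Set.indicator_of_mem (show η ∈ cyl p (ext' σ) ∩ shift p ⁻¹' G from ⟨he, hshift⟩), mul_one,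
      hdet p η _ h1 he]
  have hback : ∀ η, ∑' p, ∑ σ ∈ S p, φ (ext' σ) * (cyl p (ext' σ)).indicator (fun _ => 1) η ≤
      φ η := by
    intro η
    have hin : ∀ p, ∀ σ ∈ S p, η ∈ cyl p (ext' σ) → η ∈ Hit δ ((m + M : ℕ) : ℤ) p :=
      fun p σ hσ hc => detBy_hit δ _ le_rfl _ η (fun t ht => (hc t ht).symm)
        (Finset.mem_filter.1 hσ).2.1
    by_cases hex : ∃ p, η ∈ Hit δ ((m + M : ℕ) : ℤ) p
    · obtain ⟨p, hp⟩ := hex
      rw [tsum_eq_single p fun q hq => Finset.sum_eq_zero fun σ hσ => ?_]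
      · refine (Finset.sum_le_sum_of_subset (Finset.subset_univ _)).trans ?_
        rw [Finset.sum_eq_single (fun t : Fin p => η t)]
        · have he : ∀ t < p, η t = ext' (fun t : Fin p => η t) t := fun t ht => by rw [ext'_lt _ ht]
          rw [Set.indicator_of_mem (show η ∈ cyl p (ext' fun t : Fin p => η t) from he), mul_one,
            hdet p η _ hp he]
        · intro σ _ hne
          rw [Set.indicator_of_notMem (fun hc => hne (funext fun t => ?_)), mul_zero]
          have := hc t t.isLt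
          rw [ext'_lt _ t.isLt] at this
          exact this.symm
        · simp
      · rw [Set.indicator_of_notMem (fun hc => hq (hit_unique (hin q σ hσ hc) hp)), mul_zero]
    · rw [ENNReal.tsum_eq_zero.2 fun p => Finset.sum_eq_zero fun σ hσ => by
        rw [Set.indicator_of_notMem (fun hc => hex ⟨p, hin p σ hσ hc⟩), mul_zero]]
      exact bot_le
  have hm1 : ∀ p (σ : Fin p → Step d), MeasurableSet (cyl p (ext' σ) ∩ shift p ⁻¹' G) :=
    fun p σ => (measurableSet_cyl _ _).inter (measurable_shift p hGm)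
  calc ∫⁻ η, (Rare δ m M g R).indicator φ η ∂nu μ
      ≤ ∑' p, ∑ σ ∈ S p, φ (ext' σ) * nu μ (cyl p (ext' σ) ∩ shift p ⁻¹' G) := by
        refine (lintegral_mono hpt).trans (le_of_eq ?_)
        rw [lintegral_tsum fun p => (Finset.measurable_sum _ fun σ _ =>
          (measurable_const.indicator (hm1 p σ)).const_mul _).aemeasurable]
        refine tsum_congr fun p => ?_
        rw [lintegral_finsetSum _ fun σ _ => (measurable_const.indicator (hm1 p σ)).const_mul _]
        exact Finset.sum_congr rfl fun σ _ => by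
          rw [lintegral_const_mul _ (measurable_const.indicator (hm1 p σ)),
            lintegral_indicator_const (hm1 p σ), one_mul]
    _ ≤ ∑' p, ∑ σ ∈ S p, C * nu μ G * (φ (ext' σ) * nu μ (cyl p (ext' σ))) := by
        refine ENNReal.tsum_le_tsum fun p => Finset.sum_le_sum fun σ hσ => ?_
        calc φ (ext' σ) * nu μ (cyl p (ext' σ) ∩ shift p ⁻¹' G)
            ≤ φ (ext' σ) * (C * w μ p (ext' σ) * nu μ G) := mul_le_mul' le_rfl (hterm p σ hσ)
          _ = _ := by rw [w]; ring
    _ ≤ _ := by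
        simp only [← Finset.mul_sum, ENNReal.tsum_mul_left]
        refine mul_le_mul' le_rfl (le_trans (le_of_eq ?_) (lintegral_mono hback))
        rw [lintegral_tsum fun p => (Finset.measurable_sum _ fun σ _ =>
          (measurable_const.indicator (measurableSet_cyl _ _)).const_mul _).aemeasurable]
        refine tsum_congr fun p => ?_
        rw [lintegral_finsetSum _ fun σ _ =>
          (measurable_const.indicator (measurableSet_cyl _ _)).const_mul _]
        exact Finset.sum_congr rfl fun σ _ => by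
          rw [lintegral_const_mul _ (measurable_const.indicator (measurableSet_cyl _ _)),
            lintegral_indicator_const (measurableSet_cyl _ _), one_mul]

/-- Unbounded walks escape if never returning is possible. -/
lemma noBack_escape (hμ : Elliptic μ) (δ : Step d) :
    nu μ (Unbdd δ \ Dir.Escape (Planar.ax δ)) * nu μ (NoBack δ) = 0 := by
  classical
  have := isProbabilityMeasure_nu hμ
  set P := nu μ
  have hUm : MeasurableSet (Unbdd δ) := by
    have : Unbdd δ = ⋂ j : ℕ, ⋃ n, (fun η => hgt δ η n) ⁻¹' Set.Ici (j : ℤ) := by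
      ext η; simp [Unbdd]
    rw [this]
    exact MeasurableSet.iInter fun j => MeasurableSet.iUnion fun n =>
      measurable_hgt δ n MeasurableSet.of_discrete
  set B := Unbdd δ \ Dir.Escape (Planar.ax δ)
  have hBm : MeasurableSet B := hUm.diff (Dir.RegenPf.measurableSet_escape _)
  refine le_antisymm (le_of_forall_gt_imp_ge_of_dense fun η hη => ?_) zero_le
  set Ev : ℕ → Set (ℕ → Step d) := fun H => ⋃ n, ⋂ t, {ξ | n ≤ t → (H : ℤ) ≤ hgt δ ξ t}
  have hEv : ∀ H, MeasurableSet (Ev H) := fun H => MeasurableSet.iUnion fun n =>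
    MeasurableSet.iInter fun t => by
      by_cases h : n ≤ t
      · simp only [h, forall_const]; exact measurableSet_le measurable_const (measurable_hgt δ t)
      · simp [h]
  have hlim : Tendsto (fun H => P (B ∩ Ev H)) atTop (𝓝 0) := by
    have hanti : Antitone fun H => B ∩ Ev H := fun a b hab => Set.inter_subset_inter_right _ <|
      Set.iUnion_mono fun n => Set.iInter_mono fun t ξ hξ hnt =>
        le_trans (by exact_mod_cast hab) (hξ hnt)
    have h0 : ⋂ H, B ∩ Ev H = ∅ := Set.eq_empty_of_forall_notMem fun ξ hξ => by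
      refine (Set.mem_iInter.1 hξ 0).1.2 (tendsto_atTop.2 fun b => ?_)
      obtain ⟨n, hn⟩ := Set.mem_iUnion.1 (Set.mem_iInter.1 hξ ⌈b⌉₊).2
      filter_upwards [eventually_ge_atTop n] with t ht
      rw [Planar.lh_ax]
      exact (Nat.le_ceil b).trans (by exact_mod_cast Set.mem_iInter.1 hn t ht)
    simpa [h0, Function.comp_def] using tendsto_measure_iInter_atTop (μ := P)
      (fun H => (hBm.inter (hEv H)).nullMeasurableSet) hanti ⟨0, measure_ne_top _ _⟩
  have hη3 : (0 : ℝ≥0∞) < η / 3 := ENNReal.div_pos hη.ne' (by norm_num)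
  obtain ⟨I, G, hG, hdep, hlt⟩ := approx_cylinder P hBm hη3
  obtain ⟨H₀, hH₀⟩ := eventually_atTop.1 ((ENNReal.tendsto_nhds_zero.1 hlim) _ hη3)
  set H := max (I.sup id + 1) H₀
  have hdet : DetBy H G := fun a b hab ha => hdep a b (fun i hi => hab i (by
    have : id i ≤ I.sup id := Finset.le_sup hi
    simp only [id_eq] at this
    omega)) ha
  set E : ℕ → Set (ℕ → Step d) := fun p => G ∩ Hit δ ((H + 1 : ℕ) : ℤ) p
  set E' : ℕ → Set (ℕ → Step d) := fun p => E p ∩ shift p ⁻¹' (Set.univ ∩ NoBack δ)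
  have hEdet : ∀ p, DetBy p (E p) := by
    intro p a b hab ha
    have : H < p := by
      have := hgt_le δ a p
      rw [ha.2.1] at this
      omega
    exact ⟨(hdet.mono this.le) a b hab ha.1, detBy_hit δ _ le_rfl a b hab ha.2⟩
  have hsplit : ∀ p, P (E' p) = P (E p) * P (NoBack δ) := fun p => by
    have := split hμ (hEdet p) (A := Up δ) (fun ξ hξ s hs hmem => by
      have h1 := hξ.2.2 s hs
      rw [← hξ.2.1] at h1
      simp only [Up, Set.mem_ofPred_eq, ht_sub] at hmem
      simp only [hgt] at h1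
      omega) MeasurableSet.univ
    show P (E p ∩ shift p ⁻¹' (Set.univ ∩ NoBack δ)) = _
    rw [Set.univ_inter] at this ⊢
    exact this
  have hdisj : Pairwise (Function.onFun Disjoint E) := fun p q hpq =>
    Set.disjoint_left.mpr fun ξ h1 h2 => hpq (hit_unique h1.2 h2.2)
  have hsum : P (⋃ p, E' p) = P (⋃ p, E p) * P (NoBack δ) := by
    rw [measure_iUnion (fun p q hpq => (hdisj hpq).mono Set.inter_subset_left Set.inter_subset_left)
      fun p => (hEdet p).measurableSet.inter (measurable_shift p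
        (MeasurableSet.univ.inter (measurableSet_noBack δ))),
      measure_iUnion hdisj fun p => (hEdet p).measurableSet, ← ENNReal.tsum_mul_right]
    exact tsum_congr hsplit
  have hsmall : P (⋃ p, E' p) ≤ η / 3 + η / 3 := by
    refine le_trans (measure_mono (t := G ∆ B ∪ B ∩ Ev H) fun ξ hξ => ?_)
      ((measure_union_le _ _).trans (add_le_add hlt.le (hH₀ H (le_max_right _ _))))
    obtain ⟨p, hp⟩ := Set.mem_iUnion.mp hξ
    by_cases hb : ξ ∈ B
    · refine Or.inr ⟨hb, Set.mem_iUnion.2 ⟨p, Set.mem_iInter.2 fun t ht => ?_⟩⟩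
      obtain ⟨u, rfl⟩ := Nat.exists_eq_add_of_le ht
      have := mem_noBack.1 hp.2.2 u
      rw [hgt_add, hp.1.2.1]
      push_cast
      omega
    · exact Or.inl (Or.inl ⟨hp.1.1, hb⟩)
  have hbig : P B ≤ P (⋃ p, E p) + η / 3 := by
    refine le_trans (measure_mono fun ξ hξ => ?_) ((measure_union_le _ _).trans
      (add_le_add le_rfl hlt.le))
    by_cases hx : ξ ∈ G
    · obtain ⟨n, hn⟩ := hξ.1 (H + 1)
      obtain ⟨p, -, hp⟩ := exists_hit δ hn
      exact Or.inl (Set.mem_iUnion.mpr ⟨p, hx, hp⟩)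
    · exact Or.inr (Or.inr ⟨hξ, hx⟩)
  calc P B * P (NoBack δ) ≤ (P (⋃ p, E p) + η / 3) * P (NoBack δ) := mul_le_mul' hbig le_rfl
    _ = P (⋃ p, E' p) + η / 3 * P (NoBack δ) := by rw [add_mul, hsum]
    _ ≤ η / 3 + η / 3 + η / 3 * 1 := add_le_add hsmall (mul_le_mul' le_rfl prob_le_one)
    _ = η := by rw [mul_one, ENNReal.add_thirds]

/-- Climbing high without dropping by `M` becomes unlikely. -/
lemma away_null (hμ : Elliptic μ) (δ : Step d) (h0 : nu μ (NoBack δ ∩ Unbdd δ) = 0) (M : ℕ) :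
    Tendsto (fun g => nu μ (⋃ q, Away δ M g q)) atTop (𝓝 0) := by
  have := isProbabilityMeasure_nu hμ
  have hUm : MeasurableSet (Unbdd δ) := by
    have : Unbdd δ = ⋂ j : ℕ, ⋃ n, (fun η => hgt δ η n) ⁻¹' Set.Ici (j : ℤ) := by
      ext η; simp [Unbdd]
    rw [this]
    exact MeasurableSet.iInter fun j => MeasurableSet.iUnion fun n =>
      measurable_hgt δ n MeasurableSet.of_discrete
  set G := Stay {x : Pos d | -(M : ℤ) ≤ ht δ x} ∩ Unbdd δ
  have hG : MeasurableSet G := (measurableSet_stay _).inter hUm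
  have hGz : nu μ G = 0 := by
    set ρ : ℕ → Step d := fun _ => δ
    have hρ : ∀ t, hgt δ ρ t = t := fun t => by
      induction t with
      | zero => simp
      | succ t ih => rw [hgt_succ, ih, ht_vec_self]; push_cast; rfl
    have hsub : cyl M ρ ∩ shift M ⁻¹' G ⊆ NoBack δ ∩ Unbdd δ := by
      rintro η ⟨hc, hs, hu⟩
      have hM : hgt δ η M = M := (hgt_congr δ hc).trans (hρ M)
      refine ⟨fun t => ?_, fun j => ?_⟩
      · rcases le_or_gt M t with h | h
        · obtain ⟨u, rfl⟩ := Nat.exists_eq_add_of_le h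
          have : -(M : ℤ) ≤ hgt δ (shift M η) u := hs u
          show 0 ≤ hgt δ η (M + u)
          rw [hgt_add, hM]
          omega
        · show 0 ≤ hgt δ η t
          rw [hgt_congr δ fun s hst => hc s (hst.trans h), hρ]
          positivity
      · obtain ⟨n, hn⟩ := hu j
        exact ⟨M + n, by rw [hgt_add, hM]; omega⟩
    have h1 := measure_mono_null hsub h0
    rw [nu_eq_lintegral ((measurableSet_cyl _ _).inter (measurable_shift M hG)),
      lintegral_eq_zero_iff (measurable_qlaw ((measurableSet_cyl _ _).inter (measurable_shift M hG)))]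
      at h1
    rw [nu_eq_lintegral hG, ← (mp_sh hμ (pos ρ M)).lintegral_comp (measurable_qlaw hG)]
    refine lintegral_eq_zero_of_ae_eq_zero ?_
    filter_upwards [h1, markov hμ, ae_good hμ] with ω hω hm hgood
    simp only [Pi.zero_apply] at hω ⊢
    rw [hm _ _ _ hG] at hω
    exact (mul_eq_zero.1 hω).resolve_left
      (Finset.prod_ne_zero_iff.2 fun t _ => (ENNReal.ofReal_pos.2 ((hgood _).1 _)).ne')
  have hanti : Antitone fun g => ⋃ q, Away δ M g q := fun a b hab η hη => by
    obtain ⟨q, hq⟩ := Set.mem_iUnion.1 hη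
    obtain ⟨p, hp, hit⟩ := exists_hit δ (j := a) (n := q) (η := η) (by
      rw [hq.1.1]; exact_mod_cast hab)
    exact Set.mem_iUnion.2 ⟨p, hit, fun t ht => hq.2 t (ht.trans hp)⟩
  have hmeas : ∀ g : ℕ, NullMeasurableSet (⋃ q, Away δ M g q) (nu μ) := fun g =>
    (MeasurableSet.iUnion fun q =>
      ((detBy_hit δ _ le_rfl).inter (detBy_stayH _ q)).measurableSet).nullMeasurableSet
  have hlim := tendsto_measure_iInter_atTop hmeas hanti ⟨0, measure_ne_top _ _⟩
  have hle : nu μ (⋂ g, ⋃ q, Away δ M g q) = 0 := by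
    refine measure_mono_null (fun η hη => ?_) hGz
    refine ⟨fun t => ?_, fun j => ?_⟩
    · obtain ⟨q, hq⟩ := Set.mem_iUnion.1 (Set.mem_iInter.1 hη t)
      refine hq.2 t ?_
      have := hgt_le δ η q
      rw [hq.1.1] at this
      exact_mod_cast this
    · obtain ⟨q, hq⟩ := Set.mem_iUnion.1 (Set.mem_iInter.1 hη j)
      exact ⟨q, hq.1.1.ge⟩
  simpa [hle, Function.comp_def] using hlim

lemma measurableSet_rare (δ : Step d) (m M g R : ℕ) : MeasurableSet (Rare δ m M g R) := by
  have : Rare δ m M g R = ⋃ p, ⋃ q, Hit δ ((m + M : ℕ) : ℤ) p ∩ Hit δ ((m + M + g : ℕ) : ℤ) q ∩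
      {η | (upT δ m η p).card ≤ R} ∩ ⋂ s, {η | p ≤ s → s ≤ q → (m : ℤ) ≤ hgt δ η s} := by
    ext η
    simp only [Rare, Set.mem_iUnion, Set.mem_inter_iff, Set.mem_iInter, Set.mem_ofPred_eq]
    exact ⟨fun ⟨p, q, a, b, c, e⟩ => ⟨p, q, ⟨⟨a, b⟩, c⟩, e⟩,
      fun ⟨p, q, ⟨⟨a, b⟩, c⟩, e⟩ => ⟨p, q, a, b, c, e⟩⟩
  rw [this]
  refine MeasurableSet.iUnion fun p => MeasurableSet.iUnion fun q =>
    (((detBy_hit δ _ le_rfl).measurableSet.inter (detBy_hit δ _ le_rfl).measurableSet).inter ?_).inter
      (MeasurableSet.iInter fun s => ?_)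
  · exact DetBy.measurableSet (H := p) fun η η' he (h : _ ≤ R) => by
      show (upT δ m η' p).card ≤ R
      rwa [← upT_congr he]
  · refine DetBy.measurableSet (H := s) fun η η' he h => ?_
    simp only [Set.mem_ofPred_eq] at h ⊢
    rwa [← hgt_congr δ he]

omit [NeZero d] in
lemma exists_cross {δ : Step d} {η : ℕ → Step d} {m : ℤ} {s e : ℕ} (hse : s ≤ e)
    (hs : hgt δ η s ≤ m) (he : m ≤ hgt δ η e) : ∃ t, s ≤ t ∧ t ≤ e ∧ hgt δ η t = m := by
  obtain ⟨u, rfl⟩ := Nat.exists_eq_add_of_le hse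
  rw [hgt_add] at he
  obtain ⟨p, hp, hit⟩ := exists_hit δ (j := (m - hgt δ η s).toNat) (n := u) (η := shift s η)
    (by omega)
  exact ⟨s + p, by omega, by omega, by rw [hgt_add, hit.1]; omega⟩

/-- Without escape along the axis the upper speed along it is not positive. -/
lemma slow_of_null (hμ : Elliptic μ) (δ : Step d) (h0 : nu μ (NoBack δ ∩ Unbdd δ) = 0) (D : ℕ) :
    nu μ {η | ∃ᶠ n : ℕ in atTop, (n : ℤ) ≤ (D + 1) * hgt δ η n} = 0 := by
  classical
  have := isProbabilityMeasure_nu hμ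
  set A := D + 1 with hA
  set K := 12 * A with hK
  set a : ℝ≥0∞ := 2 ^ (4 * K) with ha
  set R : ℕ → ℕ := fun M => M * K * (12 * A) with hR
  choose C hCt hC using fun M : ℕ => density hμ δ (R M)
  have hg : ∀ M : ℕ, ∃ g, 1 ≤ g ∧ a * (C M * nu μ (⋃ q, Away δ M g q)) ≤ 2⁻¹ := by
    intro M
    have h1 : Tendsto (fun g => a * (C M * nu μ (⋃ q, Away δ M g q))) atTop (𝓝 0) := by
      have h2 := ENNReal.Tendsto.const_mul (a := a * C M) (away_null hμ δ h0 M)
        (Or.inr (ENNReal.mul_ne_top (ENNReal.pow_ne_top (by norm_num)) (hCt M)))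
      simpa [mul_assoc] using h2
    exact ((eventually_ge_atTop 1).and ((ENNReal.tendsto_nhds_zero.1 h1) _ (by norm_num))).exists
  choose g hg1 hg2 using hg
  set L : ℕ → ℕ := fun j => Nat.rec 0 (fun _ M => M + g M) j with hL
  have hLs : ∀ j, L (j + 1) = L j + g (L j) := fun j => rfl
  have hLm : ∀ i j, i ≤ j → L i ≤ L j := fun i j h =>
    (monotone_nat_of_le_succ fun j => (hLs j).symm ▸ Nat.le_add_right _ _) h
  set Y : ℕ → ℕ → ℕ → (ℕ → Step d) → ℕ := fun j r n η =>
    ((Finset.range n).filter fun i =>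
      η ∈ Rare δ (r + i * L (j + 1)) (L j) (g (L j)) (R (L j))).card
  have hYm : ∀ j r n, Measurable (Y j r n) := fun j r n => by
    simp only [Y, Finset.card_filter]
    exact Finset.measurable_sum _ fun i _ =>
      Measurable.ite (measurableSet_rare _ _ _ _ _) measurable_const measurable_const
  have hmom : ∀ j r n, ∫⁻ η, a ^ Y j r n η ∂nu μ ≤ (1 + 2⁻¹) ^ n := by
    intro j r n
    induction n with
    | zero => simp [Y]
    | succ n ih =>
      set m := r + n * L (j + 1)
      set Rn := Rare δ m (L j) (g (L j)) (R (L j))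
      have hmeas : Measurable fun η => a ^ Y j r n η :=
        (measurable_of_countable fun k : ℕ => a ^ k).comp (hYm j r n)
      have hle : ∀ η, a ^ Y j r (n + 1) η ≤
          a ^ Y j r n η + a * Rn.indicator (fun η => a ^ Y j r n η) η := by
        intro η
        by_cases hη : η ∈ Rn
        · have : Y j r (n + 1) η = Y j r n η + 1 := by
            simp only [Y, Finset.range_add_one, Finset.filter_insert]
            rw [if_pos hη, Finset.card_insert_of_notMem (by simp)]
          rw [this, Set.indicator_of_mem hη, pow_succ, mul_comm]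
          exact le_add_self
        · have : Y j r (n + 1) η = Y j r n η := by
            simp only [Y, Finset.range_add_one, Finset.filter_insert]
            rw [if_neg hη]
          rw [this]
          exact le_self_add
      have hdet : ∀ p η η', η ∈ Hit δ ((m + L j : ℕ) : ℤ) p → (∀ t < p, η t = η' t) →
          a ^ Y j r n η = a ^ Y j r n η' := by
        intro p η η' hp he
        congr 1
        refine congrArg Finset.card (Finset.filter_congr fun i hi => ?_)
        have hj : r + i * L (j + 1) + L j + g (L j) ≤ m + L j := by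
          have h1 : (i + 1) * L (j + 1) ≤ n * L (j + 1) :=
            Nat.mul_le_mul_right _ (Finset.mem_range.1 hi)
          have h2 := hLs j
          rw [add_mul, one_mul] at h1
          simp only [m]
          omega
        exact ⟨rare_congr hj hp he,
          rare_congr hj (detBy_hit δ _ le_rfl η η' he hp) fun t ht => (he t ht).symm⟩
      calc ∫⁻ η, a ^ Y j r (n + 1) η ∂nu μ
          ≤ ∫⁻ η, a ^ Y j r n η + a * Rn.indicator (fun η => a ^ Y j r n η) η ∂nu μ :=
            lintegral_mono hle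
        _ = ∫⁻ η, a ^ Y j r n η ∂nu μ + a * ∫⁻ η, Rn.indicator (fun η => a ^ Y j r n η) η ∂nu μ := by
            rw [lintegral_add_left hmeas,
              lintegral_const_mul _ (hmeas.indicator (measurableSet_rare _ _ _ _ _))]
        _ ≤ ∫⁻ η, a ^ Y j r n η ∂nu μ +
            a * (C (L j) * nu μ (⋃ q, Away δ (L j) (g (L j)) q) * ∫⁻ η, a ^ Y j r n η ∂nu μ) :=
            add_le_add le_rfl (mul_le_mul' le_rfl (rare_le hμ δ _ _ _ (hC (L j)) m _ hdet))
        _ ≤ (1 + 2⁻¹) * ∫⁻ η, a ^ Y j r n η ∂nu μ := by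
            rw [add_mul, one_mul, ← mul_assoc]
            exact add_le_add le_rfl (mul_le_mul' (hg2 _) le_rfl)
        _ ≤ _ := by rw [pow_succ']; exact mul_le_mul' le_rfl ih
  have hrare : ∀ j r, ∀ᵐ η ∂nu μ, ∀ᶠ n in atTop, ¬ n ≤ 4 * K * Y j r n η := by
    intro j r
    have hb : ∀ n, nu μ {η | n ≤ 4 * K * Y j r n η} ≤ ((1 + 2⁻¹) / 2) ^ n := by
      intro n
      rw [ENNReal.div_eq_inv_mul, mul_pow, ← ENNReal.inv_pow]
      calc nu μ {η | n ≤ 4 * K * Y j r n η}
          ≤ nu μ {η | (2 : ℝ≥0∞) ^ n ≤ a ^ Y j r n η} := measure_mono fun η (hη : n ≤ _) => by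
            show (2 : ℝ≥0∞) ^ n ≤ a ^ Y j r n η
            rw [ha, ← pow_mul]
            exact pow_le_pow_right' one_le_two hη
        _ ≤ (∫⁻ η, a ^ Y j r n η ∂nu μ) / 2 ^ n :=
            meas_ge_le_lintegral_div
              ((measurable_of_countable fun k : ℕ => a ^ k).comp (hYm j r n)).aemeasurable
              (pow_ne_zero _ two_ne_zero) (ENNReal.pow_ne_top (by norm_num))
        _ ≤ _ := by rw [ENNReal.div_eq_inv_mul]; exact mul_le_mul' le_rfl (hmom j r n)
    have hlt : ((1 : ℝ≥0∞) + 2⁻¹) / 2 < 1 := by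
      rw [ENNReal.div_lt_iff (Or.inl two_ne_zero) (Or.inl (by norm_num)), one_mul]
      calc (1 : ℝ≥0∞) + 2⁻¹ < 1 + 1 := (ENNReal.add_lt_add_iff_left ENNReal.one_ne_top).2
            (ENNReal.inv_lt_one.2 ENNReal.one_lt_two)
        _ = 2 := one_add_one_eq_two
    refine ae_eventually_notMem (ne_top_of_le_ne_top ?_ (ENNReal.tsum_le_tsum hb))
    rw [ENNReal.tsum_geometric]
    exact ENNReal.inv_ne_top.2 (tsub_pos_of_lt hlt).ne'
  refine measure_mono_null (fun η hη => ?_)
    (ae_iff.1 (ae_all_iff.2 fun j => ae_all_iff.2 fun r => hrare j r))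
  intro hgood
  have hP : ∀ j, 0 < L (j + 1) := fun j => by have := hLs j; have := hg1 (L j); omega
  have hev : ∀ᶠ N in atTop, ∀ j < K, ∀ r < L (j + 1),
      ¬ (N / L (j + 1) + 1) ≤ 4 * K * Y j r (N / L (j + 1) + 1) η := by
    refine (Finset.eventually_all (Finset.range K)).2 (fun j _ =>
      (Finset.eventually_all (Finset.range (L (j + 1)))).2 fun r _ => ?_) |>.mono
      fun N h j hj r hr => h j (Finset.mem_range.2 hj) r (Finset.mem_range.2 hr)
    exact (tendsto_add_atTop_nat 1).comp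
      ((Nat.tendsto_div_const_atTop (hP j).ne')) |>.eventually (hgood j r)
  obtain ⟨N₀, hN₀⟩ := eventually_atTop.1 hev
  obtain ⟨n, hn, hn0⟩ := (hη.and_eventually
    (eventually_gt_atTop (A * (N₀ + 2 * L K + 1)))).exists
  obtain ⟨h, hh⟩ : ∃ h : ℕ, hgt δ η n = h := Int.eq_ofNat_of_zero_le (by
    by_contra hc
    push Not at hc
    have : (D + 1 : ℤ) * hgt δ η n < 0 := mul_neg_of_pos_of_neg (by positivity) hc
    omega)
  rw [hh] at hn
  have hnh : n ≤ A * h := by rw [hA]; exact_mod_cast hn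
  have hhb : N₀ + 2 * L K + 1 < h := Nat.lt_of_mul_lt_mul_left (hn0.trans_le hnh)
  obtain ⟨N, hN⟩ := Nat.exists_eq_add_of_le (show L K ≤ h by omega)
  have hNn : n + 1 ≤ 3 * A * N := by
    have h1 : A * h ≤ 2 * A * N := by
      rw [mul_comm 2 A, mul_assoc]
      exact Nat.mul_le_mul_left A (by omega)
    have h2 : 1 ≤ A * N := Nat.mul_pos (by omega) (by omega)
    rw [mul_assoc] at h1 ⊢
    omega
  set V : ℕ → Finset ℕ := fun m => (Finset.range (n + 1)).filter fun s => hgt δ η s = m
  set U : ℕ → ℕ → Finset ℕ := fun j m =>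
    (Finset.range n).filter fun s => (m : ℤ) ≤ hgt δ η s ∧ hgt δ η s < (m + L j : ℕ)
  have hcover : ∀ m < N, K < (V m).card ∨ (∃ j < K, R (L j) < (U j m).card) ∨
      ∃ j < K, η ∈ Rare δ m (L j) (g (L j)) (R (L j)) := by
    intro m hm
    by_contra! hc
    obtain ⟨hv, hu, hr⟩ := hc
    have hp : ∀ j, j ≤ K → ∃ p ≤ n, η ∈ Hit δ ((m + L j : ℕ) : ℤ) p := fun j hj =>
      exists_hit δ (by have := hLm j K hj; rw [hh]; exact_mod_cast (by omega : m + L j ≤ h))
    choose! p hpn hpit using hp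
    have hmono : ∀ j < K, p j ≤ p (j + 1) := fun j hj => by
      obtain ⟨q, hq, hit⟩ := exists_hit δ (j := m + L j) (n := p (j + 1)) (η := η) (by
        rw [(hpit (j + 1) hj).1]
        exact_mod_cast Nat.add_le_add_left (hLm j (j + 1) j.le_succ) m)
      exact hit_unique (hpit j hj.le) hit ▸ hq
    have hvis : ∀ j < K, ∃ t, p j < t ∧ t ≤ p (j + 1) ∧ hgt δ η t = m := by
      intro j hj
      by_contra! hno
      refine hr j hj ⟨p j, p (j + 1), hpit j hj.le, ?_, ?_, fun s h1 h2 => ?_⟩
      · rw [Nat.add_assoc, ← hLs]; exact hpit (j + 1) hj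
      · refine le_trans (Finset.card_le_card fun s hs => ?_) (hu j hj)
        obtain ⟨h1, h2⟩ := Finset.mem_filter.1 hs
        have h1 := Finset.mem_range.1 h1
        exact Finset.mem_filter.2 ⟨Finset.mem_range.2 (h1.trans_le (hpn j hj.le)), h2,
          (hpit j hj.le).2 s h1⟩
      · rcases h1.eq_or_lt with rfl | h1
        · rw [(hpit j hj.le).1]; push_cast; omega
        · by_contra hlt
          obtain ⟨t, ht1, ht2, ht3⟩ := exists_cross h2 (not_le.1 hlt).le (by
            rw [(hpit (j + 1) hj).1]; push_cast; omega)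
          exact hno t (h1.trans_le ht1) ht2 ht3
    choose! t ht1 ht2 ht3 using hvis
    set u : ℕ → ℕ := fun i => if i = 0 then p 0 else t (i - 1)
    have hmem : ∀ i ∈ Finset.range (K + 1), u i ∈ V m := by
      intro i hi
      have hi := Finset.mem_range.1 hi
      rcases i with _ | i
      · refine Finset.mem_filter.2 ⟨Finset.mem_range.2 ?_, ?_⟩
        · have := hpn 0 (Nat.zero_le _); simp [u]; omega
        · simpa [u, hL] using (hpit 0 (Nat.zero_le _)).1
      · refine Finset.mem_filter.2 ⟨Finset.mem_range.2 ?_, ?_⟩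
        · have h1 := ht2 i (by omega)
          have h2 := hpn (i + 1) (by omega)
          simp [u]; omega
        · simpa [u] using ht3 i (by omega)
    have hinc : ∀ i < K, u i ≤ p i ∧ p i < u (i + 1) := fun i hi => by
      refine ⟨?_, by simpa [u] using ht1 i hi⟩
      rcases i with _ | i
      · simp [u]
      · simpa [u] using ht2 i (by omega)
    have hinj : Set.InjOn u ↑(Finset.range (K + 1)) := by
      have hlt : ∀ i j, i < j → j ≤ K → u i < u j := by
        intro i j hij
        induction j, hij using Nat.le_induction with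
        | base => exact fun hj => (hinc i hj).1.trans_lt (hinc i hj).2
        | succ j _ ih =>
          intro hj
          exact (ih (by omega)).trans_le ((hinc j hj).1.trans (hinc j hj).2.le)
      intro i hi j hj he
      simp only [Finset.coe_range, Set.mem_Iio] at hi hj
      rcases lt_trichotomy i j with h | h | h
      · exact absurd he (hlt i j h (by omega)).ne
      · exact h
      · exact absurd he (hlt j i h (by omega)).ne'
    have h1 := Finset.card_le_card_of_injOn u hmem hinj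
    rw [Finset.card_range] at h1
    omega
  set S₁ := (Finset.range N).filter fun m => K < (V m).card
  set S₂ : ℕ → Finset ℕ := fun j => (Finset.range N).filter fun m => R (L j) < (U j m).card
  set S₃ : ℕ → Finset ℕ := fun j =>
    (Finset.range N).filter fun m => η ∈ Rare δ m (L j) (g (L j)) (R (L j))
  have htot : N ≤ S₁.card + (∑ j ∈ Finset.range K, (S₂ j).card + ∑ j ∈ Finset.range K, (S₃ j).card) := by
    have hsub : Finset.range N ⊆
        S₁ ∪ ((Finset.range K).biUnion S₂ ∪ (Finset.range K).biUnion S₃) := fun m hm => by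
      rcases hcover m (Finset.mem_range.1 hm) with h | ⟨j, hj, h⟩ | ⟨j, hj, h⟩
      · exact Finset.mem_union_left _ (Finset.mem_filter.2 ⟨hm, h⟩)
      · exact Finset.mem_union_right _ (Finset.mem_union_left _ (Finset.mem_biUnion.2
          ⟨j, Finset.mem_range.2 hj, Finset.mem_filter.2 ⟨hm, h⟩⟩))
      · exact Finset.mem_union_right _ (Finset.mem_union_right _ (Finset.mem_biUnion.2
          ⟨j, Finset.mem_range.2 hj, Finset.mem_filter.2 ⟨hm, h⟩⟩))
    calc N = (Finset.range N).card := (Finset.card_range N).symm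
      _ ≤ _ := (Finset.card_le_card hsub).trans ((Finset.card_union_le _ _).trans
          (add_le_add le_rfl ((Finset.card_union_le _ _).trans
            (add_le_add Finset.card_biUnion_le Finset.card_biUnion_le))))
  have h₁ : 4 * S₁.card ≤ N := by
    have h1 : K * S₁.card ≤ n + 1 := by
      calc K * S₁.card = ∑ _m ∈ S₁, K := by rw [Finset.sum_const, smul_eq_mul, mul_comm]
        _ ≤ ∑ m ∈ S₁, (V m).card :=
            Finset.sum_le_sum fun m hm => (Finset.mem_filter.1 hm).2.le
        _ = (S₁.biUnion V).card := (Finset.card_biUnion fun a _ b _ hab =>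
            Finset.disjoint_left.2 fun s hs hs' => hab (by
              have := (Finset.mem_filter.1 hs).2.symm.trans (Finset.mem_filter.1 hs').2
              exact_mod_cast this)).symm
        _ ≤ _ := (Finset.card_le_card (Finset.biUnion_subset.2 fun m _ =>
            Finset.filter_subset _ _)).trans_eq (Finset.card_range _)
    refine Nat.le_of_mul_le_mul_left (c := 3 * A) ?_ (by omega)
    calc 3 * A * (4 * S₁.card) = K * S₁.card := by rw [hK]; ring
      _ ≤ _ := h1.trans hNn
  have h₂ : ∀ j < K, 4 * K * (S₂ j).card ≤ N := by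
    intro j hj
    rcases Nat.eq_zero_or_pos (L j) with h0 | hpos
    · have : S₂ j = ∅ := Finset.filter_eq_empty_iff.2 fun m _ hm => by
        have : U j m = ∅ := Finset.filter_eq_empty_iff.2 fun s _ hs => by
          rw [h0, Nat.add_zero] at hs; omega
        simp [this] at hm
      simp [this]
    have h1 : R (L j) * (S₂ j).card ≤ L j * n := by
      calc R (L j) * (S₂ j).card = ∑ _m ∈ S₂ j, R (L j) := by
            rw [Finset.sum_const, smul_eq_mul, mul_comm]
        _ ≤ ∑ m ∈ S₂ j, (U j m).card := Finset.sum_le_sum fun m hm => (Finset.mem_filter.1 hm).2.le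
        _ = ∑ s ∈ Finset.range n, ((S₂ j).filter fun m : ℕ =>
              (m : ℤ) ≤ hgt δ η s ∧ hgt δ η s < (m + L j : ℕ)).card :=
            Finset.sum_card_bipartiteAbove_eq_sum_card_bipartiteBelow
              (fun (m s : ℕ) => (m : ℤ) ≤ hgt δ η s ∧ hgt δ η s < (m + L j : ℕ))
        _ ≤ ∑ _s ∈ Finset.range n, L j := Finset.sum_le_sum fun s _ => by
            refine (Finset.card_le_card (t := Finset.Ico ((hgt δ η s).toNat + 1 - L j)
              ((hgt δ η s).toNat + 1)) fun m hm => ?_).trans (by rw [Nat.card_Ico]; omega)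
            have := (Finset.mem_filter.1 hm).2
            rw [Finset.mem_Ico]
            omega
        _ = L j * n := by rw [Finset.sum_const, Finset.card_range, smul_eq_mul, mul_comm]
    refine Nat.le_of_mul_le_mul_left (c := 3 * A * L j) ?_ (Nat.mul_pos (by omega) hpos)
    calc 3 * A * L j * (4 * K * (S₂ j).card) = R (L j) * (S₂ j).card := by rw [hR]; ring
      _ ≤ L j * n := h1
      _ ≤ 3 * A * L j * N := by
          rw [mul_comm (3 * A) (L j), mul_assoc]; exact Nat.mul_le_mul_left _ (by omega)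
  have h₂' : 4 * ∑ j ∈ Finset.range K, (S₂ j).card ≤ N := by
    refine Nat.le_of_mul_le_mul_left (c := K) ?_ (by omega)
    calc K * (4 * ∑ j ∈ Finset.range K, (S₂ j).card)
        = ∑ j ∈ Finset.range K, 4 * K * (S₂ j).card := by rw [← Finset.mul_sum]; ring
      _ ≤ ∑ _j ∈ Finset.range K, N := Finset.sum_le_sum fun j hj => h₂ j (Finset.mem_range.1 hj)
      _ = K * N := by rw [Finset.sum_const, Finset.card_range, smul_eq_mul]
  obtain ⟨j, hj, hjS⟩ : ∃ j ∈ Finset.range K, N ≤ 2 * K * (S₃ j).card := by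
    refine Finset.exists_le_of_sum_le ⟨0, Finset.mem_range.2 (by omega)⟩ ?_
    rw [Finset.sum_const, Finset.card_range, smul_eq_mul, ← Finset.mul_sum]
    calc K * N ≤ K * (2 * ∑ j ∈ Finset.range K, (S₃ j).card) :=
          Nat.mul_le_mul_left K (by omega)
      _ = _ := by ring
  have hj := Finset.mem_range.1 hj
  set P := L (j + 1)
  have hPK : P ≤ L K := hLm _ _ hj
  set c := N / P + 1
  have hfib : (S₃ j).card ≤ ∑ r ∈ Finset.range P, Y j r c η := by
    rw [Finset.card_eq_sum_card_fiberwise (f := fun m => m % P) (t := Finset.range P) (fun m _ =>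
      Finset.mem_range.2 (Nat.mod_lt _ (hP j)))]
    refine Finset.sum_le_sum fun r _ => Finset.card_le_card_of_injOn (fun m => m / P) ?_ ?_
    · intro m hm
      obtain ⟨hm, hr⟩ := Finset.mem_filter.1 hm
      obtain ⟨hm, hR'⟩ := Finset.mem_filter.1 hm
      refine Finset.mem_filter.2 ⟨Finset.mem_range.2 ?_, ?_⟩
      · exact Nat.lt_succ_of_le (Nat.div_le_div_right (Finset.mem_range.1 hm).le)
      · rw [← hr, show m % P + m / P * P = m by rw [Nat.mod_add_div']]
        exact hR'
    · intro x hx y hy (he : x / P = y / P)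
      have h1 := (Finset.mem_filter.1 (Finset.mem_coe.1 hx)).2
      have h2 := (Finset.mem_filter.1 (Finset.mem_coe.1 hy)).2
      rw [← Nat.mod_add_div' x P, ← Nat.mod_add_div' y P, he, h1, h2]
  obtain ⟨r, hr, hrY⟩ : ∃ r ∈ Finset.range P, c ≤ 4 * K * Y j r c η := by
    refine Finset.exists_le_of_sum_le ⟨0, Finset.mem_range.2 (hP j)⟩ ?_
    rw [Finset.sum_const, Finset.card_range, smul_eq_mul, ← Finset.mul_sum]
    calc P * c ≤ 2 * N := by
          have := Nat.mul_div_le N P
          simp only [c, Nat.mul_add, mul_one]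
          omega
      _ ≤ 2 * (2 * K * (S₃ j).card) := Nat.mul_le_mul_left 2 hjS
      _ = 4 * K * (S₃ j).card := by ring
      _ ≤ _ := Nat.mul_le_mul_left _ hfib
  exact hN₀ N (by omega) j hj r (Finset.mem_range.1 hr) hrY

/-- Positive upper speed along an axis only happens on escaping walks. -/
theorem speed_escape (hμ : Elliptic μ) (δ : Step d) :
    ∀ᵐ η ∂nu μ, η ∉ Dir.Escape (Planar.ax δ) →
      ∀ c > (0 : ℝ), ∀ᶠ n : ℕ in atTop, (hgt δ η n : ℝ) < c * n := by
  have := isProbabilityMeasure_nu hμ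
  suffices h : ∀ᵐ η ∂nu μ, η ∉ Dir.Escape (Planar.ax δ) → ∀ D : ℕ,
      ¬ ∃ᶠ n : ℕ in atTop, (n : ℤ) ≤ (D + 1) * hgt δ η n by
    filter_upwards [h] with η hη he c hc
    obtain ⟨D, hD⟩ := exists_nat_one_div_lt hc
    refine (not_frequently.1 (hη he D)).mono fun n hn => ?_
    have h1 : ((D : ℝ) + 1) * hgt δ η n < n := by exact_mod_cast not_le.1 hn
    rw [div_lt_iff₀ (by positivity)] at hD
    nlinarith [(Nat.cast_nonneg n : (0 : ℝ) ≤ n)]
  have hsub : ∀ D, {η : ℕ → Step d | ∃ᶠ n : ℕ in atTop, (n : ℤ) ≤ (D + 1 : ℕ) * hgt δ η n} ⊆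
      Unbdd δ := fun D η hη j => by
    obtain ⟨n, hn, hn0⟩ := (hη.and_eventually (eventually_ge_atTop ((D + 1) * j))).exists
    refine ⟨n, le_of_mul_le_mul_left (a := ((D + 1 : ℕ) : ℤ)) (le_trans ?_ hn) (by positivity)⟩
    exact_mod_cast hn0
  by_cases hN : nu μ (NoBack δ ∩ Unbdd δ) = 0
  · filter_upwards [ae_all_iff.2 fun D =>
      measure_eq_zero_iff_ae_notMem.1 (slow_of_null hμ δ hN D)] with η hη _ D
    exact hη D
  · have h1 := (mul_eq_zero.1 (noBack_escape hμ δ)).resolve_right fun h =>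
      hN (measure_mono_null Set.inter_subset_left h)
    filter_upwards [measure_eq_zero_iff_ae_notMem.1 h1] with η hη he D hf
    exact hη ⟨hsub D (by exact_mod_cast hf), he⟩

end Vale.Agent.P147.Flux
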