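import Vale.Agent.P147.Flux.Api
import Vale.Agent.P147.Dir.Direction

/-!
P147: a forward walk with finite mean block time spends bounded mean time at every level, and the
averaged flux keeps a positive mass.
-/

open MeasureTheory Filter
open scoped ENNReal Topology

noncomputable section

namespace Vale.Agent.P147.Flux

variable {d : ℕ}

/-- The number of times before `n` spent at level `j`. -/
def cnt (δ : Step d) (n : ℕ) (j : ℤ) (η : ℕ → Step d) : ℝ≥0∞ :=
  ∑ t ∈ Finset.range n, if hgt δ η t = j then 1 else 0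

/-- The number of times in the first block spent at levels at most `j`. -/
def low (δ : Step d) (j : ℤ) (η : ℕ → Step d) : ℝ≥0∞ :=
  ∑ t ∈ Finset.range (Dir.tau (Planar.ax δ) η), if hgt δ η t ≤ j then 1 else 0

variable {δ : Step d}

lemma ctime_succ' (M : ℕ) (η : ℕ → Step d) :
    Dir.ctime (Planar.ax δ) (M + 1) η =
      Dir.tau (Planar.ax δ) η + Dir.ctime (Planar.ax δ) M (Dir.next (Planar.ax δ) η) := by
  rw [Dir.ctime, Finset.sum_range_succ', add_comm]
  simp [Dir.ctime, Function.iterate_succ_apply]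

lemma cnt_add (a b : ℕ) (j : ℤ) (η : ℕ → Step d) :
    cnt δ (a + b) j η = cnt δ a j η + cnt δ b (j - hgt δ η a) (shift a η) := by
  rw [cnt, Finset.sum_range_add]
  refine congrArg₂ (· + ·) rfl (Finset.sum_congr rfl fun t _ => ?_)
  rw [hgt_add]
  exact if_congr eq_sub_iff_add_eq'.symm rfl rfl

lemma low_add_le (j : ℤ) (η : ℕ → Step d) :
    cnt δ (Dir.tau (Planar.ax δ) η) j η + low δ (j - 1) η = low δ j η := by
  rw [cnt, low, low, ← Finset.sum_add_distrib]
  refine Finset.sum_congr rfl fun t _ => ?_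
  rcases lt_trichotomy (hgt δ η t) j with h | h | h
  · rw [if_neg h.ne, if_pos (by omega), if_pos h.le, zero_add]
  · rw [if_pos h, if_neg (by omega), if_pos h.le, add_zero]
  · rw [if_neg h.ne', if_neg (by omega), if_neg (by omega), add_zero]

lemma low_mono {i j : ℤ} (h : i ≤ j) (η : ℕ → Step d) : low δ i η ≤ low δ j η :=
  Finset.sum_le_sum fun t _ => by
    split_ifs <;> first | exact le_rfl | exact zero_le | omega

lemma low_le (j : ℤ) (η : ℕ → Step d) : low δ j η ≤ (Dir.tau (Planar.ax δ) η : ℝ≥0∞) := by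
  refine (Finset.sum_le_sum (g := fun _ => 1) fun t _ => by split_ifs <;> simp).trans ?_
  simp

variable [NeZero d] {μ : Measure (Step d → ℝ)}

omit [NeZero d] in
lemma measurable_cnt (n : ℕ) (j : ℤ) : Measurable (cnt (d := d) δ n j) :=
  Finset.measurable_fun_sum _ fun t _ =>
    Measurable.ite (measurable_hgt δ t (measurableSet_singleton j)) measurable_const measurable_const

lemma measurable_ctime (hR : Dir.Regen μ (Planar.ax δ)) (M : ℕ) :
    Measurable (Dir.ctime (Planar.ax δ) M) :=
  Finset.measurable_fun_sum _ fun i _ =>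
    hR.measurable_tau.comp (hR.preserving.iterate i).measurable

lemma measurable_cnt_ctime (hR : Dir.Regen μ (Planar.ax δ)) (M : ℕ) (j : ℤ) :
    Measurable fun η => cnt δ (Dir.ctime (Planar.ax δ) M η) j η :=
  (measurable_from_prod_countable_left (f := fun r : (ℕ → Step d) × ℕ => cnt δ r.2 j r.1)
    fun n => measurable_cnt n j).comp (measurable_id.prodMk (measurable_ctime hR M))

lemma measurable_low (hR : Dir.Regen μ (Planar.ax δ)) (j : ℤ) : Measurable (low (d := d) δ j) :=
  Dir.measurable_at_tau hR.measurable_tau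
    (F := fun n η => ∑ t ∈ Finset.range n, if hgt δ η t ≤ j then (1 : ℝ≥0∞) else 0) fun _ =>
    Finset.measurable_fun_sum _ fun t _ =>
      Measurable.ite (measurable_hgt δ t (MeasurableSet.of_discrete (s := Set.Iic j)))
        measurable_const measurable_const

lemma cnt_le_low (hR : Dir.Regen μ (Planar.ax δ)) : ∀ (M : ℕ) (j : ℤ),
    ∫⁻ η, cnt δ (Dir.ctime (Planar.ax δ) M η) j η ∂Dir.fwdLaw μ (Planar.ax δ) ≤
      ∫⁻ η, low δ j η ∂Dir.fwdLaw μ (Planar.ax δ) := by
  classical
  have := hR.prob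
  set l := Planar.ax δ
  intro M
  induction M with
  | zero => intro j; simp [cnt, Dir.ctime]
  | succ M ih =>
    intro j
    set H : (ℕ → Step d) → ℤ := fun η => hgt δ η (Dir.tau l η)
    have hHm : Measurable H :=
      Dir.measurable_at_tau hR.measurable_tau (F := fun n η => hgt δ η n) (measurable_hgt δ)
    set f : ℤ → (ℕ → Step d) → ℝ≥0∞ := fun i η => if H η = i then 1 else 0
    have hfm : ∀ i, Measurable (f i) := fun i =>
      Measurable.ite (hHm (measurableSet_singleton i)) measurable_const measurable_const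
    have hfb : ∀ i, Dir.BlockFun l (f i) := fun i η η' _ _ _ _ h5 h6 => by
      have h7 : H η = H η' := by
        simp only [H, ← h5]
        exact hgt_congr δ h6
      simp only [f, h7]
    have htot : ∀ η, ∑' i, f i η = 1 := fun η => by
      rw [tsum_eq_single (H η) fun i hi => if_neg (Ne.symm hi)]
      simp
    set g : ℤ → (ℕ → Step d) → ℝ≥0∞ := fun k η => cnt δ (Dir.ctime l M η) k η
    have hgm : ∀ k, Measurable (g k) := measurable_cnt_ctime hR M
    have hdec : ∀ η, cnt δ (Dir.ctime l (M + 1) η) j η =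
        cnt δ (Dir.tau l η) j η + ∑' i, f i η * g (j - i) (Dir.next l η) := fun η => by
      rw [ctime_succ', cnt_add, tsum_eq_single (H η) fun i hi => by simp [f, Ne.symm hi]]
      simp [f, g, H, Dir.next, l]
    have hind : ∀ i, ∫⁻ η, f i η * g (j - i) (Dir.next l η) ∂Dir.fwdLaw μ l =
        (∫⁻ η, f i η ∂Dir.fwdLaw μ l) * ∫⁻ η, g (j - i) η ∂Dir.fwdLaw μ l := fun i => by
      simpa using hR.lintegral_mul (hfm i) (hgm (j - i)) (hfb i) (i := 0) (j := 1) zero_lt_one
    have hbd : ∀ i, (∫⁻ η, f i η ∂Dir.fwdLaw μ l) * ∫⁻ η, g (j - i) η ∂Dir.fwdLaw μ l ≤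
        (∫⁻ η, f i η ∂Dir.fwdLaw μ l) * ∫⁻ η, low δ (j - 1) η ∂Dir.fwdLaw μ l := fun i => by
      rcases lt_or_ge i 1 with hi | hi
      · have h0 : ∫⁻ η, f i η ∂Dir.fwdLaw μ l = 0 := by
          refine (lintegral_congr_ae ?_).trans lintegral_zero
          filter_upwards [hR.exists_regT] with η hη
          have := (Planar.cand_ax.mp (Dir.tau_spec (hη.2 0)).1).1
          exact if_neg (ne_of_gt (show i < H η by
            simp only [Function.iterate_zero, id_eq] at this
            exact lt_of_lt_of_le hi this))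
        simp [h0]
      · exact mul_le_mul' le_rfl
          ((ih (j - i)).trans (lintegral_mono fun η => low_mono (by omega) η))
    have hgn : ∀ i, Measurable fun η => f i η * g (j - i) (Dir.next l η) := fun i =>
      (hfm i).mul ((hgm _).comp hR.preserving.measurable)
    calc ∫⁻ η, cnt δ (Dir.ctime l (M + 1) η) j η ∂Dir.fwdLaw μ l
        = ∫⁻ η, cnt δ (Dir.tau l η) j η + ∑' i, f i η * g (j - i) (Dir.next l η)
            ∂Dir.fwdLaw μ l := lintegral_congr hdec
      _ = ∫⁻ η, cnt δ (Dir.tau l η) j η ∂Dir.fwdLaw μ l +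
          ∑' i, ∫⁻ η, f i η * g (j - i) (Dir.next l η) ∂Dir.fwdLaw μ l := by
        rw [lintegral_add_left (Dir.measurable_at_tau hR.measurable_tau
          (F := fun n η => cnt δ n j η) fun n => measurable_cnt n j),
          lintegral_tsum fun i => (hgn i).aemeasurable]
      _ ≤ ∫⁻ η, cnt δ (Dir.tau l η) j η ∂Dir.fwdLaw μ l +
          ∑' i, (∫⁻ η, f i η ∂Dir.fwdLaw μ l) * ∫⁻ η, low δ (j - 1) η ∂Dir.fwdLaw μ l :=
        add_le_add le_rfl (ENNReal.tsum_le_tsum fun i => (hind i).trans_le (hbd i))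
      _ = ∫⁻ η, low δ j η ∂Dir.fwdLaw μ l := by
        rw [ENNReal.tsum_mul_right, ← lintegral_tsum fun i => (hfm i).aemeasurable,
          lintegral_congr htot, lintegral_const, measure_univ, mul_one, one_mul,
          ← lintegral_add_right _ (measurable_low hR (j - 1))]
        exact lintegral_congr (low_add_le j)

/-- Module Renewal: a forward walk spends bounded mean time at every level. -/
theorem visit (hμ : Elliptic μ) (hX : Planar.Side μ δ) : VisitStmt μ δ := by
  classical
  have := isProbabilityMeasure_nu hμ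
  have hR := hX.regen
  have := hR.prob
  set l := Planar.ax δ
  refine ⟨nu μ (Dir.Fwd l) * ∫⁻ η, (Dir.tau l η : ℝ≥0∞) ∂Dir.fwdLaw μ l,
    ENNReal.mul_ne_top (measure_ne_top _ _) hX.time, fun j => ?_⟩
  set g : (ℕ → Step d) → ℝ≥0∞ := fun η => ∑' t, if hgt δ η t = j then (1 : ℝ≥0∞) else 0
  have hnu : ∫⁻ η, (Dir.Fwd l).indicator g η ∂nu μ =
      nu μ (Dir.Fwd l) * ∫⁻ η, g η ∂Dir.fwdLaw μ l := by
    rw [lintegral_indicator Dir.measurableSet_fwd, Dir.fwdLaw, lintegral_smul_measure, smul_eq_mul,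
      ← mul_assoc, ENNReal.mul_inv_cancel hR.pos.ne' (measure_ne_top _ _), one_mul]
  change ∫⁻ η, (Dir.Fwd l).indicator g η ∂nu μ ≤ _
  rw [hnu]
  refine mul_le_mul' le_rfl ?_
  have hm : ∀ t, Measurable fun η : ℕ → Step d => if hgt δ η t = j then (1 : ℝ≥0∞) else 0 :=
    fun t => Measurable.ite (measurable_hgt δ t (measurableSet_singleton j)) measurable_const
      measurable_const
  rw [show g = fun η => ∑' t, if hgt δ η t = j then (1 : ℝ≥0∞) else 0 from rfl,
    lintegral_tsum fun t => (hm t).aemeasurable, ENNReal.tsum_eq_iSup_nat]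
  refine iSup_le fun M => ?_
  rw [← lintegral_finsetSum _ fun t _ => hm t]
  refine le_trans ?_ ((cnt_le_low hR M j).trans (lintegral_mono (low_le j)))
  refine lintegral_mono_ae ?_
  filter_upwards [hR.blocks] with η hη
  exact Finset.sum_le_sum_of_subset
    (Finset.range_mono (Dir.ctime_strictMono (fun k => (hη k).2)).le_apply)

omit [NeZero d] in
lemma detBy_climb (n p : ℕ) : DetBy p (Climb δ n p) :=
  (detBy_hit δ _ le_rfl).inter (detBy_stayH _ _)

lemma measurableSet_climb_fwd (n p : ℕ) :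
    MeasurableSet (Climb δ n p ∩ shift p ⁻¹' Dir.Fwd (Planar.ax δ)) :=
  (detBy_climb n p).measurableSet.inter (measurable_shift p Dir.measurableSet_fwd)

/-- The mean flux is the chance to regenerate at the level in time. -/
lemma flux_mean (hμ : Elliptic μ) (hM : MarkovStmt μ) (L n : ℕ) :
    ∑ p ∈ Finset.range (L + 1), nu μ (Climb δ n p ∩ shift p ⁻¹' Dir.Fwd (Planar.ax δ)) ≤
      ∫⁻ ω, flux δ L n ω ∂envLaw μ := by
  classical
  have hF : MeasurableSet (Dir.Fwd (Planar.ax δ)) := Dir.measurableSet_fwd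
  have hterm : ∀ (p : ℕ) (ξ : ℕ → Step d),
      Measurable fun ω : Env d => W p ξ (sh (-pos ξ p) ω) * qlaw ω (Dir.Fwd (Planar.ax δ)) :=
    fun p ξ => ((measurable_W p ξ).comp (measurable_sh _)).mul
      (measurable_qlaw hF)
  simp only [flux, Finset.sum_mul]
  rw [lintegral_finsetSum _ fun p _ => Finset.measurable_fun_sum _ fun σ _ => hterm p (ext' σ)]
  refine Finset.sum_le_sum fun p _ => ?_
  rw [lintegral_finsetSum _ fun σ _ => hterm p (ext' σ)]
  refine le_trans (measure_mono (t := ⋃ σ ∈ Finset.univ.filter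
    (fun σ : Fin p → Step d => ext' σ ∈ Climb δ n p),
      cyl p (ext' σ) ∩ shift p ⁻¹' Dir.Fwd (Planar.ax δ)) fun η hη => ?_) ?_
  · refine Set.mem_iUnion₂.mpr ⟨fun t => η t, ?_, fun t ht => by rw [ext'_lt _ ht], hη.2⟩
    rw [Finset.mem_filter]
    exact ⟨Finset.mem_univ _, detBy_climb n p η _ (fun t ht => by rw [ext'_lt _ ht]) hη.1⟩
  · refine (measure_biUnion_finset_le _ _).trans (Finset.sum_le_sum fun σ _ => le_of_eq ?_)
    rw [nu_eq_lintegral ((measurableSet_cyl _ _).inter (measurable_shift p hF))]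
    refine Eq.trans ?_ ((translate_invariant hμ (pos (ext' σ) p)).lintegral_comp (hterm p (ext' σ)))
    refine lintegral_congr_ae ?_
    filter_upwards [hM] with ω hω
    rw [hω p (ext' σ) _ hF]
    congr 1
    · congr 1
      funext x
      simp [sh]

/-- Module Renewal: the averaged flux keeps a positive mass. -/
theorem mass (hμ : Elliptic μ) (hX : Planar.Side μ δ) (hM : MarkovStmt μ) : MassStmt μ δ := by
  classical
  have := isProbabilityMeasure_nu hμ
  have hR := hX.regen
  have := hR.prob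
  set l := Planar.ax δ
  set T := ∫⁻ η, (Dir.tau l η : ℝ≥0∞) ∂Dir.fwdLaw μ l
  obtain ⟨B₀, hB₀⟩ := ENNReal.exists_nat_gt (ENNReal.mul_ne_top ENNReal.ofNat_ne_top hX.time :
    2 * T ≠ ∞)
  set B := B₀ + 1
  have hB : 2 * T ≤ (B : ℝ≥0∞) := hB₀.le.trans (by exact_mod_cast Nat.le_succ B₀)
  set P := nu μ (Dir.Fwd l)
  refine ⟨1, P / (4 * B : ℕ), ENNReal.div_ne_zero.mpr ⟨hR.pos.ne', ENNReal.natCast_ne_top _⟩, ?_⟩
  refine eventually_atTop.mpr ⟨B, fun N hN => ?_⟩
  rw [one_mul, lintegral_finsetSum _ fun n _ => measurable_flux δ N n]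
  set m := N / B with hm
  let S : ℕ → ℕ → Set (ℕ → Step d) := fun n p => Climb δ n p ∩ shift p ⁻¹' Dir.Fwd l
  let E : ℕ → Set (ℕ → Step d) := fun k => {η | Dir.ctime l k η < N}
  have hEm : ∀ k, MeasurableSet (E k) := fun k =>
    measurable_ctime hR k (MeasurableSet.of_discrete (s := Set.Iio N))
  have hSm : ∀ n p, MeasurableSet (S n p) := measurableSet_climb_fwd
  have hT : ∀ k, ∫⁻ η, (Dir.ctime l k η : ℝ≥0∞) ∂Dir.fwdLaw μ l = k * T := fun k => by
    have hi : ∀ i, Measurable fun η : ℕ → Step d =>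
        (Dir.tau l ((Dir.next l)^[i] η) : ℝ≥0∞) := fun i =>
      ((measurable_of_countable fun n : ℕ => (n : ℝ≥0∞)).comp hR.measurable_tau).comp
        (hR.preserving.iterate i).measurable
    simp only [Dir.ctime, Nat.cast_sum]
    rw [lintegral_finsetSum _ fun i _ => hi i,
      Finset.sum_congr rfl fun i _ => hR.lintegral_iterate
        (f := fun η => (Dir.tau l η : ℝ≥0∞))
        ((measurable_of_countable fun n : ℕ => (n : ℝ≥0∞)).comp hR.measurable_tau) i]
    simp [T]
  have hbad : ∀ k < m, (2 : ℝ≥0∞)⁻¹ ≤ Dir.fwdLaw μ l (E k) := fun k hk => by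
    have h1 : Dir.fwdLaw μ l (E k)ᶜ ≤ 2⁻¹ := by
      have h2 := mul_meas_ge_le_lintegral (μ := Dir.fwdLaw μ l)
        ((measurable_of_countable fun n : ℕ => (n : ℝ≥0∞)).comp (measurable_ctime hR k)) (N : ℝ≥0∞)
      rw [show {η | (N : ℝ≥0∞) ≤ ((fun n : ℕ => (n : ℝ≥0∞)) ∘ Dir.ctime l k) η} = (E k)ᶜ by
        ext η; simp [E]] at h2
      have h4 : (2 : ℝ≥0∞) * ((k : ℝ≥0∞) * T) ≤ N := by
        refine le_trans (le_of_eq (by ring : (2 : ℝ≥0∞) * (k * T) = k * (2 * T))) ?_
        refine le_trans (mul_le_mul' le_rfl hB) ?_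
        exact_mod_cast (Nat.mul_le_mul_right B hk.le).trans (Nat.div_mul_le_self N B)
      have h5 : Dir.fwdLaw μ l (E k)ᶜ * ((2 : ℝ≥0∞) * N) ≤ N := by
        calc _ = 2 * ((N : ℝ≥0∞) * Dir.fwdLaw μ l (E k)ᶜ) := by ring
          _ ≤ 2 * ((k : ℝ≥0∞) * T) := mul_le_mul' le_rfl (h2.trans_eq (hT k))
          _ ≤ _ := h4
      have hN0 : (N : ℝ≥0∞) ≠ 0 := by exact_mod_cast (by omega : N ≠ 0)
      rw [ENNReal.le_inv_iff_mul_le]
      refine (ENNReal.mul_le_mul_iff_left hN0 (ENNReal.natCast_ne_top N)).mp ?_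
      rw [one_mul, mul_assoc]
      exact h5
    rw [prob_compl_eq_one_sub (hEm k), tsub_le_iff_right] at h1
    refine ENNReal.le_of_add_le_add_right (by simp : (2 : ℝ≥0∞)⁻¹ ≠ ∞) ?_
    rw [ENNReal.inv_two_add_inv_two]
    exact h1.trans_eq (add_comm _ _)
  have hcount : ∀ᵐ η ∂Dir.fwdLaw μ l, ∑ k ∈ Finset.range m, (E k).indicator (1 : (ℕ → Step d) → ℝ≥0∞) η ≤
      ∑ n ∈ Finset.range N, ∑ p ∈ Finset.range (N + 1), (S n p).indicator 1 η := by
    filter_upwards [hR.blocks] with η hη
    have hb : ∀ k, ∃ t, Dir.RegT l ((Dir.next l)^[k] η) t := fun k => (hη k).2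
    have hfw : η ∈ Dir.Fwd l := (hη 0).1
    let φ : ℕ → ℕ × ℕ := fun k => ((hgt δ η (Dir.ctime l k η)).toNat, Dir.ctime l k η)
    set good := (Finset.range m).filter fun k => η ∈ E k
    calc ∑ k ∈ Finset.range m, (E k).indicator (1 : (ℕ → Step d) → ℝ≥0∞) η
        = ∑ _k ∈ good, (1 : ℝ≥0∞) := by
          rw [Finset.sum_filter]
          exact Finset.sum_congr rfl fun k _ => Set.indicator_apply _ _ _
      _ = ∑ x ∈ good.image φ, (1 : ℝ≥0∞) := by
          rw [Finset.sum_image fun a _ b _ h =>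
            (Dir.ctime_strictMono hb).injective (congrArg Prod.snd h)]
      _ ≤ ∑ x ∈ good.image φ, (S x.1 x.2).indicator (1 : (ℕ → Step d) → ℝ≥0∞) η := by
          refine Finset.sum_le_sum fun x hx => ?_
          obtain ⟨k, -, rfl⟩ := Finset.mem_image.mp hx
          have hmem : η ∈ S (φ k).1 (φ k).2 := by
            have hpos := Planar.fwd_ax δ hfw (Dir.ctime l k η)
            refine ⟨⟨⟨(Int.toNat_of_nonneg hpos).symm, fun s hs => ?_⟩, fun t _ => ?_⟩, ?_⟩
            · have := Dir.lh_lt_ctime hb k hs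
              rw [Planar.lh_ax, Planar.lh_ax, Int.cast_lt] at this
              exact this.trans_eq (Int.toNat_of_nonneg hpos).symm
            · exact Planar.fwd_ax δ hfw t
            · rw [Set.mem_preimage, ← Dir.next_iterate]
              exact (hη k).1
          rw [Set.indicator_of_mem hmem, Pi.one_apply]
      _ ≤ ∑ x ∈ Finset.range N ×ˢ Finset.range (N + 1), (S x.1 x.2).indicator 1 η := by
          refine Finset.sum_le_sum_of_subset fun x hx => ?_
          obtain ⟨k, hk, rfl⟩ := Finset.mem_image.mp hx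
          have h1 : Dir.ctime l k η < N := (Finset.mem_filter.mp hk).2
          have h2 := hgt_le δ η (Dir.ctime l k η)
          simp only [φ, Finset.mem_product, Finset.mem_range]
          omega
      _ = _ := Finset.sum_product (Finset.range N) (Finset.range (N + 1)) _
  have hcast : ∀ A, P * Dir.fwdLaw μ l A ≤ nu μ A := fun A => by
    rw [Dir.RegenPf.fwdLaw_apply, ← mul_assoc,
      ENNReal.mul_inv_cancel hR.pos.ne' (measure_ne_top _ _), one_mul]
    exact measure_mono Set.inter_subset_left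
  calc P / (4 * B : ℕ) * N ≤ P * (m * 2⁻¹) := by
        have h1 : N < (m + 1) * B := by
          rw [hm]; exact Nat.lt_succ_iff.mp (by
            have := Nat.lt_div_mul_add (a := N) (b := B) (by omega)
            rw [add_mul, one_mul]; omega)
        have h2 : 1 ≤ m := Nat.div_pos hN (by omega)
        have h3 : N ≤ 2 * B * m := by nlinarith
        rw [div_eq_mul_inv, mul_assoc]
        refine mul_le_mul' le_rfl ?_
        rw [mul_comm, ← div_eq_mul_inv, ENNReal.div_le_iff_le_mul (Or.inl (by simp [B]))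
          (Or.inl (ENNReal.natCast_ne_top _))]
        rw [show ((m : ℝ≥0∞) * 2⁻¹) * ((4 * B : ℕ) : ℝ≥0∞) = ((2 * B * m : ℕ) : ℝ≥0∞) by
          rw [show 4 * B = 2 * (2 * B) by ring]
          push_cast
          rw [mul_assoc (m : ℝ≥0∞), ← mul_assoc (2⁻¹ : ℝ≥0∞),
            ENNReal.inv_mul_cancel (by simp) (by simp)]
          ring]
        exact_mod_cast h3
    _ ≤ P * ∑ k ∈ Finset.range m, Dir.fwdLaw μ l (E k) := by
        refine mul_le_mul' le_rfl (le_trans (le_of_eq ?_)
          (Finset.sum_le_sum fun k hk => hbad k (Finset.mem_range.mp hk)))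
        simp
    _ ≤ P * ∑ n ∈ Finset.range N, ∑ p ∈ Finset.range (N + 1), Dir.fwdLaw μ l (S n p) := by
        refine mul_le_mul' le_rfl ?_
        have h1 : ∫⁻ η, ∑ k ∈ Finset.range m, (E k).indicator 1 η ∂Dir.fwdLaw μ l ≤
            ∫⁻ η, ∑ n ∈ Finset.range N, ∑ p ∈ Finset.range (N + 1), (S n p).indicator 1 η
              ∂Dir.fwdLaw μ l := lintegral_mono_ae hcount
        rw [lintegral_finsetSum _ fun k _ => measurable_one.indicator (hEm k),
          lintegral_finsetSum _ fun n _ => Finset.measurable_fun_sum _ fun p _ =>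
            measurable_one.indicator (hSm n p)] at h1
        simp only [lintegral_indicator_one (hEm _)] at h1
        refine h1.trans_eq (Finset.sum_congr rfl fun n _ => ?_)
        rw [lintegral_finsetSum _ fun p _ => measurable_one.indicator (hSm n p)]
        exact Finset.sum_congr rfl fun p _ => lintegral_indicator_one (hSm n p)
    _ ≤ _ := by
        simp only [Finset.mul_sum]
        refine Finset.sum_le_sum fun n _ => le_trans ?_ (flux_mean hμ hM N n)
        exact Finset.sum_le_sum fun p _ => hcast _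

end Vale.Agent.P147.Flux
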