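import Vale.Agent.P147.Flux.Main
import Vale.Agent.P147.Flux.Osc
import Vale.Agent.P147.Flux.Ergodic
import Vale.Agent.P147.Flux.Renewal
import Vale.Agent.P147.Flux.Miss

/-!
P147: in dimension at least four the walk has a deterministic velocity, and when it is not zero
every escape event has probability zero or one.
-/

open MeasureTheory Filter
open scoped ENNReal Topology

noncomputable section

namespace Vale.Agent.P147.Flux

variable {d : ℕ} [NeZero d] {μ : Measure (Step d → ℝ)}

/-- A side with finite mean block time is the only one. -/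
theorem side_one (hμ : Elliptic μ) (hd : 4 ≤ d) {δ : Step d} (hX : Planar.Side μ δ) :
    nu μ (Dir.Escape (Planar.ax δ)) = 1 :=
  escape hμ δ (unbdd_one hμ (markov hμ) (ergodic hμ) (mass hμ hX (markov hμ))
    (moment hμ (markov hμ) (factor hμ δ) (contact hμ) (visit hμ hX) (miss hμ hd hX))) hX.regen.pos

/-- A deterministic velocity, deciding every escape when it is not zero. -/
theorem velocity_law (hμ : Elliptic μ) (hdir : ∀ l, Dir.DirectionStmt μ l)
    (haxis : ∀ δ : Step d, Planar.Side μ δ → nu μ (Dir.Escape (Planar.ax δ)) = 1) :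
    ∃ v : Fin d → ℝ, nu μ (Dir.Vel v) = 1 ∧
      (v ≠ 0 → ∀ l : Fin d → ℝ,
        nu μ (Dir.Escape l) = if 0 < ∑ i, l i * v i then 1 else 0) := by
  classical
  have := isProbabilityMeasure_nu hμ
  obtain ⟨v, hv⟩ : ∃ v : Fin d → ℝ, nu μ (Dir.Vel v) = 1 := by
    by_cases h : ∃ δ, 0 < nu μ (Planar.Fast (Planar.ax δ))
    · obtain ⟨δ, hδ⟩ := h
      obtain ⟨-, v, -, hv⟩ := fast_side hμ hdir haxis hδ
      exact ⟨v, hv⟩
    push Not at h
    refine ⟨0, (mem_ae_iff_prob_eq_one (Dir.measurableSet_vel _)).1 ?_⟩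
    filter_upwards [ae_all_iff.2 fun δ => speed_escape hμ δ, ae_all_iff.2 fun δ =>
      measure_eq_zero_iff_ae_notMem.1 (nonpos_iff_eq_zero.1 (h δ))] with η hs hf
    have hslow : ∀ δ : Step d, ∀ c > (0 : ℝ), ∀ᶠ n : ℕ in atTop, (hgt δ η n : ℝ) < c * n := by
      intro δ c hc
      by_cases he : η ∈ Dir.Escape (Planar.ax δ)
      · by_contra hn
        refine hf δ ⟨he, c, hc, (not_eventually.1 hn).mono fun n hn => ?_⟩
        rw [Planar.lh_ax]
        exact not_lt.1 hn
      · exact hs δ he c hc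
    intro i
    refine Metric.tendsto_nhds.2 fun ε hε => ?_
    filter_upwards [hslow (i, true) (ε / 2) (half_pos hε), hslow (i, false) (ε / 2) (half_pos hε),
      eventually_gt_atTop 0] with n h1 h2 hn
    have hn' : (0 : ℝ) < n := by exact_mod_cast hn
    simp only [hgt, ht, if_true, Bool.false_eq_true, if_false, Int.cast_neg] at h1 h2
    rw [Pi.zero_apply, Real.dist_0_eq_abs, abs_lt, div_lt_iff₀ hn', lt_div_iff₀ hn']
    constructor <;> nlinarith
  refine ⟨v, hv, fun hv0 l => ?_⟩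
  have hae : ∀ᵐ η ∂nu μ, η ∈ Dir.Vel v := (mem_ae_iff_prob_eq_one (Dir.measurableSet_vel _)).2 hv
  split_ifs with hl
  · exact le_antisymm prob_le_one (hv ▸ measure_mono fun η hη => Dir.vel_escape hη hl)
  by_contra hne
  have hpos : 0 < nu μ (Dir.Escape l) := pos_iff_ne_zero.2 hne
  obtain ⟨u, hu⟩ := hdir l hμ (Dir.ne_zero_of_escape hpos) hpos
  obtain ⟨η, he, hvel, hray⟩ : ∃ η, η ∈ Dir.Escape l ∧ η ∈ Dir.Vel v ∧
      (η ∈ Dir.Escape l → ∀ i, Tendsto (fun n => (pos η n i : ℝ) / Dir.lh l η n) atTop (𝓝 (u i))) := by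
    by_contra! hc
    refine hne (measure_eq_zero_iff_ae_notMem.2 ?_)
    filter_upwards [hae, hu.2] with η h1 h2 he
    obtain ⟨-, i, hi⟩ := hc η he h1
    exact hi (h2 he i)
  have hlim := Dir.vel_lh (l := l) hvel
  have hs : ∑ i, l i * v i = 0 := by
    refine le_antisymm (not_lt.1 hl) (ge_of_tendsto hlim ?_)
    filter_upwards [he.eventually_ge_atTop 0] with n hn
    positivity
  refine hv0 (funext fun i => tendsto_nhds_unique (hvel i) ?_)
  have := hlim.mul (hray he i)
  rw [hs, zero_mul] at this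
  refine this.congr' ?_
  filter_upwards [he.eventually_gt_atTop 0] with n hn
  field_simp

/-- The named form. -/
theorem velocity_law_named (hμ : Elliptic μ) (hdir : ∀ l, Dir.DirectionStmt μ l)
    (haxis : ∀ δ : Step d, Planar.Side μ δ → nu μ (Dir.Escape (Planar.ax δ)) = 1) :
    ∃ v : Fin d → ℝ, annealed μ (Dir.Speed v) = 1 ∧
      (v ≠ 0 → ∀ l : Fin d → ℝ,
        annealed μ (Dir.AE l) = if 0 < ∑ i, l i * v i then 1 else 0) := by
  obtain ⟨v, hv, hl⟩ := velocity_law hμ hdir haxis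
  refine ⟨v, ?_, fun h l => (Dir.annealed_ae l).trans (hl h l)⟩
  rw [← hv, nu, Measure.map_apply measurable_stepsOf (Dir.measurableSet_vel v)]
  congr 1
  ext q
  simp [Dir.Vel, Dir.Speed, pos_stepsOf]

end Vale.Agent.P147.Flux
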