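import Vale.Agent.P147.Flux.Moment
import Vale.Agent.P147.Dir.Velocity
import Vale.Agent.P147.Dir.Bridge
import Vale.Agent.P147.Dir.WalkFast

/-!
P147: in dimension at least four an escape with positive upper speed is certain and has a
deterministic velocity.
-/

open MeasureTheory Filter
open scoped ENNReal Topology

noncomputable section

namespace Vale.Agent.P147.Flux

variable {d : ℕ}

lemma measurableSet_unbdd (δ : Step d) : MeasurableSet (Unbdd δ) := by
  have : Unbdd δ = ⋂ j : ℕ, ⋃ n, (fun η => hgt δ η n) ⁻¹' Set.Ici (j : ℤ) := by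
    ext η; simp [Unbdd]
  rw [this]
  exact MeasurableSet.iInter fun j => MeasurableSet.iUnion fun n =>
    measurable_hgt δ n MeasurableSet.of_discrete

lemma unbdd_of_shift {δ : Step d} {η : ℕ → Step d} {t : ℕ} (h : shift t η ∈ Unbdd δ) :
    η ∈ Unbdd δ := fun j => by
  obtain ⟨n, hn⟩ := h (j + (hgt δ η t).natAbs)
  refine ⟨t + n, ?_⟩
  rw [hgt_add]
  rw [Nat.cast_add] at hn
  omega

variable [NeZero d] {μ : Measure (Step d → ℝ)} {δ : Step d}

/-- Reaching level `n` without being unbounded becomes unlikely. -/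
lemma reach_null (hμ : Elliptic μ) (δ : Step d) :
    Tendsto (fun n : ℕ => nu μ ((⋃ p, Hit δ (n : ℤ) p) \ Unbdd δ)) atTop (𝓝 0) := by
  have := isProbabilityMeasure_nu hμ
  set R : ℕ → Set (ℕ → Step d) := fun n => (⋃ p, Hit δ (n : ℤ) p) \ Unbdd δ with hR
  have hanti : Antitone R := fun a b hab η hη => by
    obtain ⟨p, hp⟩ := Set.mem_iUnion.1 hη.1
    obtain ⟨q, -, hq⟩ := exists_hit δ (j := a) (n := p) (η := η) (by
      rw [hp.1]; exact_mod_cast hab)
    exact ⟨Set.mem_iUnion.2 ⟨q, hq⟩, hη.2⟩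
  have hmeas : ∀ n, NullMeasurableSet (R n) (nu μ) := fun n =>
    ((MeasurableSet.iUnion fun p => (detBy_hit δ _ le_rfl).measurableSet).diff
      (measurableSet_unbdd δ)).nullMeasurableSet
  have h0 : ⋂ n, R n = ∅ := Set.eq_empty_of_forall_notMem fun η hη => by
    refine (Set.mem_iInter.1 hη 0).2 fun j => ?_
    obtain ⟨p, hp⟩ := Set.mem_iUnion.1 (Set.mem_iInter.1 hη j).1
    exact ⟨p, hp.1.ge⟩
  simpa [h0, Function.comp_def] using
    tendsto_measure_iInter_atTop hmeas hanti ⟨0, measure_ne_top _ _⟩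

/-- The flux avoids the environments from which the walk may stay bounded. -/
lemma flux_bad_le (hμ : Elliptic μ) (hM : MarkovStmt μ) (L n : ℕ) :
    ∫⁻ ω, flux δ L n ω * qlaw ω (Unbdd δ)ᶜ ∂envLaw μ ≤
      nu μ ((⋃ p, Hit δ (n : ℤ) p) \ Unbdd δ) := by
  classical
  have hU := (measurableSet_unbdd δ).compl
  set E : Pref d → Set (ℕ → Step d) := fun i => cyl i.1 (path i) ∩ shift i.1 ⁻¹' (Unbdd δ)ᶜ
  have hE : ∀ i, MeasurableSet (E i) := fun i =>
    (measurableSet_cyl _ _).inter (measurable_shift _ hU)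
  have hterm : ∀ i, ∫⁻ ω, W i.1 (path i) (sh (-endp i) ω) * qlaw ω (Unbdd δ)ᶜ ∂envLaw μ =
      nu μ (E i) := fun i => by
    rw [nu_eq_lintegral (hE i), ← (mp_sh hμ (endp i)).lintegral_comp
      (f := fun ω => W i.1 (path i) (sh (-endp i) ω) * qlaw ω (Unbdd δ)ᶜ)
      (((measurable_W _ _).comp (measurable_sh _)).mul (measurable_qlaw hU))]
    refine lintegral_congr_ae ?_
    filter_upwards [hM] with ω hω
    simp only [E, hω _ _ _ hU, sh_sh, neg_add_cancel, sh_zero]
    rfl
  have hclimb : ∀ i ∈ prefs δ L n, ∀ η ∈ E i, η ∈ Climb δ n i.1 := fun i hi η hη =>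
    (climb_congr fun t ht => (hη.1 t ht).symm).1 (mem_prefs.1 hi).2
  calc ∫⁻ ω, flux δ L n ω * qlaw ω (Unbdd δ)ᶜ ∂envLaw μ
      ≤ ∫⁻ ω, ∑ i ∈ prefs δ L n,
          W i.1 (path i) (sh (-endp i) ω) * qlaw ω (Unbdd δ)ᶜ ∂envLaw μ := by
        refine lintegral_mono fun ω => ?_
        rw [flux_eq, ← Finset.sum_mul]
        exact mul_le_mul' (mul_le_of_le_one_right bot_le prob_le_one) le_rfl
    _ = ∑ i ∈ prefs δ L n, nu μ (E i) := by
        rw [lintegral_finsetSum (f := fun (i : Pref d) ω =>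
            W i.1 (path i) (sh (-endp i) ω) * qlaw ω (Unbdd δ)ᶜ) _ fun i _ =>
          ((measurable_W _ _).comp (measurable_sh _)).mul (measurable_qlaw hU)]
        exact Finset.sum_congr rfl fun i _ => hterm i
    _ ≤ _ := by
        rw [← measure_biUnion_finset ?_ fun i _ => hE i]
        · refine measure_mono (Set.iUnion₂_subset fun i hi η hη =>
            ⟨Set.mem_iUnion.2 ⟨i.1, (hclimb i hi η hη).1⟩, fun hu => hη.2 fun j => ?_⟩)
          obtain ⟨m, hm⟩ := hu ((hgt δ η i.1).natAbs + j +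
            ∑ s ∈ Finset.range (i.1 + 1), (hgt δ η s).natAbs + 1)
          rcases le_or_gt i.1 m with hle | hlt
          · obtain ⟨u, rfl⟩ := Nat.exists_eq_add_of_le hle
            rw [hgt_add] at hm
            refine ⟨u, ?_⟩
            simp only [Nat.cast_add, Nat.cast_one] at hm
            omega
          · exfalso
            have h1 : (hgt δ η m).natAbs ≤ ∑ s ∈ Finset.range (i.1 + 1), (hgt δ η s).natAbs :=
              Finset.single_le_sum (f := fun s => (hgt δ η s).natAbs) (fun s _ => Nat.zero_le _)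
                (Finset.mem_range.2 (by omega))
            simp only [Nat.cast_add, Nat.cast_one] at hm
            omega
        · intro a ha b hb hne
          refine Set.disjoint_left.mpr fun η h h' => hne ?_
          obtain ⟨p, σ⟩ := a
          obtain ⟨q, τ⟩ := b
          obtain rfl : p = q := hit_unique (hclimb _ ha η h).1 (hclimb _ hb η h').1
          refine congrArg _ (funext fun t => ?_)
          have h1 := h.1 t t.isLt
          have h2 := h'.1 t t.isLt
          simp only [path, ext'_lt _ t.isLt] at h1 h2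
          exact h1.symm.trans h2

/-- Positive mass with bounded second moment forces environments without bounded walks. -/
lemma good_env_pos (hμ : Elliptic μ) (hM : MarkovStmt μ) (hmass : MassStmt μ δ)
    (hmom : MomentStmt μ δ) : envLaw μ {ω | qlaw ω (Unbdd δ)ᶜ = 0} ≠ 0 := by
  intro hA
  have := isProbability_envLaw hμ
  obtain ⟨K, c₀, hc₀, hmass⟩ := hmass
  obtain ⟨C, hCt, hmom⟩ := hmom
  set c := min c₀ 1
  have hc : c ≠ 0 := (lt_min (pos_iff_ne_zero.2 hc₀) one_pos).ne'
  have hct : c ≠ ∞ := ne_top_of_le_ne_top ENNReal.one_ne_top (min_le_right _ _)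
  set bad : Env d → ℝ≥0∞ := fun ω => qlaw ω (Unbdd δ)ᶜ
  have hbad : Measurable bad := measurable_qlaw (measurableSet_unbdd δ).compl
  set B : ℕ → Set (Env d) := fun k => bad ⁻¹' Set.Iio ((k : ℝ≥0∞)⁻¹)
  have hBm : ∀ k, MeasurableSet (B k) := fun k => hbad measurableSet_Iio
  have hB : Tendsto (fun k => envLaw μ (B k)) atTop (𝓝 0) := by
    have hanti : Antitone B := fun a b hab ω hω =>
      lt_of_lt_of_le (Set.mem_Iio.1 hω) (ENNReal.inv_le_inv.2 (by exact_mod_cast hab))
    have h0 : ⋂ k, B k = {ω | bad ω = 0} := by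
      ext ω
      simp only [Set.mem_iInter, B, Set.mem_preimage, Set.mem_Iio, Set.mem_ofPred_eq]
      refine ⟨fun h => nonpos_iff_eq_zero.1 (ge_of_tendsto ENNReal.tendsto_inv_nat_nhds_zero
        (Eventually.of_forall fun k => (h k).le)), fun h k => ?_⟩
      rw [h]; exact ENNReal.inv_pos.2 (ENNReal.natCast_ne_top k)
    have h1 := tendsto_measure_iInter_atTop (μ := envLaw μ)
      (fun k => (hBm k).nullMeasurableSet) hanti ⟨0, measure_ne_top _ _⟩
    rw [h0, show envLaw μ {ω | bad ω = 0} = 0 from hA] at h1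
    simpa [Function.comp_def] using h1
  set c4 := c / 4
  have hc4 : c4 ≠ 0 := by simp [c4, ENNReal.div_eq_zero_iff, hc]
  have hc4t : c4 ≠ ∞ := ENNReal.div_ne_top hct (by norm_num)
  set a := c4 / (C * (K + 1) + 1)
  have ha : a ≠ 0 := by
    simp [a, ENNReal.div_eq_zero_iff, hc4, ENNReal.add_eq_top, ENNReal.mul_eq_top, hCt]
  have hat : a ≠ ∞ := ENNReal.div_ne_top hc4t (by simp)
  obtain ⟨k, hk, hk0⟩ := (((ENNReal.tendsto_nhds_zero.1 hB) (c4 * a)
    (pos_iff_ne_zero.2 (mul_ne_zero hc4 ha))).and (eventually_gt_atTop 0)).exists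
  set η := ((k : ℝ≥0∞))⁻¹
  have hη0 : η ≠ 0 := ENNReal.inv_ne_zero.2 (ENNReal.natCast_ne_top k)
  have hηt : η ≠ ∞ := ENNReal.inv_ne_top.2 (by exact_mod_cast hk0.ne')
  set ε : ℕ → ℝ≥0∞ := fun n => nu μ ((⋃ p, Hit δ (n : ℤ) p) \ Unbdd δ)
  have hε : ∀ᶠ N : ℕ in atTop, ∑ n ∈ Finset.range N, ε n ≤ η * c4 * N := by
    set e := η * c4 / 2
    have he : e ≠ 0 := by simp [e, ENNReal.div_eq_zero_iff, hη0, hc4]
    obtain ⟨n₀, hn₀⟩ := eventually_atTop.1 ((ENNReal.tendsto_nhds_zero.1 (reach_null hμ δ)) e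
      (pos_iff_ne_zero.2 he))
    have := isProbabilityMeasure_nu hμ
    obtain ⟨M, hM'⟩ := ENNReal.exists_nat_mul_gt he (ENNReal.natCast_ne_top n₀)
    filter_upwards [eventually_ge_atTop M] with N hN
    calc ∑ n ∈ Finset.range N, ε n
        ≤ ∑ n ∈ Finset.range N, ((if n < n₀ then 1 else 0) + e) := by
          refine Finset.sum_le_sum fun n _ => ?_
          rcases lt_or_ge n n₀ with h | h
          · rw [if_pos h]; exact le_add_right prob_le_one
          · rw [if_neg (not_lt.2 h), zero_add]; exact hn₀ n h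
      _ ≤ e * N + e * N := by
          rw [Finset.sum_add_distrib, Finset.sum_const, Finset.card_range, nsmul_eq_mul,
            mul_comm (N : ℝ≥0∞)]
          refine add_le_add ?_ le_rfl
          rw [Finset.sum_boole]
          calc (((Finset.range N).filter (· < n₀)).card : ℝ≥0∞) ≤ n₀ := by
                exact_mod_cast (Finset.card_le_card fun x hx => Finset.mem_range.2
                  (Finset.mem_filter.1 hx).2).trans (le_of_eq (Finset.card_range n₀))
            _ ≤ M * e := hM'.le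
            _ ≤ e * N := by rw [mul_comm]; exact mul_le_mul' le_rfl (by exact_mod_cast hN)
      _ = η * c4 * N := by rw [← add_mul, ENNReal.add_halves]
  obtain ⟨N, ⟨hN, hεN⟩, hN0⟩ := ((hmass.and hε).and (eventually_gt_atTop 0)).exists
  have hpt : ∀ n ω, flux δ (K * N) n ω ≤
      a * flux δ (K * N) n ω ^ 2 + (B k).indicator (fun _ => a⁻¹) ω +
        η⁻¹ * (flux δ (K * N) n ω * bad ω) := by
    intro n ω
    set F := flux δ (K * N) n ω
    by_cases hω : ω ∈ B k
    · rw [Set.indicator_of_mem hω]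
      rcases le_total F a⁻¹ with h | h
      · exact le_add_right (le_add_left h)
      · refine le_add_right (le_add_right ?_)
        have h1 : 1 ≤ a * F := by
          have := mul_le_mul' (le_refl a) h
          rwa [ENNReal.mul_inv_cancel ha hat] at this
        calc F = 1 * F := (one_mul _).symm
          _ ≤ a * F * F := mul_le_mul' h1 le_rfl
          _ = a * F ^ 2 := by ring
    · refine le_add_left ?_
      have h1 : η ≤ bad ω := not_lt.1 hω
      calc F = η⁻¹ * (F * η) := by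
            rw [mul_comm F, ← mul_assoc, ENNReal.inv_mul_cancel hη0 hηt, one_mul]
        _ ≤ _ := mul_le_mul' le_rfl (mul_le_mul' le_rfl h1)
  have hsum : ∫⁻ ω, ∑ n ∈ Finset.range N, flux δ (K * N) n ω ∂envLaw μ ≤ (c4 + c4 + c4) * N := by
    have hm := measurable_flux (d := d) δ (K * N)
    have hmi : Measurable ((B k).indicator fun _ : Env d => a⁻¹) :=
      measurable_const.indicator (hBm k)
    have hmF : Measurable fun ω => a * ∑ n ∈ Finset.range N, flux δ (K * N) n ω ^ 2 :=
      (Finset.measurable_sum _ fun n _ => (hm n).pow_const 2).const_mul a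
    have hmI : Measurable fun ω : Env d => (N : ℝ≥0∞) * (B k).indicator (fun _ => a⁻¹) ω :=
      hmi.const_mul _
    refine le_trans (lintegral_mono (g := fun ω => a * ∑ n ∈ Finset.range N, flux δ (K * N) n ω ^ 2 +
      N * (B k).indicator (fun _ => a⁻¹) ω +
      η⁻¹ * ∑ n ∈ Finset.range N, flux δ (K * N) n ω * bad ω) fun ω => ?_) ?_
    · calc ∑ n ∈ Finset.range N, flux δ (K * N) n ω
          ≤ ∑ n ∈ Finset.range N, (a * flux δ (K * N) n ω ^ 2 + (B k).indicator (fun _ => a⁻¹) ω +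
              η⁻¹ * (flux δ (K * N) n ω * bad ω)) := Finset.sum_le_sum fun n _ => hpt n ω
        _ = _ := by
          simp only [Finset.sum_add_distrib, ← Finset.mul_sum, Finset.sum_const, Finset.card_range,
            nsmul_eq_mul]
    rw [lintegral_add_left (f := fun ω => a * ∑ n ∈ Finset.range N, flux δ (K * N) n ω ^ 2 +
      N * (B k).indicator (fun _ => a⁻¹) ω) (hmF.add hmI), lintegral_add_left hmF,
      lintegral_const_mul _ (Finset.measurable_sum _ fun n _ => (hm n).pow_const 2),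
      lintegral_const_mul _ hmi, lintegral_indicator_const (hBm k),
      lintegral_const_mul _ (Finset.measurable_sum _ fun n _ => (hm n).fun_mul hbad),
      lintegral_finsetSum _ fun n _ => (hm n).fun_mul hbad, add_mul, add_mul]
    refine add_le_add (add_le_add ?_ ?_) ?_
    · calc a * ∫⁻ ω, ∑ n ∈ Finset.range N, flux δ (K * N) n ω ^ 2 ∂envLaw μ
          ≤ a * (C * ((K * N : ℕ) + 1)) := mul_le_mul' le_rfl (hmom _ _)
        _ ≤ a * ((C * (K + 1) + 1) * N) := by
          refine mul_le_mul' le_rfl ?_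
          have : (((K * N : ℕ) : ℝ≥0∞) + 1) ≤ (K + 1) * N := by
            push_cast
            rw [add_mul, one_mul]
            exact add_le_add le_rfl (by exact_mod_cast hN0)
          calc C * (((K * N : ℕ) : ℝ≥0∞) + 1) ≤ C * ((K + 1) * N) := mul_le_mul' le_rfl this
            _ ≤ _ := by rw [← mul_assoc]; exact mul_le_mul' (le_add_right le_rfl) le_rfl
        _ = c4 * N := by
          rw [← mul_assoc, ENNReal.div_mul_cancel (by simp)
            (by simp [ENNReal.add_eq_top, ENNReal.mul_eq_top, hCt])]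
    · rw [mul_comm (N : ℝ≥0∞)]
      refine mul_le_mul' ?_ le_rfl
      calc a⁻¹ * envLaw μ (B k) ≤ a⁻¹ * (c4 * a) := mul_le_mul' le_rfl hk
        _ = c4 := by rw [mul_comm c4, ← mul_assoc, ENNReal.inv_mul_cancel ha hat, one_mul]
    · calc η⁻¹ * ∑ n ∈ Finset.range N, ∫⁻ ω, flux δ (K * N) n ω * bad ω ∂envLaw μ
          ≤ η⁻¹ * (η * c4 * N) :=
            mul_le_mul' le_rfl ((Finset.sum_le_sum fun n _ => flux_bad_le hμ hM _ n).trans hεN)
        _ = c4 * N := by rw [mul_assoc η, ← mul_assoc, ENNReal.inv_mul_cancel hη0 hηt, one_mul]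
  have hlow : c * N ≤ (c4 + c4 + c4) * N :=
    (mul_le_mul' (min_le_left _ _) le_rfl).trans (hN.trans hsum)
  rw [ENNReal.mul_le_mul_iff_left (by exact_mod_cast hN0.ne') (ENNReal.natCast_ne_top N)] at hlow
  have hr := ENNReal.toReal_mono (by simp [ENNReal.add_eq_top, hc4t]) hlow
  rw [ENNReal.toReal_add (by simp [hc4t]) hc4t, ENNReal.toReal_add hc4t hc4t] at hr
  simp only [c4, ENNReal.toReal_div, ENNReal.toReal_ofNat] at hr
  linarith [ENNReal.toReal_pos hc hct]

/-- Almost surely the walk is unbounded from every environment. -/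
lemma unbdd_one (hμ : Elliptic μ) (hM : MarkovStmt μ) (herg : ErgodicStmt μ)
    (hmass : MassStmt μ δ) (hmom : MomentStmt μ δ) : nu μ (Unbdd δ) = 1 := by
  have := isProbability_envLaw hμ
  have := isProbabilityMeasure_nu hμ
  have hU := (measurableSet_unbdd δ).compl
  set A := {ω : Env d | qlaw ω (Unbdd δ)ᶜ = 0}
  have hAm : MeasurableSet A := measurable_qlaw hU (measurableSet_singleton 0)
  have hinv : ∀ e : Step d, envLaw μ (A \ sh (vec e) ⁻¹' A) = 0 := by
    intro e
    refine measure_mono_null (t := {ω | ¬ (qlaw ω (Unbdd δ)ᶜ = 0 →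
      qlaw (sh (vec e) ω) (Unbdd δ)ᶜ = 0)}) (fun ω h hc => h.2 (hc h.1)) (ae_iff.1 ?_)
    filter_upwards [hM, ae_rows hμ] with ω hω hrow h0
    have h1 := hω 1 (fun _ => e) _ hU
    rw [show pos (fun _ : ℕ => e) 1 = vec e by simp [pos],
      measure_mono_null (show cyl 1 (fun _ => e) ∩ shift 1 ⁻¹' (Unbdd δ)ᶜ ⊆ (Unbdd δ)ᶜ from
        fun η hη hu => hη.2 ?_) h0] at h1
    · refine (mul_eq_zero.1 h1.symm).resolve_left ?_
      exact Finset.prod_ne_zero_iff.2 fun t _ => (ENNReal.ofReal_pos.2 ((hrow _).1 _)).ne'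
    · intro j
      obtain ⟨m, hm⟩ := hu (j + 2)
      push_cast at hm
      rcases Nat.eq_zero_or_pos m with rfl | hm0
      · simp [hgt, pos] at hm; omega
      obtain ⟨u, rfl⟩ := Nat.exists_eq_add_of_le (show 1 ≤ m from hm0)
      refine ⟨u, ?_⟩
      rw [hgt_add] at hm
      have := hgt_le δ η 1
      push_cast at this
      omega
  have h1 : ∀ᵐ ω ∂envLaw μ, ω ∈ A :=
    ((herg A hAm hinv).resolve_left (good_env_pos hμ hM hmass hmom) |> fun h =>
      (mem_ae_iff_prob_eq_one hAm).2 h)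
  have h0 : nu μ (Unbdd δ)ᶜ = 0 := by
    rw [nu_eq_lintegral hU]
    exact lintegral_eq_zero_of_ae_eq_zero h1
  exact (prob_compl_eq_zero_iff (measurableSet_unbdd δ)).1 h0

/-- Along an axis with finite mean block times the walk moves at a fixed positive speed. -/
lemma fwd_speed (hX : Planar.Side μ δ) :
    ∃ s : ℝ, 0 < s ∧ ∀ᵐ η ∂Dir.fwdLaw μ (Planar.ax δ),
      Tendsto (fun n : ℕ => Dir.lh (Planar.ax δ) η n / n) atTop (𝓝 s) := by
  have hR := hX.regen
  have := hR.prob
  set l := Planar.ax δ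
  set P := Dir.fwdLaw μ l
  set T : (ℕ → Step d) → ℝ := fun η => (Dir.tau l η : ℝ) with hT
  have hTm : Measurable T := (measurable_of_countable fun n : ℕ => (n : ℝ)).comp hR.measurable_tau
  have hTb : Dir.BlockFun l T := fun η η' _ _ _ _ h _ => by simp only [hT, h]
  have hTi : Integrable T P := by
    refine ⟨hTm.aestronglyMeasurable, ?_⟩
    rw [hasFiniteIntegral_iff_ofReal (Eventually.of_forall fun η => Nat.cast_nonneg _)]
    simpa [hT] using hX.time.lt_top
  have hT1 : (1 : ℝ) ≤ ∫ η, T η ∂P := by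
    calc (1 : ℝ) = ∫ _, (1 : ℝ) ∂P := by simp
      _ ≤ _ := integral_mono_ae (integrable_const _) hTi (by
        filter_upwards [hR.blocks] with η hη
        exact Nat.one_le_cast.mpr (Dir.tau_pos (by simpa using (hη 0).2)))
  have hH1 : (1 : ℝ) ≤ ∫ η, Dir.blkH l η ∂P := by
    calc (1 : ℝ) = ∫ _, (1 : ℝ) ∂P := by simp
      _ ≤ _ := integral_mono_ae (integrable_const _) hR.integrable_blkH (by
        filter_upwards [hR.blocks] with η hη
        exact Dir.one_le_blkH (by simpa using (hη 0).2))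
  refine ⟨(∫ η, Dir.blkH l η ∂P) / ∫ η, T η ∂P, div_pos (by linarith) (by linarith), ?_⟩
  filter_upwards [hR.blocks, hR.slln hTm hTb hTi, hR.slln (Dir.measurable_blkH hR.measurable_tau)
    Dir.blockFun_blkH hR.integrable_blkH] with η hb hs hh
  have hbk : ∀ k, ∃ t, Dir.RegT l ((Dir.next l)^[k] η) t := fun k => (hb k).2
  have hmono := Dir.ctime_strictMono hbk
  have hs' : Tendsto (fun k => (Dir.ctime l k η : ℝ) / k) atTop (𝓝 (∫ η, T η ∂P)) := by
    refine hs.congr fun k => ?_
    simp [hT, Dir.ctime]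
  have hh' : Tendsto (fun k => Dir.lh l η (Dir.ctime l k η) / k) atTop
      (𝓝 (∫ η, Dir.blkH l η ∂P)) := by simpa only [Dir.lh_ctime_eq] using hh
  choose κ hκ1 hκ2 using Dir.exists_block hbk
  have hκ : Tendsto κ atTop atTop := tendsto_atTop.mpr fun K =>
    eventually_atTop.mpr ⟨Dir.ctime l K η, fun t ht => by
      by_contra hc
      have h1 : Dir.ctime l (κ t + 1) η ≤ Dir.ctime l K η := hmono.monotone (by omega : κ t + 1 ≤ K)
      have := hκ2 t
      omega⟩
  have hnum : Tendsto (fun t => Dir.lh l η t / (κ t : ℝ)) atTop (𝓝 (∫ η, Dir.blkH l η ∂P)) := by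
    refine tendsto_of_tendsto_of_tendsto_of_le_of_le (hh'.comp hκ)
      ((Dir.tendsto_succ_div hh').comp hκ) (fun t => div_le_div_of_nonneg_right ?_ (Nat.cast_nonneg _))
      (fun t => div_le_div_of_nonneg_right (Dir.lh_lt_ctime hbk _ (hκ2 t)).le (Nat.cast_nonneg _))
    obtain ⟨u, hu⟩ := Nat.exists_eq_add_of_le (hκ1 t)
    conv_rhs => rw [hu, Dir.lh_add, ← Dir.next_iterate]
    linarith [(hb (κ t)).1.1 u]
  have hden : Tendsto (fun t : ℕ => (t : ℝ) / (κ t : ℝ)) atTop (𝓝 (∫ η, T η ∂P)) := by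
    refine tendsto_of_tendsto_of_tendsto_of_le_of_le (hs'.comp hκ)
      ((Dir.tendsto_succ_div hs').comp hκ) (fun t => div_le_div_of_nonneg_right
        (Nat.cast_le.2 (hκ1 t)) (Nat.cast_nonneg _))
      (fun t => div_le_div_of_nonneg_right (Nat.cast_le.2 (hκ2 t).le) (Nat.cast_nonneg _))
  refine (hnum.div hden (by linarith)).congr' ?_
  filter_upwards [hκ.eventually (eventually_ge_atTop 1)] with t ht
  exact div_div_div_cancel_right₀ (by exact_mod_cast (by omega : κ t ≠ 0)) _ _

/-- One side with positive upper speed is the only one, at a deterministic velocity. -/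
theorem fast_side (hμ : Elliptic μ) (hdir : ∀ l, Dir.DirectionStmt μ l)
    (haxis : ∀ δ : Step d, Planar.Side μ δ → nu μ (Dir.Escape (Planar.ax δ)) = 1)
    {l : Fin d → ℝ} (h : 0 < nu μ (Planar.Fast l)) :
    nu μ (Dir.Escape l) = 1 ∧ ∃ v : Fin d → ℝ, 0 < ∑ i, l i * v i ∧ nu μ (Dir.Vel v) = 1 := by
  have := isProbabilityMeasure_nu hμ
  have hl : 0 < nu μ (Dir.Escape l) := h.trans_le (measure_mono fun η hη => hη.1)
  obtain ⟨v, hv⟩ := hdir l hμ (Dir.ne_zero_of_escape hl) hl
  obtain ⟨i, hi⟩ : ∃ i, v i ≠ 0 := by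
    by_contra hc
    push Not at hc
    simpa [hc] using hv.1
  set δ : Step d := (i, decide (0 < v i)) with hδ
  have hpos : 0 < ∑ j, Planar.ax δ j * v j := by
    rw [Finset.sum_eq_single i (fun j _ hj => by simp [Planar.ax, hδ, hj]) (by simp)]
    rcases lt_or_gt_of_ne hi with h0 | h0
    · simp [Planar.ax, hδ, not_lt.mpr h0.le, h0]
    · simp [Planar.ax, hδ, h0]
  have f1 : 0 < nu μ (Planar.Fast (Planar.ax δ)) := h.trans_le <| measure_mono_ae <| by
    filter_upwards [hv.2] with η hη hf using Planar.fast_transfer hf (hη hf.1) hpos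
  have hX := Planar.side_of_fast hμ f1
  have hone := haxis δ hX
  obtain ⟨u, hu⟩ := hdir _ hμ (Dir.ne_zero_of_escape (hone ▸ one_pos)) (hone ▸ one_pos)
  have hlu : 0 < ∑ j, l j * u j := by
    have h1 : (∑ j, l j * u j) * (∑ j, Planar.ax δ j * v j) = 1 := by
      rw [Finset.sum_mul, ← hv.1]
      exact Finset.sum_congr rfl fun j _ => by rw [mul_assoc, Dir.dir_eq hl hv hu hpos j]
    exact (pos_iff_pos_of_mul_pos (h1 ▸ one_pos)).2 hpos
  refine ⟨le_antisymm prob_le_one (hone ▸ Dir.escape_le hu hlu), ?_⟩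
  obtain ⟨s, hs, hspeed⟩ := fwd_speed hX
  refine ⟨fun j => s * u j, ?_, ?_⟩
  · simp only [mul_left_comm (l _) s, ← Finset.mul_sum]; positivity
  set G := {η : ℕ → Step d | Tendsto (fun n : ℕ => Dir.lh (Planar.ax δ) η n / n) atTop (𝓝 s)}
  have hG : MeasurableSet G :=
    measurableSet_tendsto _ fun n => (Dir.measurable_lh n).div_const _
  have h0 : nu μ (Dir.Fwd (Planar.ax δ) \ G) = 0 := by
    have h1 := ae_iff.mp hspeed
    rw [Dir.RegenPf.fwdLaw_apply, mul_eq_zero, ENNReal.inv_eq_zero] at h1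
    refine measure_mono_null ?_ (h1.resolve_left (measure_ne_top _ _))
    exact fun η hη => ⟨hη.2, hη.1⟩
  have hesc : ∀ᵐ η ∂nu μ, η ∈ Dir.Escape (Planar.ax δ) :=
    (mem_ae_iff_prob_eq_one Dir.measurableSet_escape).2 hone
  refine (mem_ae_iff_prob_eq_one (Dir.measurableSet_vel _)).1 ?_
  filter_upwards [hesc, hu.2, ae_all_iff.2 fun n => measure_eq_zero_iff_ae_notMem.1
    (Dir.null_shift hμ (Dir.measurableSet_fwd.diff hG) h0 n)] with η he hdu hn
  obtain ⟨n, hfn⟩ := Dir.exists_fwd he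
  have hsh : shift n η ∈ G := by
    by_contra hc
    exact hn n ⟨hfn, hc⟩
  have hlim : Tendsto (fun t : ℕ => Dir.lh (Planar.ax δ) η t / t) atTop (𝓝 s) := by
    refine (tendsto_add_atTop_iff_nat n).1 ?_
    have h1 : Tendsto (fun t : ℕ => (Dir.lh (Planar.ax δ) η n +
        Dir.lh (Planar.ax δ) (shift n η) t) / t) atTop (𝓝 s) := by
      have := ((tendsto_const_div_atTop_nhds_zero_nat (Dir.lh (Planar.ax δ) η n)).add hsh)
      simpa [add_div] using this
    have h2 : Tendsto (fun t : ℕ => (t : ℝ) / ((t + n : ℕ) : ℝ)) atTop (𝓝 1) := by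
      simpa using tendsto_natCast_div_add_atTop (n : ℝ)
    have h3 := h1.mul h2
    rw [mul_one] at h3
    refine h3.congr' ?_
    filter_upwards [eventually_gt_atTop 0] with t ht
    have : (0 : ℝ) < t := by exact_mod_cast ht
    rw [show Dir.lh (Planar.ax δ) η (t + n) = Dir.lh (Planar.ax δ) η n +
      Dir.lh (Planar.ax δ) (shift n η) t by rw [add_comm t n, Dir.lh_add]]
    field_simp
  intro j
  have := (hdu he j).mul hlim
  rw [mul_comm (u j)] at this
  refine this.congr' ?_
  filter_upwards [he.eventually_gt_atTop 0] with t ht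
  field_simp

/-- The named form. -/
theorem fast_side_named (hμ : Elliptic μ) (hdir : ∀ l, Dir.DirectionStmt μ l)
    (haxis : ∀ δ : Step d, Planar.Side μ δ → nu μ (Dir.Escape (Planar.ax δ)) = 1)
    (l : Fin d → ℝ) (h : 0 < annealed μ (Dir.FastAE l)) :
    annealed μ (Dir.AE l) = 1 ∧
      ∃ v : Fin d → ℝ, 0 < ∑ i, l i * v i ∧ annealed μ (Dir.Speed v) = 1 := by
  have h1 : 0 < nu μ (Planar.Fast l) := h.trans_le <| by
    refine le_trans (measure_mono fun q hq => ?_)
      (Measure.le_map_apply measurable_stepsOf.aemeasurable (Planar.Fast l))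
    obtain ⟨h1, h2⟩ := hq
    rw [Dir.ae_eq_preimage] at h1
    exact ⟨h1, by simpa only [Dir.proj_eq, Set.mem_ofPred_eq] using h2⟩
  obtain ⟨he, v, hv, hs⟩ := fast_side hμ hdir haxis h1
  refine ⟨by rw [Dir.annealed_ae]; exact he, v, hv, ?_⟩
  rw [← hs, nu, Measure.map_apply measurable_stepsOf (Dir.measurableSet_vel v)]
  congr 1
  ext q
  simp [Dir.Vel, Dir.Speed, pos_stepsOf]

end Vale.Agent.P147.Flux
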