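import Vale.Agent.P147.Flux.Api

/-!
P147: coincident regenerations of two walkers are geometric and first contacts are free, so the
flux has bounded second moment in mean.
-/

open MeasureTheory Filter
open scoped ENNReal Topology

noncomputable section

namespace Vale.Agent.P147.Flux

variable {d : ℕ}

lemma ht_nonneg_iff {δ : Step d} {η : ℕ → Step d} :
    (∀ t, 0 ≤ Dir.lh (Planar.ax δ) η t) ↔ η ∈ NoBack δ := by
  simp only [mem_noBack, Dir.lh, Planar.lht_ax, hgt, Int.cast_nonneg_iff]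

lemma fwd_subset_noBack (δ : Step d) : Dir.Fwd (Planar.ax δ) ⊆ NoBack δ :=
  fun _ h => ht_nonneg_iff.1 h.1

/-- A prefix climbing to a level followed by a forward future is forward. -/
lemma fwd_of_climb {δ : Step d} {n p : ℕ} {η : ℕ → Step d} (h : η ∈ Climb δ n p)
    (hf : shift p η ∈ Dir.Fwd (Planar.ax δ)) : η ∈ Dir.Fwd (Planar.ax δ) := by
  refine ⟨ht_nonneg_iff.2 (mem_noBack.2 fun t => ?_), (Dir.RegenPf.escape_shift p).1 hf.2⟩
  rcases le_or_gt t p with ht' | ht'
  · exact h.2 t ht'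
  · obtain ⟨v, rfl⟩ := Nat.exists_eq_add_of_le ht'.le
    have := mem_noBack.1 (fwd_subset_noBack δ hf) v
    rw [hgt_add, h.1.1]
    omega

lemma coin_subset (δ : Step d) (Δ : Pos d) (L n : ℕ) :
    Coin δ Δ L n ⊆ Dir.Fwd (Planar.ax δ) ×ˢ Dir.Fwd (Planar.ax δ) := by
  rintro x ⟨p, -, p', -, h1, h2, -, h4, h5⟩
  exact ⟨fwd_of_climb h1 h4, fwd_of_climb h2 h5⟩

lemma climb_congr {δ : Step d} {n p : ℕ} {η η' : ℕ → Step d} (h : ∀ t < p, η t = η' t) :
    η ∈ Climb δ n p ↔ η' ∈ Climb δ n p :=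
  ⟨((detBy_hit δ _ le_rfl).inter (detBy_stayH _ p)) η η' h,
    ((detBy_hit δ _ le_rfl).inter (detBy_stayH _ p)) η' η fun t ht => (h t ht).symm⟩

lemma hit_mono {δ : Step d} {η : ℕ → Step d} {i m : ℕ} {q p : ℕ} (hi : i < m)
    (hq : η ∈ Hit δ (i : ℤ) q) (hp : η ∈ Hit δ (m : ℤ) p) : q < p := by
  rcases lt_trichotomy q p with h | h | h
  · exact h
  · subst h; have := hq.1; have := hp.1; omega
  · have := hq.2 p h; have := hp.1; omega

/-- A regeneration below a later one only depends on the prefix up to the later one. -/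
lemma regen_congr {δ : Step d} {η η' : ℕ → Step d} {i m q p : ℕ} (hi : i < m)
    (hq : η ∈ Climb δ i q) (hqf : shift q η ∈ Dir.Fwd (Planar.ax δ))
    (hp : η ∈ Climb δ m p) (he : ∀ t < p, η t = η' t)
    (hf' : shift p η' ∈ Dir.Fwd (Planar.ax δ)) :
    q < p ∧ η' ∈ Climb δ i q ∧ shift q η' ∈ Dir.Fwd (Planar.ax δ) := by
  have hqp := hit_mono hi hq.1 hp.1
  have hq' : η' ∈ Climb δ i q := (climb_congr fun t ht => he t (by omega)).1 hq
  have hp' : η' ∈ Climb δ m p := (climb_congr he).1 hp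
  refine ⟨hqp, hq', ht_nonneg_iff.2 (mem_noBack.2 fun v => ?_),
    (Dir.RegenPf.escape_shift q).2 ((Dir.RegenPf.escape_shift p).1 hf'.2)⟩
  have h0 := hgt_add δ η' q v
  rw [hq'.1.1] at h0
  rcases le_or_gt (q + v) p with hv | hv
  · have h1 := hgt_add δ η q v
    rw [hq.1.1, hgt_congr δ fun s hs => he s (by omega : s < p)] at h1
    have := mem_noBack.1 (fwd_subset_noBack δ hqf) v
    omega
  · obtain ⟨u, hu⟩ := Nat.exists_eq_add_of_le hv.le
    have h1 := hgt_add δ η' p u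
    rw [← hu, hp'.1.1] at h1
    have := mem_noBack.1 (fwd_subset_noBack δ hf') u
    omega

/-- A finite pair of climbing prefixes. -/
abbrev Pref (d : ℕ) := Σ p : ℕ, Fin p → Step d

variable [NeZero d]

/-- The prefix as a path. -/
def path (i : Pref d) : ℕ → Step d := ext' i.2

/-- The endpoint of a prefix. -/
def endp (i : Pref d) : Pos d := pos (path i) i.1

open Classical in
/-- The climbing prefixes of at most `L` steps. -/
def prefs (δ : Step d) (L n : ℕ) : Finset (Pref d) :=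
  (Finset.range (L + 1)).sigma fun p =>
    Finset.univ.filter fun σ : Fin p → Step d => ext' σ ∈ Climb δ n p

/-- The paths following a prefix and then going forward. -/
def cone (δ : Step d) (i : Pref d) : Set (ℕ → Step d) :=
  cyl i.1 (path i) ∩ shift i.1 ⁻¹' Dir.Fwd (Planar.ax δ)

/-- The two cones. -/
def cell (δ : Step d) (i : Pref d × Pref d) : Set ((ℕ → Step d) × (ℕ → Step d)) :=
  cone δ i.1 ×ˢ cone δ i.2

lemma measurableSet_cone (δ : Step d) (i : Pref d) : MeasurableSet (cone δ i) :=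
  (measurableSet_cyl _ _).inter (measurable_shift _ Dir.measurableSet_fwd)

lemma cell_eq (δ : Step d) (i : Pref d × Pref d) : cell δ i =
    cyl i.1.1 (path i.1) ×ˢ cyl i.2.1 (path i.2) ∩
      (fun x => (shift i.1.1 x.1, shift i.2.1 x.2)) ⁻¹'
        (Dir.Fwd (Planar.ax δ) ×ˢ Dir.Fwd (Planar.ax δ)) := by
  ext x
  simp only [cell, cone, Set.mem_prod, Set.mem_inter_iff, Set.mem_preimage]
  tauto

lemma mem_prefs {δ : Step d} {L n : ℕ} {i : Pref d} :
    i ∈ prefs δ L n ↔ i.1 ≤ L ∧ path i ∈ Climb δ n i.1 := by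
  simp [prefs, path]

lemma cone_climb {δ : Step d} {L n : ℕ} {i : Pref d} (hi : i ∈ prefs δ L n) {η : ℕ → Step d}
    (h : η ∈ cone δ i) : η ∈ Climb δ n i.1 :=
  (climb_congr fun t ht => (h.1 t ht).symm).1 (mem_prefs.1 hi).2

lemma cone_unique {δ : Step d} {L n : ℕ} {i j : Pref d} (hi : i ∈ prefs δ L n)
    (hj : j ∈ prefs δ L n) {η : ℕ → Step d} (h : η ∈ cone δ i) (h' : η ∈ cone δ j) : i = j := by
  obtain ⟨p, σ⟩ := i
  obtain ⟨q, τ⟩ := j
  obtain rfl : p = q := hit_unique (cone_climb hi h).1 (cone_climb hj h').1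
  refine congrArg _ (funext fun t => ?_)
  have h1 := h.1 t t.isLt
  have h2 := h'.1 t t.isLt
  simp only [path, ext'_lt _ t.isLt] at h1 h2
  exact h1.symm.trans h2

lemma exists_pref {δ : Step d} {L n p : ℕ} {η : ℕ → Step d} (hp : p ≤ L) (h : η ∈ Climb δ n p)
    (hf : shift p η ∈ Dir.Fwd (Planar.ax δ)) :
    ∃ i ∈ prefs δ L n, i.1 = p ∧ endp i = pos η p ∧ η ∈ cone δ i := by
  refine ⟨⟨p, fun t => η t⟩, mem_prefs.2 ⟨hp, ?_⟩, rfl, ?_, fun t ht => ?_, hf⟩
  · exact (climb_congr fun t ht => by simp [path, ext'_lt _ ht]).1 h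
  · exact pos_congr fun t ht => by simp [path, ext'_lt _ ht]
  · simp [path, ext'_lt _ ht]

lemma cone_endp {δ : Step d} {i : Pref d} {η : ℕ → Step d} (h : η ∈ cone δ i) :
    pos η i.1 = endp i := pos_congr fun t ht => h.1 t ht

lemma pair_disjoint (δ : Step d) (L n : ℕ) :
    ((prefs δ L n ×ˢ prefs δ L n : Finset (Pref d × Pref d)) :
      Set (Pref d × Pref d)).PairwiseDisjoint (cell δ) := by
  intro a ha b hb hne
  simp only [Finset.coe_product, Set.mem_prod, Finset.mem_coe] at ha hb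
  exact Set.disjoint_left.mpr fun x hx hx' => hne (Prod.ext (cone_unique ha.1 hb.1 hx.1 hx'.1)
    (cone_unique ha.2 hb.2 hx.2 hx'.2))

lemma flux_eq (δ : Step d) (L n : ℕ) (ω : Env d) : flux δ L n ω =
    (∑ i ∈ prefs δ L n, W i.1 (path i) (sh (-endp i) ω)) * qlaw ω (Dir.Fwd (Planar.ax δ)) := by
  classical
  rw [prefs, Finset.sum_sigma]
  rfl

variable {μ : Measure (Step d → ℝ)} {δ : Step d}

/-- The second moment of the flux is the mean number of coincidences. -/
lemma flux_sq_le (hμ : Elliptic μ) (hM : MarkovStmt μ) (L n : ℕ) :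
    ∫⁻ ω, flux δ L n ω ^ 2 ∂envLaw μ ≤
      ∑' Δ : {x : Pos d // ht δ x = 0}, joint μ Δ.1 (Coin δ Δ.1 L n) := by
  classical
  set I := prefs δ L n ×ˢ prefs δ L n
  have hF := Dir.measurableSet_fwd (l := Planar.ax δ)
  have hterm : ∀ x ∈ I, ∫⁻ ω, W x.1.1 (path x.1) (sh (-endp x.1) ω) *
      qlaw ω (Dir.Fwd (Planar.ax δ)) * (W x.2.1 (path x.2) (sh (-endp x.2) ω) *
      qlaw ω (Dir.Fwd (Planar.ax δ))) ∂envLaw μ = joint μ (endp x.1 - endp x.2) (cell δ x) := by
    intro x _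
    rw [cell, cone, cone, joint_markov hμ hM _ _ _ _ _ hF hF,
      ← (mp_sh hμ (endp x.1)).lintegral_comp (f := fun ω =>
        W x.1.1 (path x.1) (sh (-endp x.1) ω) * qlaw ω (Dir.Fwd (Planar.ax δ)) *
          (W x.2.1 (path x.2) (sh (-endp x.2) ω) * qlaw ω (Dir.Fwd (Planar.ax δ))))
        ((((measurable_W _ _).comp (measurable_sh _)).mul (measurable_qlaw hF)).mul
          (((measurable_W _ _).comp (measurable_sh _)).mul (measurable_qlaw hF)))]
    refine lintegral_congr fun ω => ?_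
    simp only [sh_sh, neg_add_cancel, sh_zero, neg_add_eq_sub,
      show pos (path x.1) x.1.1 = endp x.1 from rfl, show pos (path x.2) x.2.1 = endp x.2 from rfl]
    rw [add_sub_cancel]
  have hht : ∀ x ∈ I, ht δ (endp x.1 - endp x.2) = 0 := fun x hx => by
    obtain ⟨h1, h2⟩ := Finset.mem_product.1 hx
    rw [ht_sub]
    have a : ht δ (endp x.1) = n := (mem_prefs.1 h1).2.1.1
    have b : ht δ (endp x.2) = n := (mem_prefs.1 h2).2.1.1
    omega
  calc ∫⁻ ω, flux δ L n ω ^ 2 ∂envLaw μ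
      = ∑ x ∈ I, joint μ (endp x.1 - endp x.2) (cell δ x) := by
        refine (lintegral_congr (g := fun ω => ∑ x ∈ I, W x.1.1 (path x.1) (sh (-endp x.1) ω) *
          qlaw ω (Dir.Fwd (Planar.ax δ)) * (W x.2.1 (path x.2) (sh (-endp x.2) ω) *
          qlaw ω (Dir.Fwd (Planar.ax δ)))) fun ω => ?_).trans
          ((lintegral_finsetSum _ fun x _ => ?_).trans (Finset.sum_congr rfl hterm))
        · rw [flux_eq, sq, Finset.sum_mul, Finset.sum_mul_sum, Finset.sum_product]
        · exact (((measurable_W _ _).comp (measurable_sh _)).mul (measurable_qlaw hF)).mul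
            (((measurable_W _ _).comp (measurable_sh _)).mul (measurable_qlaw hF))
    _ = ∑ x ∈ I, ∑' Δ : {x : Pos d // ht δ x = 0},
          if endp x.1 - endp x.2 = Δ.1 then joint μ Δ.1 (cell δ x) else 0 := by
        refine Finset.sum_congr rfl fun x hx => ?_
        rw [tsum_eq_single (⟨endp x.1 - endp x.2, hht x hx⟩ : {x : Pos d // ht δ x = 0})
          (fun Δ hΔ => if_neg fun he => hΔ (Subtype.ext he.symm)), if_pos rfl]
    _ = ∑' Δ : {x : Pos d // ht δ x = 0}, ∑ x ∈ I,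
          if endp x.1 - endp x.2 = Δ.1 then joint μ Δ.1 (cell δ x) else 0 :=
        (Summable.tsum_finsetSum fun _ _ => ENNReal.summable).symm
    _ ≤ _ := by
        refine ENNReal.tsum_le_tsum fun Δ => ?_
        rw [← Finset.sum_filter, ← measure_biUnion_finset
          ((pair_disjoint δ L n).subset (Finset.coe_subset.2 (Finset.filter_subset _ I)))
          fun x _ => (measurableSet_cone δ x.1).prod (measurableSet_cone δ x.2)]
        refine measure_mono (Set.iUnion₂_subset fun x hx y hy => ?_)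
        obtain ⟨hxI, he⟩ := Finset.mem_filter.1 hx
        obtain ⟨h1, h2⟩ := Finset.mem_product.1 hxI
        refine ⟨x.1.1, (mem_prefs.1 h1).1, x.2.1, (mem_prefs.1 h2).1, cone_climb h1 hy.1,
          cone_climb h2 hy.2, ?_, hy.1.2, hy.2.2⟩
        rw [cone_endp hy.1, cone_endp hy.2, ← he, sub_add_cancel]

/-- The coincidence events with level in `[a, m)`. -/
def before (δ : Step d) (Δ : Pos d) (L a m : ℕ) : Set ((ℕ → Step d) × (ℕ → Step d)) :=
  ⋃ i ∈ Finset.Ico a m, Coin δ Δ L i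

open Classical in
/-- The pairs of prefixes ending in a first coincidence at level `m`. -/
def firsts (δ : Step d) (Δ : Pos d) (L a m : ℕ) : Finset (Pref d × Pref d) :=
  (prefs δ L m ×ˢ prefs δ L m).filter fun x =>
    endp x.1 = Δ + endp x.2 ∧ Disjoint (cell δ x) (before δ Δ L a m)

lemma before_congr {L a m : ℕ} {Δ : Pos d} {x : Pref d × Pref d}
    (hx : x ∈ prefs δ L m ×ˢ prefs δ L m) {y z : (ℕ → Step d) × (ℕ → Step d)}
    (hy : y ∈ cell δ x) (hz : z ∈ cell δ x) (h : y ∈ before δ Δ L a m) :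
    z ∈ before δ Δ L a m := by
  simp only [before, Set.mem_iUnion, Finset.mem_Ico, exists_prop] at h ⊢
  obtain ⟨i, hi, q, hqL, q', hq'L, h1, h2, h3, h4, h5⟩ := h
  obtain ⟨hx1, hx2⟩ := Finset.mem_product.1 hx
  have e1 : ∀ t < x.1.1, y.1 t = z.1 t := fun t ht => (hy.1.1 t ht).trans (hz.1.1 t ht).symm
  have e2 : ∀ t < x.2.1, y.2 t = z.2 t := fun t ht => (hy.2.1 t ht).trans (hz.2.1 t ht).symm
  obtain ⟨hq, a1, a2⟩ := regen_congr hi.2 h1 h4 (cone_climb hx1 hy.1) e1 hz.1.2
  obtain ⟨hq', b1, b2⟩ := regen_congr hi.2 h2 h5 (cone_climb hx2 hy.2) e2 hz.2.2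
  refine ⟨i, hi, q, hqL, q', hq'L, a1, b1, ?_, a2, b2⟩
  rwa [← pos_congr fun t ht => e1 t (by omega : t < x.1.1),
    ← pos_congr fun t ht => e2 t (by omega : t < x.2.1)]

lemma coin_after_first {L a m : ℕ} {Δ : Pos d} {x : Pref d × Pref d}
    (hx : x ∈ firsts δ Δ L a m) {n : ℕ} (hn : m ≤ n) :
    cell δ x ∩ Coin δ Δ L n ⊆ cyl x.1.1 (path x.1) ×ˢ cyl x.2.1 (path x.2) ∩
      (fun y => (shift x.1.1 y.1, shift x.2.1 y.2)) ⁻¹' Coin δ 0 L (n - m) := by
  rintro y ⟨hy, q, hqL, q', hq'L, h1, h2, h3, h4, h5⟩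
  simp only [firsts, Finset.mem_filter, Finset.mem_product] at hx
  refine ⟨⟨hy.1.1, hy.2.1⟩, ?_⟩
  have key : ∀ {η : ℕ → Step d} {i : Pref d} {r : ℕ}, i ∈ prefs δ L m → η ∈ cone δ i →
      η ∈ Climb δ n r → shift r η ∈ Dir.Fwd (Planar.ax δ) →
      i.1 ≤ r ∧ shift i.1 η ∈ Climb δ (n - m) (r - i.1) ∧
      shift (r - i.1) (shift i.1 η) ∈ Dir.Fwd (Planar.ax δ) ∧
      pos η r = endp i + pos (shift i.1 η) (r - i.1) := by
    intro η i r hi hη hr hrf
    have hp := cone_climb hi hη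
    have hle : i.1 ≤ r := by
      rcases hn.lt_or_eq with h | rfl
      · exact (hit_mono h hp.1 hr.1).le
      · exact (hit_unique hp.1 hr.1).le
    obtain ⟨u, rfl⟩ := Nat.exists_eq_add_of_le hle
    rw [Nat.add_sub_cancel_left]
    refine ⟨hle, ⟨⟨?_, fun t ht => ?_⟩, fun t ht =>
      mem_noBack.1 (fwd_subset_noBack δ hη.2) t⟩, ?_, ?_⟩
    · have := hgt_add δ η i.1 u
      rw [hp.1.1, hr.1.1] at this
      omega
    · have := hr.1.2 (i.1 + t) (by omega)
      rw [hgt_add, hp.1.1] at this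
      omega
    · rwa [Dir.shift_shift]
    · rw [pos_add, cone_endp hη]
  obtain ⟨-, a1, a2, a3⟩ := key hx.1.1 hy.1 h1 h4
  obtain ⟨-, b1, b2, b3⟩ := key hx.1.2 hy.2 h2 h5
  refine ⟨q - x.1.1, by omega, q' - x.2.1, by omega, a1, b1, ?_, a2, b2⟩
  rw [a3, b3, hx.2.1, add_assoc, add_right_inj, add_right_inj] at h3
  rw [zero_add]
  exact h3

/-- Renewal at the first coincidence. -/
lemma coin_sum_le (hFa : FactorStmt μ δ) (Δ : Pos d) (hΔ : ht δ Δ = 0) (L a N : ℕ) :
    joint μ 0 (Dir.Fwd (Planar.ax δ) ×ˢ Dir.Fwd (Planar.ax δ)) *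
        ∑ n ∈ Finset.Ico a N, joint μ Δ (Coin δ Δ L n) ≤
      (∑ k ∈ Finset.range N, joint μ 0 (Coin δ 0 L k)) * joint μ Δ (before δ Δ L a N) := by
  classical
  set FF := Dir.Fwd (Planar.ax δ) ×ˢ Dir.Fwd (Planar.ax δ) with hFF
  have hF := Dir.measurableSet_fwd (l := Planar.ax δ)
  have hFN : FF ⊆ NoBack δ ×ˢ NoBack δ :=
    Set.prod_mono (fwd_subset_noBack δ) (fwd_subset_noBack δ)
  set J := (Finset.Ico a N).sigma fun m => firsts δ Δ L a m with hJ
  have hfac : ∀ y ∈ J, ∀ S, MeasurableSet S → S ⊆ NoBack δ ×ˢ NoBack δ →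
      joint μ Δ (cyl y.2.1.1 (path y.2.1) ×ˢ cyl y.2.2.1 (path y.2.2) ∩
        (fun z => (shift y.2.1.1 z.1, shift y.2.2.1 z.2)) ⁻¹' S) =
      joint μ Δ (cyl y.2.1.1 (path y.2.1) ×ˢ cyl y.2.2.1 (path y.2.2)) * joint μ 0 S := by
    intro y hy S hS hSN
    simp only [hJ, Finset.mem_sigma, firsts, Finset.mem_filter, Finset.mem_product] at hy
    obtain ⟨-, ⟨h1, h2⟩, he, -⟩ := hy
    have a1 := (mem_prefs.1 h1).2.1
    have a2 := (mem_prefs.1 h2).2.1
    rw [hFa Δ _ _ _ _ S hS hSN (by rw [ht_add, hΔ, zero_add]; exact a2.1.trans a1.1.symm)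
      (fun s hs => by rw [show ht δ (pos _ y.2.1.1) = _ from a1.1]; exact a1.2 s hs)
      (fun s hs => by
        rw [ht_add, hΔ, zero_add, show ht δ (pos (path y.2.1) y.2.1.1) = _ from a1.1]
        exact a2.2 s hs),
      show Δ + pos (path y.2.2) y.2.2.1 = endp y.2.1 from he.symm,
      show pos (path y.2.1) y.2.1.1 = endp y.2.1 from rfl, sub_self]
  have hdisj : (J : Set (Σ _ : ℕ, Pref d × Pref d)).PairwiseDisjoint (fun y => cell δ y.2) := by
    rintro ⟨m, x⟩ hx ⟨m', x'⟩ hx' hne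
    simp only [hJ, Finset.coe_sigma, Set.mem_sigma_iff, Finset.mem_coe] at hx hx'
    have hmem : ∀ {m x}, x ∈ firsts δ Δ L a m → cell δ x ⊆ Coin δ Δ L m := by
      intro m x hx y hy
      simp only [firsts, Finset.mem_filter, Finset.mem_product] at hx
      refine ⟨x.1.1, (mem_prefs.1 hx.1.1).1, x.2.1, (mem_prefs.1 hx.1.2).1,
        cone_climb hx.1.1 hy.1, cone_climb hx.1.2 hy.2, ?_, hy.1.2, hy.2.2⟩
      rw [cone_endp hy.1, cone_endp hy.2, hx.2.1]
    rcases lt_trichotomy m m' with h | rfl | h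
    · refine Set.disjoint_left.mpr fun y hy hy' => ?_
      refine Set.disjoint_left.mp (Finset.mem_filter.1 hx'.2).2.2 hy' ?_
      exact Set.mem_biUnion (show m ∈ Finset.Ico a m' by
        simp only [Finset.mem_Ico] at hx ⊢; omega) (hmem hx.2 hy)
    · exact pair_disjoint δ L m (Finset.mem_filter.1 hx.2).1 (Finset.mem_filter.1 hx'.2).1
        fun he => hne (by rw [he])
    · refine Set.disjoint_left.mpr fun y hy hy' => ?_
      refine Set.disjoint_left.mp (Finset.mem_filter.1 hx.2).2.2 hy ?_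
      exact Set.mem_biUnion (show m' ∈ Finset.Ico a m by
        simp only [Finset.mem_Ico] at hx' ⊢; omega) (hmem hx'.2 hy')
  have hcover : ∀ n ∈ Finset.Ico a N, Coin δ Δ L n ⊆
      ⋃ y ∈ J.filter (fun y => y.1 ≤ n), cell δ y.2 ∩ Coin δ Δ L n := by
    intro n hn z hz
    have hex : ∃ m, a ≤ m ∧ z ∈ Coin δ Δ L m := ⟨n, (Finset.mem_Ico.1 hn).1, hz⟩
    set m := Nat.find hex
    obtain ⟨ha, p, hp, p', hp', h1, h2, h3, h4, h5⟩ := Nat.find_spec hex
    have hmn : m ≤ n := Nat.find_le ⟨(Finset.mem_Ico.1 hn).1, hz⟩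
    obtain ⟨i, hi, -, hie, hiz⟩ := exists_pref hp h1 h4
    obtain ⟨j, hj, -, hje, hjz⟩ := exists_pref hp' h2 h5
    refine Set.mem_biUnion (x := ⟨m, i, j⟩) ?_ ⟨⟨hiz, hjz⟩, hz⟩
    refine Finset.mem_filter.2 ⟨Finset.mem_sigma.2
      ⟨Finset.mem_Ico.2 ⟨ha, lt_of_le_of_lt hmn (Finset.mem_Ico.1 hn).2⟩, Finset.mem_filter.2
        ⟨Finset.mem_product.2 ⟨hi, hj⟩, by rw [hie, hje, h3],
          Set.disjoint_left.mpr fun y hy hyb => ?_⟩⟩, hmn⟩
    have := before_congr (Finset.mem_product.2 ⟨hi, hj⟩) hy (show z ∈ cell δ (i, j) from ⟨hiz, hjz⟩) hyb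
    simp only [before, Set.mem_iUnion, Finset.mem_Ico, exists_prop] at this
    obtain ⟨k, hk, hzk⟩ := this
    exact Nat.find_min hex hk.2 ⟨hk.1, hzk⟩
  have hone : ∀ y ∈ J, joint μ 0 FF *
      ∑ n ∈ (Finset.Ico a N).filter (fun n => y.1 ≤ n), joint μ Δ (cell δ y.2 ∩ Coin δ Δ L n) ≤
      (∑ k ∈ Finset.range N, joint μ 0 (Coin δ 0 L k)) * joint μ Δ (cell δ y.2) := by
    intro y hy
    set w := joint μ Δ (cyl y.2.1.1 (path y.2.1) ×ˢ cyl y.2.2.1 (path y.2.2))
    have hw : joint μ Δ (cell δ y.2) = w * joint μ 0 FF := by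
      rw [cell_eq, hfac y hy FF (hF.prod hF) hFN]
    rw [hw, mul_comm (∑ k ∈ Finset.range N, _), mul_assoc, mul_comm w, mul_assoc]
    refine mul_le_mul' le_rfl ?_
    calc ∑ n ∈ (Finset.Ico a N).filter (fun n => y.1 ≤ n),
          joint μ Δ (cell δ y.2 ∩ Coin δ Δ L n)
        ≤ ∑ n ∈ (Finset.Ico a N).filter (fun n => y.1 ≤ n),
            w * joint μ 0 (Coin δ 0 L (n - y.1)) := by
          refine Finset.sum_le_sum fun n hn => ?_
          rw [← hfac y hy _ (measurableSet_coin δ 0 L _)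
            ((coin_subset δ 0 L _).trans hFN)]
          exact measure_mono (coin_after_first (Finset.mem_sigma.1 hy).2 (Finset.mem_filter.1 hn).2)
      _ = w * ∑ k ∈ ((Finset.Ico a N).filter (fun n => y.1 ≤ n)).image (· - y.1),
            joint μ 0 (Coin δ 0 L k) := by
          rw [Finset.sum_image (fun a ha b hb he => by
            simp only [Finset.coe_filter, Set.mem_ofPred_eq] at ha hb
            omega), Finset.mul_sum]
      _ ≤ _ := by
          refine le_of_le_of_eq (mul_le_mul' le_rfl (Finset.sum_le_sum_of_subset fun k hk => ?_))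
            (mul_comm _ _)
          simp only [Finset.mem_image, Finset.mem_filter, Finset.mem_Ico] at hk
          obtain ⟨n, ⟨⟨-, h⟩, -⟩, rfl⟩ := hk
          exact Finset.mem_range.2 (by omega)
  calc joint μ 0 FF * ∑ n ∈ Finset.Ico a N, joint μ Δ (Coin δ Δ L n)
      ≤ joint μ 0 FF * ∑ n ∈ Finset.Ico a N, ∑ y ∈ J.filter (fun y => y.1 ≤ n),
          joint μ Δ (cell δ y.2 ∩ Coin δ Δ L n) :=
        mul_le_mul' le_rfl (Finset.sum_le_sum fun n hn =>
          (measure_mono (hcover n hn)).trans (measure_biUnion_finset_le _ _))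
    _ = ∑ y ∈ J, joint μ 0 FF * ∑ n ∈ (Finset.Ico a N).filter (fun n => y.1 ≤ n),
          joint μ Δ (cell δ y.2 ∩ Coin δ Δ L n) := by
        simp only [Finset.sum_filter]
        rw [← Finset.mul_sum, Finset.sum_comm]
    _ ≤ ∑ y ∈ J, (∑ k ∈ Finset.range N, joint μ 0 (Coin δ 0 L k)) * joint μ Δ (cell δ y.2) :=
        Finset.sum_le_sum hone
    _ ≤ _ := by
        rw [← Finset.mul_sum, ← measure_biUnion_finset hdisj
          fun y _ => (measurableSet_cone δ y.2.1).prod (measurableSet_cone δ y.2.2)]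
        refine mul_le_mul' le_rfl (measure_mono (Set.iUnion₂_subset fun y hy z hz => ?_))
        obtain ⟨hm, hy2⟩ := Finset.mem_sigma.1 hy
        simp only [firsts, Finset.mem_filter, Finset.mem_product] at hy2
        exact Set.mem_biUnion hm ⟨y.2.1.1, (mem_prefs.1 hy2.1.1).1, y.2.2.1,
          (mem_prefs.1 hy2.1.2).1, cone_climb hy2.1.1 hz.1, cone_climb hy2.1.2 hz.2,
          by rw [cone_endp hz.1, cone_endp hz.2, hy2.2.1], hz.1.2, hz.2.2⟩

omit [NeZero d] in
/-- Every lateral site is the end of a level path. -/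
lemma exists_level_path (δ : Step d) : ∀ v : Pos d, ht δ v = 0 →
    ∃ (p : ℕ) (ζ : ℕ → Step d), pos ζ p = v ∧ ∀ t ≤ p, ht δ (pos ζ t) = 0 := by
  suffices ∀ (k : ℕ) (v : Pos d), ∑ i, (v i).natAbs = k → ht δ v = 0 →
      ∃ (p : ℕ) (ζ : ℕ → Step d), pos ζ p = v ∧ ∀ t ≤ p, ht δ (pos ζ t) = 0 from
    fun v hv => this _ v rfl hv
  intro k
  induction k using Nat.strong_induction_on with
  | _ k ih =>
    intro v hk hv
    by_cases h0 : v = 0
    · exact ⟨0, fun _ => δ, by simp [h0, pos], fun t ht' => by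
        obtain rfl : t = 0 := by omega
        simp [pos]⟩
    obtain ⟨i, hi⟩ := Function.ne_iff.mp h0
    have hne : i ≠ δ.1 := fun he => hi (by
      subst he
      unfold ht at hv
      split at hv <;> simp_all)
    set e : Step d := (i, decide (0 < v i)) with he
    have hve : ht δ (v - vec e) = 0 := by rw [ht_sub, hv, ht_vec_lat hne]; simp
    have hlt : ∑ j, ((v - vec e) j).natAbs < k := by
      rw [← hk]
      refine Finset.sum_lt_sum (fun j _ => ?_) ⟨i, Finset.mem_univ i, ?_⟩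
      · by_cases hj : j = i
        · subst hj
          simp only [he, vec, Pi.sub_apply, Pi.single_eq_same, decide_eq_true_eq]
          simp only [Pi.zero_apply] at hi
          split <;> omega
        · simp [he, vec, Pi.single_eq_of_ne hj]
      · simp only [he, vec, Pi.sub_apply, Pi.single_eq_same, decide_eq_true_eq]
        simp only [Pi.zero_apply] at hi
        split <;> omega
    obtain ⟨p, ζ, hp, hlev⟩ := ih _ hlt (v - vec e) rfl hve
    refine ⟨p + 1, glue p ζ (fun _ => e), ?_, fun t ht' => ?_⟩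
    · rw [pos_glue_add, hp]
      simp [pos]
    · rcases Nat.lt_or_ge t (p + 1) with h | h
      · rw [pos_glue_le (by omega)]; exact hlev t (by omega)
      · obtain rfl : t = p + 1 := by omega
        rw [pos_glue_add, hp, ht_add, hve]
        simp [pos, ht_vec_lat (e := e) hne]

/-- With positive chance two walkers from one site never coincide again. -/
lemma no_return_pos (hμ : Elliptic μ) (hM : MarkovStmt μ) (hFa : FactorStmt μ δ)
    (hC : ContactStmt μ) (hmiss : MissStmt μ δ) :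
    ∃ ε : ℝ≥0∞, ε ≠ 0 ∧ ∀ L N, joint μ 0 (before δ 0 L 1 N) + ε ≤
      joint μ 0 (Dir.Fwd (Planar.ax δ) ×ˢ Dir.Fwd (Planar.ax δ)) := by
  obtain ⟨v, hv, hpos⟩ := hmiss
  set FF := Dir.Fwd (Planar.ax δ) ×ˢ Dir.Fwd (Planar.ax δ)
  have hFFm : MeasurableSet FF := Dir.measurableSet_fwd.prod Dir.measurableSet_fwd
  have hv0 : v ≠ 0 := fun h0 => by
    refine hpos.ne' (measure_mono_null (t := ∅) ?_ measure_empty)
    rintro x ⟨-, hx⟩
    exact absurd (by simp [pos, h0]) (hx 0 0)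
  obtain ⟨p', ζ, hζ, hlev⟩ := exists_level_path δ v hv
  set ξ : ℕ → Step d := fun _ => δ
  set ξ' := glue p' ζ ξ
  have hend : pos ξ' (p' + 1) = v + vec δ := by
    rw [pos_glue_add, hζ]; simp [pos, ξ]
  have hone : pos ξ 1 = vec δ := by simp [pos, ξ]
  have hlow : ∀ s < p' + 1, ht δ (pos ξ' s) = 0 := fun s hs => by
    rw [pos_glue_le (by omega)]; exact hlev s (by omega)
  set S := FF ∩ NoShare v
  have hSm : MeasurableSet S := hFFm.inter (measurableSet_noShare v)
  have hSN : S ⊆ NoBack δ ×ˢ NoBack δ :=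
    Set.inter_subset_left.trans (Set.prod_mono (fwd_subset_noBack δ) (fwd_subset_noBack δ))
  set E := cyl 1 ξ ×ˢ cyl (p' + 1) ξ' ∩ (fun x => (shift 1 x.1, shift (p' + 1) x.2)) ⁻¹' S
  have hEm : MeasurableSet E := ((measurableSet_cyl _ _).prod (measurableSet_cyl _ _)).inter
    ((((measurable_shift 1).comp measurable_fst).prodMk
      ((measurable_shift (p' + 1)).comp measurable_snd)) hSm)
  refine ⟨joint μ 0 E, ?_, fun L N => ?_⟩
  · have h1 : ht δ (pos ξ 1) = 1 := by rw [hone, ht_vec_self]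
    rw [hFa 0 1 (p' + 1) ξ ξ' S hSm hSN
      (by rw [zero_add, hend, ht_add, hv, ht_vec_self, h1, zero_add])
      (fun s hs => by obtain rfl : s = 0 := by omega
                      rw [h1]; simp [pos])
      (fun s hs => by rw [zero_add, hlow s hs, h1]; exact one_pos),
      show (0 : Pos d) + pos ξ' (p' + 1) - pos ξ 1 = v by rw [zero_add, hend, hone, add_sub_cancel_right],
      (hC v (Dir.Fwd (Planar.ax δ)) Dir.measurableSet_fwd).2 _ Dir.measurableSet_fwd]
    refine mul_ne_zero ?_ hpos.ne'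
    rw [joint_cyl hμ hM, ne_eq,
      lintegral_eq_zero_iff' (f := fun ω => W 1 ξ ω * W (p' + 1) ξ' (sh 0 ω)) (((measurable_W _ _).mul
        ((measurable_W _ _).comp (measurable_sh _))).aemeasurable)]
    intro h0
    have := isProbability_envLaw hμ
    have hfalse : ∀ᵐ _ω ∂envLaw μ, False := by
      filter_upwards [h0, ae_rows hμ] with ω hω hrow
      refine (mul_ne_zero ?_ ?_) hω
      · exact Finset.prod_ne_zero_iff.mpr fun t _ => (ENNReal.ofReal_pos.mpr ((hrow _).1 _)).ne'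
      · exact Finset.prod_ne_zero_iff.mpr fun t _ => (ENNReal.ofReal_pos.mpr ((hrow _).1 _)).ne'
    exact hfalse.exists.elim fun _ h => h
  · have hfw : ∀ x ∈ E, x ∈ FF := by
      rintro x ⟨⟨h1, h2⟩, ⟨h3, h4⟩, -⟩
      refine ⟨fwd_of_climb (n := 1) ⟨⟨?_, fun t ht' => ?_⟩, fun t ht' => ?_⟩ h3,
        fwd_of_climb (n := 1) ⟨⟨?_, fun t ht' => ?_⟩, fun t ht' => ?_⟩ h4⟩
      · rw [hgt, pos_congr h1, hone, ht_vec_self]; rfl
      · obtain rfl : t = 0 := by omega
        simp [hgt, pos]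
      · show 0 ≤ ht δ _
        rw [pos_congr fun s hs => h1 s (by omega)]
        interval_cases t
        · simp [pos]
        · rw [hone, ht_vec_self]; exact zero_le_one
      · rw [hgt, pos_congr h2, hend, ht_add, hv, ht_vec_self]; rfl
      · rw [hgt, pos_congr fun s hs => h2 s (by omega), hlow t ht']; exact Int.one_pos
      · show 0 ≤ ht δ _
        rw [pos_congr fun s hs => h2 s (by omega)]
        rcases Nat.lt_or_ge t (p' + 1) with h | h
        · rw [hlow t h]
        · obtain rfl : t = p' + 1 := by omega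
          rw [hend, ht_add, hv, ht_vec_self]; norm_num
    rw [← measure_union ?_ hEm]
    · refine measure_mono (Set.union_subset (Set.iUnion₂_subset fun i _ => coin_subset δ 0 L i) hfw)
    refine Set.disjoint_left.mpr fun x hx hxE => ?_
    simp only [before, Set.mem_iUnion, Finset.mem_Ico, exists_prop] at hx
    obtain ⟨n, ⟨hn, -⟩, q, -, q', -, h1, h2, h3, -, -⟩ := hx
    obtain ⟨⟨hc1, hc2⟩, -, hshare⟩ := hxE
    have a : 1 ≤ q := by
      by_contra hc
      obtain rfl : q = 0 := by omega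
      have := h1.1.1
      simp [hgt, pos] at this
      omega
    have b : p' + 1 ≤ q' := by
      by_contra hc
      have := h2.1.1
      rw [hgt, pos_congr fun s hs => hc2 s (by omega), hlow q' (by omega)] at this
      omega
    obtain ⟨u, rfl⟩ := Nat.exists_eq_add_of_le a
    obtain ⟨u', rfl⟩ := Nat.exists_eq_add_of_le b
    rw [zero_add, pos_add, pos_add, pos_congr hc1, pos_congr hc2, hone, hend, add_comm v,
      add_assoc, add_right_inj] at h3
    exact hshare u u' h3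

/-- The forward paths visiting `Δ + z`. -/
def hitSet (δ : Step d) (Δ z : Pos d) : Set (ℕ → Step d) :=
  Dir.Fwd (Planar.ax δ) ∩ ⋃ s, {η | pos η s = Δ + z}

omit [NeZero d] in
lemma measurableSet_hitSet (Δ z : Pos d) : MeasurableSet (hitSet δ Δ z) :=
  Dir.measurableSet_fwd.inter (MeasurableSet.iUnion fun s =>
    measurableSet_eq_fun (measurable_pos s) measurable_const)

omit [NeZero d] in
/-- Each visit of a level meets one lateral offset. -/
lemma hit_le_visits (η : ℕ → Step d) (z : Pos d) :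
    ∑' Δ : {x : Pos d // ht δ x = 0}, (hitSet δ Δ.1 z).indicator 1 η ≤
      (Dir.Fwd (Planar.ax δ)).indicator
        (fun η => ∑' t, if hgt δ η t = ht δ z then (1 : ℝ≥0∞) else 0) η := by
  classical
  by_cases hη : η ∈ Dir.Fwd (Planar.ax δ)
  swap
  · simp [hitSet, hη]
  rw [Set.indicator_of_mem hη]
  calc ∑' Δ : {x : Pos d // ht δ x = 0}, (hitSet δ Δ.1 z).indicator 1 η
      ≤ ∑' Δ : {x : Pos d // ht δ x = 0}, ∑' s,
          if pos η s = Δ.1 + z then (1 : ℝ≥0∞) else 0 := ENNReal.tsum_le_tsum fun Δ => by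
        by_cases h : η ∈ hitSet δ Δ.1 z
        · obtain ⟨s, hs⟩ := Set.mem_iUnion.1 h.2
          rw [Set.indicator_of_mem h]
          refine le_trans ?_ (ENNReal.le_tsum s)
          rw [Pi.one_apply, if_pos (show pos η s = Δ.1 + z from hs)]
        · rw [Set.indicator_of_notMem h]; exact bot_le
    _ = ∑' s, ∑' Δ : {x : Pos d // ht δ x = 0},
          if pos η s = Δ.1 + z then (1 : ℝ≥0∞) else 0 := ENNReal.tsum_comm
    _ ≤ ∑' s, if hgt δ η s = ht δ z then (1 : ℝ≥0∞) else 0 := ENNReal.tsum_le_tsum fun s => by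
        by_cases h : hgt δ η s = ht δ z
        · have hm : ht δ (pos η s - z) = 0 := by rw [ht_sub]; exact sub_eq_zero.2 h
          rw [if_pos h, tsum_eq_single (⟨pos η s - z, hm⟩ : {x : Pos d // ht δ x = 0})
            (fun Δ hΔ => if_neg fun he => hΔ (Subtype.ext (show Δ.1 = pos η s - z by
              rw [he, add_sub_cancel_right]))), if_pos (sub_add_cancel _ _).symm]
        · rw [if_neg h]
          refine le_of_eq (ENNReal.tsum_eq_zero.2 fun Δ => if_neg fun he => h ?_)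
          rw [hgt, he, ht_add, Δ.2, zero_add]

lemma sum_hit_le {C : ℝ≥0∞} (hvis : ∀ j : ℤ, ∫⁻ η, (Dir.Fwd (Planar.ax δ)).indicator
    (fun η => ∑' t, if hgt δ η t = j then (1 : ℝ≥0∞) else 0) η ∂nu μ ≤ C) (z : Pos d) :
    ∑' Δ : {x : Pos d // ht δ x = 0}, nu μ (hitSet δ Δ.1 z) ≤ C := by
  have h : ∀ Δ : {x : Pos d // ht δ x = 0}, nu μ (hitSet δ Δ.1 z) =
      ∫⁻ η, (hitSet δ Δ.1 z).indicator 1 η ∂nu μ :=
    fun Δ => (lintegral_indicator_one (measurableSet_hitSet Δ.1 z)).symm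
  rw [tsum_congr h, ← lintegral_tsum fun Δ : {x : Pos d // ht δ x = 0} =>
    (measurable_one.indicator (measurableSet_hitSet Δ.1 z)).aemeasurable]
  exact (lintegral_mono fun η => hit_le_visits η z).trans (hvis (ht δ z))

lemma before_subset (Δ : Pos d) (L a N : ℕ) : before δ Δ L a N ⊆ ⋃ t ∈ Finset.range (L + 1),
    ⋃ σ ∈ (Finset.univ : Finset (Fin t → Step d)),
      hitSet δ Δ (pos (ext' σ) t) ×ˢ cyl t (ext' σ) ∩ AvoidTill Δ t := by
  classical
  intro x hx
  simp only [before, Set.mem_iUnion, Finset.mem_Ico, exists_prop] at hx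
  obtain ⟨n, -, p, -, p', hp', h1, -, h3, h4, -⟩ := hx
  have hex : ∃ u, ∃ s, pos x.1 s = Δ + pos x.2 u := ⟨p', p, h3⟩
  obtain ⟨s, hs⟩ := Nat.find_spec hex
  have hcyl : ∀ i < Nat.find hex, x.2 i = ext' (fun i : Fin (Nat.find hex) => x.2 i) i :=
    fun i hi => by rw [ext'_lt _ hi]
  refine Set.mem_biUnion (x := Nat.find hex)
    (Finset.mem_range.2 (Nat.lt_succ_of_le ((Nat.find_le (h := hex) ⟨p, h3⟩).trans hp')))
    (Set.mem_biUnion (x := fun i : Fin (Nat.find hex) => x.2 i) (Finset.mem_univ _)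
      ⟨⟨⟨fwd_of_climb h1 h4, Set.mem_iUnion.2 ⟨s, ?_⟩⟩, hcyl⟩,
        fun s u hu he => Nat.find_min hex hu ⟨s, he⟩⟩)
  show pos x.1 s = _
  rw [hs, pos_congr hcyl]

/-- All coincidences happen after a first contact, which is free. -/
lemma contact_sum_le (hμ : Elliptic μ) (hC : ContactStmt μ) {C : ℝ≥0∞}
    (hvis : ∀ j : ℤ, ∫⁻ η, (Dir.Fwd (Planar.ax δ)).indicator
      (fun η => ∑' t, if hgt δ η t = j then (1 : ℝ≥0∞) else 0) η ∂nu μ ≤ C) (L a N : ℕ) :
    ∑' Δ : {x : Pos d // ht δ x = 0}, joint μ Δ.1 (before δ Δ.1 L a N) ≤ C * (L + 1) := by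
  classical
  have := isProbabilityMeasure_nu hμ
  calc ∑' Δ : {x : Pos d // ht δ x = 0}, joint μ Δ.1 (before δ Δ.1 L a N)
      ≤ ∑' Δ : {x : Pos d // ht δ x = 0}, ∑ t ∈ Finset.range (L + 1), ∑ σ : Fin t → Step d,
          nu μ (hitSet δ Δ.1 (pos (ext' σ) t)) * w μ t (ext' σ) := by
        refine ENNReal.tsum_le_tsum fun Δ => ((measure_mono (before_subset Δ.1 L a N)).trans
          (measure_biUnion_finset_le _ _)).trans (Finset.sum_le_sum fun t _ =>
          (measure_biUnion_finset_le _ _).trans (Finset.sum_le_sum fun σ _ => ?_))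
        rw [(hC Δ.1 _ (measurableSet_hitSet _ _)).1]
        exact (measure_mono Set.inter_subset_left).trans (le_of_eq (Measure.prod_prod _ _))
    _ = ∑ t ∈ Finset.range (L + 1), ∑ σ : Fin t → Step d,
          (∑' Δ : {x : Pos d // ht δ x = 0}, nu μ (hitSet δ Δ.1 (pos (ext' σ) t))) *
            w μ t (ext' σ) := by
        rw [Summable.tsum_finsetSum fun _ _ => ENNReal.summable]
        refine Finset.sum_congr rfl fun t _ => ?_
        rw [Summable.tsum_finsetSum fun _ _ => ENNReal.summable]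
        exact Finset.sum_congr rfl fun σ _ => ENNReal.tsum_mul_right
    _ ≤ ∑ t ∈ Finset.range (L + 1), ∑ σ : Fin t → Step d, C * w μ t (ext' σ) :=
        Finset.sum_le_sum fun t _ => Finset.sum_le_sum fun σ _ =>
          mul_le_mul' (sum_hit_le hvis _) le_rfl
    _ = C * (L + 1) := by
        have hone : ∀ t, ∑ σ : Fin t → Step d, w μ t (ext' σ) = 1 := fun t => by
          have h := (lintegral_det (μ := μ) (H := t) (G := fun _ => 1) fun _ _ _ => rfl).symm
          simpa using h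
        simp only [← Finset.mul_sum, hone, mul_one]
        simp [mul_comm]

/-- The flux has bounded second moment in mean. -/
theorem moment (hμ : Elliptic μ) (hM : MarkovStmt μ) (hFa : FactorStmt μ δ) (hC : ContactStmt μ)
    (hvisit : VisitStmt μ δ) (hmiss : MissStmt μ δ) : MomentStmt μ δ := by
  obtain ⟨C, hCt, hvis⟩ := hvisit
  obtain ⟨ε, hε, hgap⟩ := no_return_pos hμ hM hFa hC hmiss
  have := isProbability_joint hμ (0 : Pos d)
  set FF := Dir.Fwd (Planar.ax δ) ×ˢ Dir.Fwd (Planar.ax δ)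
  set s0 := joint μ 0 FF
  have hs0 : s0 ≠ 0 := fun h0 => hε (nonpos_iff_eq_zero.mp
    (le_of_le_of_eq (le_add_self.trans (hgap 0 0)) h0))
  have hεt : ε ≠ ∞ := ne_top_of_le_ne_top (measure_ne_top _ _) (le_add_self.trans (hgap 0 0))
  refine ⟨s0 / ε * C, ENNReal.mul_ne_top (ENNReal.div_ne_top (measure_ne_top _ _) hε) hCt,
    fun L N => ?_⟩
  set U := ∑ k ∈ Finset.range N, joint μ 0 (Coin δ 0 L k)
  have hUt : U ≠ ∞ := ENNReal.sum_ne_top.2 fun k _ => measure_ne_top _ _
  have hU : U * ε ≤ s0 * s0 := by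
    have h1 := coin_sum_le hFa (0 : Pos d) (by simp [ht]) L 1 N
    have h2 : U ≤ s0 + ∑ n ∈ Finset.Ico 1 N, joint μ 0 (Coin δ 0 L n) := by
      calc U ≤ ∑ n ∈ insert 0 (Finset.Ico 1 N), joint μ 0 (Coin δ 0 L n) :=
            Finset.sum_le_sum_of_subset fun k hk => by
              simp only [Finset.mem_range] at hk
              simp only [Finset.mem_insert, Finset.mem_Ico]; omega
        _ = _ + _ := Finset.sum_insert (by simp)
        _ ≤ _ := add_le_add (measure_mono (coin_subset δ 0 L 0)) le_rfl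
    refine (ENNReal.add_le_add_iff_left (ENNReal.mul_ne_top hUt
      (measure_ne_top (joint μ 0) (before δ 0 L 1 N)))).1 ?_
    calc U * joint μ 0 (before δ 0 L 1 N) + U * ε ≤ U * s0 := by
          rw [← mul_add]; exact mul_le_mul' le_rfl (hgap L N)
      _ ≤ s0 * (s0 + ∑ n ∈ Finset.Ico 1 N, joint μ 0 (Coin δ 0 L n)) := by
          rw [mul_comm U]; exact mul_le_mul' le_rfl h2
      _ ≤ _ := by rw [mul_add, add_comm]; exact add_le_add h1 le_rfl
  rw [lintegral_finsetSum _ fun n _ => (measurable_flux δ L n).pow_const 2]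
  refine (Finset.sum_le_sum fun n _ => flux_sq_le hμ hM L n).trans ?_
  rw [← Summable.tsum_finsetSum fun _ _ => ENNReal.summable]
  refine (ENNReal.mul_le_mul_iff_right hs0 (measure_ne_top _ _)).1 ?_
  calc s0 * ∑' Δ : {x : Pos d // ht δ x = 0}, ∑ n ∈ Finset.range N, joint μ Δ.1 (Coin δ Δ.1 L n)
      ≤ ∑' Δ : {x : Pos d // ht δ x = 0}, U * joint μ Δ.1 (before δ Δ.1 L 0 N) := by
        rw [← ENNReal.tsum_mul_left]
        refine ENNReal.tsum_le_tsum fun Δ => ?_
        rw [Finset.range_eq_Ico]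
        exact coin_sum_le hFa Δ.1 Δ.2 L 0 N
    _ ≤ U * (C * (L + 1)) := by
        rw [ENNReal.tsum_mul_left]; exact mul_le_mul' le_rfl (contact_sum_le hμ hC hvis L 0 N)
    _ ≤ s0 * s0 / ε * (C * (L + 1)) :=
        mul_le_mul' ((ENNReal.le_div_iff_mul_le (Or.inl hε) (Or.inl hεt)).2 hU) le_rfl
    _ = _ := by rw [mul_div_assoc]; ring

end Vale.Agent.P147.Flux
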