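import Vale.Agent.P147.Flux.Osc
import Vale.Agent.P147.Flux.Main

/-!
P147: the walk is never confined to a strip, and an axis escape is certain when the walk cannot
escape the other way without going back.
-/

open MeasureTheory Filter
open scoped ENNReal Topology symmDiff

noncomputable section

namespace Vale.Agent.P147.Flux

variable {d : ℕ}

/-- The sites of height at most `M` in absolute value. -/
def strip (δ : Step d) (M : ℕ) : Set (Pos d) := {x | -(M : ℤ) ≤ ht δ x ∧ ht δ x ≤ M}

lemma hgt_line (δ : Step d) : ∀ t : ℕ, hgt δ (fun _ => δ) t = t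
  | 0 => by simp
  | t + 1 => by rw [hgt_succ, hgt_line δ t, ht_vec_self]; push_cast; rfl

lemma line_leaves {δ : Step d} {M p : ℕ} {η : ℕ → Step d}
    (h : shift p η ∈ cyl (2 * M + 1) fun _ => δ) : η ∉ Stay (strip δ M) := by
  intro hs
  have h1 := (hs p).1
  have h2 := (hs (p + (2 * M + 1))).2
  have h3 : ht δ (pos (shift p η) (2 * M + 1)) = 2 * (M : ℤ) + 1 := by
    rw [pos_congr h]
    have := hgt_line δ (2 * M + 1)
    rw [hgt] at this
    rw [this]
    push_cast
    rfl
  rw [pos_add, ht_add, h3] at h2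
  omega

lemma natAbs_pos_le (η : ℕ → Step d) (i : Fin d) : ∀ n, (pos η n i).natAbs ≤ n
  | 0 => by simp [pos]
  | n + 1 => by
    simp only [pos, Pi.add_apply]
    have h1 : (vec (η n) i).natAbs ≤ 1 := by
      rcases eq_or_ne i (η n).1 with rfl | hne
      · simp [vec]; split <;> simp
      · simp [vec, Pi.single_eq_of_ne hne]
    have := Int.natAbs_add_le (pos η n i) (vec (η n) i)
    have := natAbs_pos_le η i n
    omega

variable [NeZero d] {μ : Measure (Step d → ℝ)}

/-- The paths that first leave the slab of width `n` along coordinate `j` at time `p`. -/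
def Out (j : Fin d) (n p : ℕ) : Set (ℕ → Step d) :=
  {η | n < (pos η p j).natAbs ∧ ∀ s < p, (pos η s j).natAbs ≤ n}

omit [NeZero d] in
lemma detBy_out (j : Fin d) (n p : ℕ) : DetBy p (Out j n p) := by
  intro a b hab ha
  simp only [Out, Set.mem_ofPred_eq] at ha ⊢
  refine ⟨?_, fun s hs => ?_⟩
  · rw [← pos_congr fun t ht => hab t ht]; exact ha.1
  · rw [← pos_congr fun t ht => hab t (ht.trans hs)]; exact ha.2 s hs

omit [NeZero d] in
lemma out_unique {j : Fin d} {n p q : ℕ} {η : ℕ → Step d} (hp : η ∈ Out j n p)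
    (hq : η ∈ Out j n q) : p = q := by
  rcases lt_trichotomy p q with h | h | h
  · exact absurd (hq.2 p h) (not_le.2 hp.1)
  · exact h
  · exact absurd (hp.2 q h) (not_le.2 hq.1)

/-- A walk confined to a strip stays bounded in every coordinate. -/
lemma strip_bounded (hμ : Elliptic μ) (δ : Step d) (M : ℕ) {j : Fin d} (hj : j ≠ δ.1) :
    nu μ (Stay (strip δ M) ∩ {η | ∀ n, ∃ t, n < (pos η t j).natAbs}) = 0 := by
  classical
  have := isProbabilityMeasure_nu hμ
  set P := nu μ
  set S := Stay (strip δ M)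
  set L := 2 * M + 1
  set c := w μ L fun _ => δ
  refine le_antisymm (le_of_forall_gt_imp_ge_of_dense fun ε hε => ?_) zero_le
  have hc0 : c ≠ 0 := w_ne_zero hμ _ _
  have hct : c ≠ ∞ := w_ne_top hμ _ _
  have hη : 0 < ε / 2 * min c 1 := ENNReal.mul_pos (ENNReal.half_pos hε.ne').ne'
    (by simp [hc0])
  obtain ⟨I, G, -, hdep, hlt⟩ := approx_cylinder P (measurableSet_stay (strip δ M)) hη
  set H := I.sup id + 1
  have hdet : DetBy H G := fun a b hab ha => hdep a b (fun i hi => hab i (by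
    have : id i ≤ I.sup id := Finset.le_sup hi
    simp only [id_eq] at this
    omega)) ha
  set E : ℕ → Set (ℕ → Step d) := fun p => G ∩ Out j H p
  have hlate : ∀ p, ∀ ξ ∈ E p, H < p := fun p ξ hξ =>
    lt_of_lt_of_le hξ.2.1 (natAbs_pos_le ξ j p)
  have hEdet : ∀ p, DetBy p (E p) := fun p a b hab ha =>
    ⟨(hdet.mono (hlate p a ha).le) a b hab ha.1, detBy_out j H p a b hab ha.2⟩
  set E' : ℕ → Set (ℕ → Step d) := fun p => E p ∩ shift p ⁻¹' cyl L fun _ => δ
  have hsplit : ∀ p, P (E' p) = P (E p) * c := fun p => by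
    refine split_cyl hμ (hEdet p) fun ξ hξ s hs t _ heq => ?_
    have h1 := congrFun heq j
    have h2 : ∀ t, pos (fun _ : ℕ => δ) t j = 0 := fun t => by
      induction t with
      | zero => rfl
      | succ t ih => simp [pos, ih, vec, Pi.single_eq_of_ne hj]
    rw [Pi.add_apply, h2, add_zero] at h1
    have := hξ.2.2 s hs
    rw [h1] at this
    exact absurd hξ.2.1 (not_lt.2 this)
  have hdisj : Pairwise (Function.onFun Disjoint E) := fun p q hpq =>
    Set.disjoint_left.mpr fun ξ h1 h2 => hpq (out_unique h1.2 h2.2)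
  have hsum : P (⋃ p, E' p) = P (⋃ p, E p) * c := by
    rw [measure_iUnion (fun p q hpq => (hdisj hpq).mono Set.inter_subset_left Set.inter_subset_left)
        fun p => (hEdet p).measurableSet.inter (measurable_shift p (measurableSet_cyl _ _)),
      measure_iUnion hdisj fun p => (hEdet p).measurableSet, ← ENNReal.tsum_mul_right]
    exact tsum_congr hsplit
  have hsmall : P (⋃ p, E p) * c ≤ ε / 2 * min c 1 := by
    rw [← hsum]
    refine le_trans (measure_mono fun ξ hξ => ?_) hlt.le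
    obtain ⟨p, hp⟩ := Set.mem_iUnion.1 hξ
    exact Or.inl ⟨hp.1.1, line_leaves hp.2⟩
  have hE : P (⋃ p, E p) ≤ ε / 2 := by
    refine le_trans ?_ (le_of_eq (mul_one (ε / 2)))
    rw [← ENNReal.mul_inv_cancel hc0 hct, ← mul_assoc]
    calc P (⋃ p, E p) = P (⋃ p, E p) * c * c⁻¹ := by
          rw [mul_assoc, ENNReal.mul_inv_cancel hc0 hct, mul_one]
      _ ≤ _ := mul_le_mul' (hsmall.trans (mul_le_mul' le_rfl (min_le_left _ _))) le_rfl
  calc P (S ∩ {η | ∀ n, ∃ t, n < (pos η t j).natAbs})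
      ≤ P ((⋃ p, E p) ∪ G ∆ S) := measure_mono fun ξ hξ => by
        by_cases hG : ξ ∈ G
        · have hex := hξ.2 H
          exact Or.inl (Set.mem_iUnion.2 ⟨Nat.find hex, hG, Nat.find_spec hex,
            fun s hs => not_lt.1 (Nat.find_min hex hs)⟩)
        · exact Or.inr (Or.inr ⟨hξ.1, hG⟩)
    _ ≤ ε / 2 + ε / 2 * min c 1 :=
        (measure_union_le _ _).trans (add_le_add hE hlt.le)
    _ ≤ ε / 2 + ε / 2 * 1 := add_le_add le_rfl (mul_le_mul' le_rfl (min_le_right _ _))
    _ = ε := by rw [mul_one, ENNReal.add_halves]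

/-- A walk is not confined to a finite box. -/
lemma box_null (hμ : Elliptic μ) (δ : Step d) (B : Finset (Pos d)) :
    nu μ (Stay (B : Set (Pos d))) = 0 := by
  classical
  obtain ⟨M, hM⟩ : ∃ M : ℕ, ∀ x ∈ B, x ∈ strip δ M := ⟨B.sup fun x => (ht δ x).natAbs,
    fun x hx => by
      have : (ht δ x).natAbs ≤ B.sup fun x => (ht δ x).natAbs :=
        Finset.le_sup (f := fun x => (ht δ x).natAbs) hx
      constructor <;> omega⟩
  set L := 2 * M + 1
  rw [nu_eq_lintegral (measurableSet_stay _)]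
  refine lintegral_eq_zero_of_ae_eq_zero ?_
  filter_upwards [ae_all_iff.2 fun Δ => ae_markov_sh hμ (markov hμ) Δ, ae_good hμ] with ω hω hgood
  set f : Pos d → ℝ≥0∞ := fun x => qlaw (sh x ω) (Stay {y | y + x ∈ B})
  rcases B.eq_empty_or_nonempty with rfl | hne
  · have : Stay ((∅ : Finset (Pos d)) : Set (Pos d)) = (∅ : Set (ℕ → Step d)) :=
      Set.eq_empty_of_forall_notMem fun η hη => by simpa using hη 0
    rw [this]
    simp
  obtain ⟨x₀, hx₀, hmax⟩ := Finset.exists_max_image B f hne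
  set ω' := sh x₀ ω
  have hg' : GoodEnv ω' := goodEnv_sh hgood x₀
  set c := W L (fun _ => δ) ω'
  have hbad : ∀ σ : Fin L → Step d, ext' σ ∈ cyl L (fun _ => δ) →
      cyl L (ext' σ) ∩ Stay {y | y + x₀ ∈ B} = ∅ := fun σ hσ =>
    Set.eq_empty_of_forall_notMem fun η hη => by
      have h1 := (hM x₀ hx₀).1
      have h2 := (hM _ (hη.2 L)).2
      have h3 : ht δ (pos η L) = 2 * (M : ℤ) + 1 := by
        rw [pos_congr fun t ht => (hη.1 t ht).trans (hσ t ht)]
        have := hgt_line δ L
        rw [hgt] at this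
        rw [this]
        simp [L]
      rw [ht_add, h3] at h2
      omega
  have hterm : ∀ σ : Fin L → Step d, qlaw ω' (cyl L (ext' σ) ∩ Stay {y | y + x₀ ∈ B}) ≤
      W L (ext' σ) ω' * f x₀ := fun σ => by
    set z := pos (ext' σ) L + x₀
    by_cases hz : z ∈ B
    · refine le_trans (measure_mono (t := cyl L (ext' σ) ∩ shift L ⁻¹' Stay {y | y + z ∈ B})
        fun η hη => ⟨hη.1, fun t => ?_⟩) ?_
      · have h1 := hη.2 (L + t)
        simp only [Set.mem_ofPred_eq, pos_add, pos_congr hη.1] at h1 ⊢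
        rwa [show pos (shift L η) t + z = pos (ext' σ) L + pos (shift L η) t + x₀ by
          simp only [z]; abel]
      · rw [hω x₀ L (ext' σ) _ (measurableSet_stay _)]
        exact mul_le_mul' le_rfl (hmax z hz)
    · have : cyl L (ext' σ) ∩ Stay {y | y + x₀ ∈ B} = ∅ :=
        Set.eq_empty_of_forall_notMem fun η hη => hz (by
          have := hη.2 L
          simpa [z, pos_congr hη.1] using this)
      rw [this, measure_empty]
      exact zero_le
  set σ₀ : Fin L → Step d := fun _ => δ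
  have hcov : f x₀ ≤ ∑ σ ∈ Finset.univ.erase σ₀, W L (ext' σ) ω' * f x₀ := by
    calc f x₀ ≤ qlaw ω' (⋃ σ ∈ Finset.univ.erase σ₀,
          cyl L (ext' σ) ∩ Stay {y | y + x₀ ∈ B}) := measure_mono fun η hη => by
          set σ : Fin L → Step d := fun t => η t
          have hc : η ∈ cyl L (ext' σ) := fun t ht => by rw [ext'_lt _ ht]
          refine Set.mem_iUnion₂.2 ⟨σ, Finset.mem_erase.2 ⟨fun he => ?_, Finset.mem_univ _⟩, hc, hη⟩
          have := hbad σ fun t ht => by rw [ext'_lt _ ht, he]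
          exact this.le ⟨hc, hη⟩
      _ ≤ _ := (measure_biUnion_finset_le _ _).trans (Finset.sum_le_sum fun σ _ => hterm σ)
  have htot : ∑ σ ∈ Finset.univ.erase σ₀, W L (ext' σ) ω' + W L (ext' σ₀) ω' = 1 := by
    rw [Finset.sum_erase_add _ _ (Finset.mem_univ _)]
    simp only [← qlaw_cyl hg']
    rw [← measure_univ (μ := qlaw ω'),
      measure_det (qlaw ω') (S := Set.univ) (H := L) fun _ _ _ h => h]
    simp
  have hW : W L (ext' σ₀) ω' ≠ 0 :=
    Finset.prod_ne_zero_iff.2 fun t _ => (ENNReal.ofReal_pos.2 ((hg' _).1 _)).ne'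
  have hf0 : f x₀ = 0 := by
    rw [← Finset.sum_mul] at hcov
    have hfin : f x₀ ≠ ∞ := measure_ne_top _ _
    have h1 : f x₀ + W L (ext' σ₀) ω' * f x₀ ≤ f x₀ + 0 := by
      rw [add_zero]
      calc f x₀ + W L (ext' σ₀) ω' * f x₀
          ≤ (∑ σ ∈ Finset.univ.erase σ₀, W L (ext' σ) ω') * f x₀ + W L (ext' σ₀) ω' * f x₀ :=
            add_le_add hcov le_rfl
        _ = f x₀ := by rw [← add_mul, htot, one_mul]
    exact (mul_eq_zero.1 (nonpos_iff_eq_zero.1 ((ENNReal.add_le_add_iff_left hfin).1 h1))).resolve_left hW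
  by_cases h0 : (0 : Pos d) ∈ B
  · have := hmax 0 h0
    simp only [f, sh_zero, add_zero] at this
    exact nonpos_iff_eq_zero.1 (this.trans hf0.le)
  · refine measure_mono_null (fun η hη => h0 ?_) (measure_empty (μ := qlaw ω))
    simpa [pos] using hη 0

/-- The walk leaves every strip. -/
theorem strip_null (hμ : Elliptic μ) (δ : Step d) (M : ℕ) : nu μ (Stay (strip δ M)) = 0 := by
  classical
  set box : ℕ → Finset (Pos d) := fun n => Fintype.piFinset fun _ => Finset.Icc (-(n : ℤ)) n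
  refine measure_mono_null (t := (⋃ n, Stay (box n : Set (Pos d))) ∪ ⋃ j : {j : Fin d // j ≠ δ.1},
    Stay (strip δ M) ∩ {η | ∀ n, ∃ t, n < (pos η t j).natAbs}) (fun η hη => ?_)
    (measure_union_null (measure_iUnion_null fun n => box_null hμ δ (box n))
      (measure_iUnion_null fun j => strip_bounded hμ δ M j.2))
  by_cases h : ∃ j : {j : Fin d // j ≠ δ.1}, ∀ n, ∃ t, n < (pos η t j).natAbs
  · exact Or.inr (Set.mem_iUnion.2 (h.imp fun j hj => ⟨hη, hj⟩))
  push Not at h
  choose n hn using h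
  refine Or.inl (Set.mem_iUnion.2 ⟨M + ∑ j, n j, fun t => ?_⟩)
  simp only [box, Finset.mem_coe, Fintype.mem_piFinset, Finset.mem_Icc]
  intro i
  rcases eq_or_ne i δ.1 with rfl | hi
  · have h1 := (hη t).1
    have h2 := (hη t).2
    simp only [ht] at h1 h2
    split_ifs at h1 h2 <;> constructor <;> omega
  · have h1 := hn ⟨i, hi⟩ t
    have h2 : n ⟨i, hi⟩ ≤ ∑ j, n j := Finset.single_le_sum (fun _ _ => Nat.zero_le _) (Finset.mem_univ _)
    simp only at h1
    constructor <;> omega

/-- A walk that cannot escape downwards without going back does go back. -/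
theorem noBack_null (hμ : Elliptic μ) (δ : Step d) (h : nu μ (Dir.Fwd (Planar.ax δ)) = 0) :
    nu μ (NoBack δ) = 0 := by
  by_contra hne
  have h1 := (mul_eq_zero.1 (noBack_escape hμ δ)).resolve_right hne
  refine hne (measure_mono_null (t := Dir.Fwd (Planar.ax δ) ∪ (Unbdd δ \ Dir.Escape (Planar.ax δ)) ∪
    ⋃ M, Stay (strip δ M)) (fun η hη => ?_)
    (measure_union_null (measure_union_null h h1) (measure_iUnion_null fun M => strip_null hμ δ M)))
  by_cases hu : η ∈ Unbdd δ
  · by_cases he : η ∈ Dir.Escape (Planar.ax δ)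
    · refine Or.inl (Or.inl ⟨fun t => ?_, he⟩)
      rw [Planar.lh_ax]
      exact_mod_cast mem_noBack.1 hη t
    · exact Or.inl (Or.inr ⟨hu, he⟩)
  · simp only [Unbdd, Set.mem_ofPred_eq, not_forall, not_exists, not_le] at hu
    obtain ⟨j, hj⟩ := hu
    refine Or.inr (Set.mem_iUnion.2 ⟨j, fun t => ?_⟩)
    have h1 := mem_noBack.1 hη t
    have h2 := hj t
    simp only [hgt] at h1 h2
    constructor <;> omega

/-- The walk climbs above every level when it cannot escape the other way without going back. -/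
theorem unbdd_of_null (hμ : Elliptic μ) (δ : Step d)
    (h : nu μ (Dir.Fwd (Planar.ax (opp δ))) = 0) : nu μ (Unbdd δ) = 1 := by
  have := isProbabilityMeasure_nu hμ
  refine (prob_compl_eq_zero_iff (measurableSet_unbdd δ)).1 (measure_mono_null
    (t := ⋃ n, shift n ⁻¹' NoBack (opp δ)) (fun η hη => ?_) (measure_iUnion_null fun n =>
      Dir.null_shift hμ (measurableSet_noBack _) (noBack_null hμ (opp δ) h) n))
  simp only [Set.mem_compl_iff, Unbdd, Set.mem_ofPred_eq, not_forall, not_exists, not_le] at hη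
  obtain ⟨j, hj⟩ := hη
  obtain ⟨z, ⟨n, rfl⟩, hmax⟩ := Int.exists_greatest_of_bdd (P := fun z => ∃ n, hgt δ η n = z)
    ⟨j, fun z hz => by obtain ⟨n, rfl⟩ := hz; exact (hj n).le⟩ ⟨0, 0, hgt_zero δ η⟩
  refine Set.mem_iUnion.2 ⟨n, fun t => ?_⟩
  have h1 := hmax _ ⟨n + t, rfl⟩
  rw [hgt_add] at h1
  show 0 ≤ ht (opp δ) _
  simp only [hgt, ht_opp] at h1 ⊢
  omega

/-- An axis escape is certain when it is possible and the opposite one is impossible. -/
theorem escape_one_of_null (hμ : Elliptic μ) (δ : Step d)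
    (h : nu μ (Dir.Fwd (Planar.ax (opp δ))) = 0) (hpos : 0 < nu μ (Dir.Fwd (Planar.ax δ))) :
    nu μ (Dir.Escape (Planar.ax δ)) = 1 :=
  escape hμ δ (unbdd_of_null hμ δ h) hpos

end Vale.Agent.P147.Flux
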